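import Mathlib

/-! P254: definitions used in the statement. -/

namespace P254

open MeasureTheory Set Matrix

variable {ι κ : Type} [Fintype ι] [DecidableEq ι] [Fintype κ] [DecidableEq κ]

/-- convex body -/
structure IsBody (K : Set (ι → ℝ)) : Prop where
  conv : Convex ℝ K
  comp : IsCompact K
  int : (interior K).Nonempty

/-- volume as a real number -/
noncomputable def vol (K : Set (ι → ℝ)) : ℝ := (volume K).toReal

/-- centroid -/
noncomputable def cen (K : Set (ι → ℝ)) : ι → ℝ := fun i => (vol K)⁻¹ * ∫ x in K, x i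

/-- covariance matrix -/
noncomputable def cov (K : Set (ι → ℝ)) : Matrix ι ι ℝ :=
  fun i j => (vol K)⁻¹ * ∫ x in K, (x i - cen K i) * (x j - cen K j)

/-- `det Σ_K / |K|^2` -/
noncomputable def D (K : Set (ι → ℝ)) : ℝ := (cov K).det / vol K ^ 2

/-- isotropic constant -/
noncomputable def isoConst (K : Set (ι → ℝ)) : ℝ := D K ^ ((1 : ℝ) / (2 * Fintype.card ι))

/-- the free sum of `K ⊆ R^k` and `L ⊆ R^m`: the convex hull of `K × {0} ∪ {0} × L` in
`R^(k+m)` -/
def fsum {k m : ℕ} (K : Set (Fin k → ℝ)) (L : Set (Fin m → ℝ)) : Set (Fin (k + m) → ℝ) :=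
  convexHull ℝ ({z | (fun i => z (Fin.castAdd m i)) ∈ K ∧ ∀ j, z (Fin.natAdd k j) = 0} ∪
    {z | (∀ i, z (Fin.castAdd m i) = 0) ∧ (fun j => z (Fin.natAdd k j)) ∈ L})

/-- the Cartesian product of `K ⊆ R^k` and `L ⊆ R^m` in `R^(k+m)` -/
def cprod {k m : ℕ} (K : Set (Fin k → ℝ)) (L : Set (Fin m → ℝ)) : Set (Fin (k + m) → ℝ) :=
  {z | (fun i => z (Fin.castAdd m i)) ∈ K ∧ (fun j => z (Fin.natAdd k j)) ∈ L}

/-- `K` is an `n`-simplex -/
def IsSimplex {n : ℕ} (K : Set (Fin n → ℝ)) : Prop :=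
  ∃ p : Fin (n + 1) → (Fin n → ℝ), AffineIndependent ℝ p ∧ K = convexHull ℝ (range p)

/-- the inequality of the strong isotropic constant conjecture for `K`: the isotropic constant
of `K` is at most that of every `n`-simplex -/
def SIC {n : ℕ} (K : Set (Fin n → ℝ)) : Prop :=
  ∀ Δ : Set (Fin n → ℝ), IsSimplex Δ → isoConst K ≤ isoConst Δ

/-- bodies obtained from the segment `[0,1]` by invertible affine maps, Cartesian products and
free sums at an arbitrary common point -/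
inductive Gen : (n : ℕ) → Set (Fin n → ℝ) → Prop
  | segment : Gen 1 {x | 0 ≤ x 0 ∧ x 0 ≤ 1}
  | affine {n : ℕ} {K : Set (Fin n → ℝ)} (e : (Fin n → ℝ) ≃ₗ[ℝ] (Fin n → ℝ)) (c : Fin n → ℝ) :
      Gen n K → Gen n ((fun x => e x + c) '' K)
  | prod {k m : ℕ} {K : Set (Fin k → ℝ)} {L : Set (Fin m → ℝ)} :
      Gen k K → Gen m L → Gen (k + m) (cprod K L)
  | free {k m : ℕ} {K : Set (Fin k → ℝ)} {L : Set (Fin m → ℝ)} :
      Gen k K → Gen m L → 0 ∈ K → 0 ∈ L → Gen (k + m) (fsum K L)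

end P254
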