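import Mathlib
import Vale.Agent.P254.Basic

/-! P254: auxiliary definitions. -/

namespace P254

open MeasureTheory Set Matrix
open scoped Pointwise Nat

variable {ι κ : Type} [Fintype ι] [DecidableEq ι] [Fintype κ] [DecidableEq κ]

/-- value of `D` at an `n`-simplex -/
noncomputable def fS (n : ℕ) : ℝ := (n ! : ℝ) ^ 2 / (((n : ℝ) + 1) ^ (n + 1) * ((n : ℝ) + 2) ^ n)

/-- free sum of two sets containing the origin: the convex hull of `K × 0 ∪ 0 × L` -/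
def freeSum (K : Set (ι → ℝ)) (L : Set (κ → ℝ)) : Set (ι ⊕ κ → ℝ) :=
  {z | ∃ s t : ℝ, 0 ≤ s ∧ 0 ≤ t ∧ s + t = 1 ∧
    (fun i => z (Sum.inl i)) ∈ s • K ∧ (fun j => z (Sum.inr j)) ∈ t • L}

/-- scaled first moments -/
noncomputable def sv (K : Set (ι → ℝ)) : ι → ℝ :=
  fun i => ((Fintype.card ι : ℝ) + 1) * ((vol K)⁻¹ * ∫ x in K, x i)

/-- scaled second moments minus `s sᵀ` -/
noncomputable def NN (K : Set (ι → ℝ)) : Matrix ι ι ℝ :=
  fun i j => ((Fintype.card ι : ℝ) + 1) * ((Fintype.card ι : ℝ) + 2) *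
    ((vol K)⁻¹ * ∫ x in K, x i * x j) - sv K i * sv K j

noncomputable def pp (K : Set (ι → ℝ)) : ℝ :=
  (Fintype.card ι : ℝ) + 1 - sv K ⬝ᵥ ((NN K)⁻¹ *ᵥ sv K)

/-- gauge -/
noncomputable def gau (K : Set (ι → ℝ)) (x : ι → ℝ) : ℝ := sInf {r : ℝ | 0 ≤ r ∧ x ∈ r • K}

/-- the standard solid simplex -/
def T (n : ℕ) : Set (Fin n → ℝ) := {x | (∀ i, 0 ≤ x i) ∧ ∑ i, x i ≤ 1}

end P254
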