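import Mathlib
import Vale.Agent.P254.Defs

namespace P254

open MeasureTheory Set Matrix
open scoped Pointwise Nat

variable {ι κ : Type} [Fintype ι] [DecidableEq ι] [Fintype κ] [DecidableEq κ]

theorem vol_pos {K : Set (ι → ℝ)} (hK : IsBody K) : 0 < vol K := by
  unfold vol
  apply ENNReal.toReal_pos
  · exact (Measure.measure_pos_of_nonempty_interior volume hK.int).ne'
  · exact hK.comp.measure_lt_top.ne

theorem cont_int {K : Set (ι → ℝ)} (hK : IsBody K) {f : (ι → ℝ) → ℝ} (hf : Continuous f) :
    IntegrableOn f K :=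
  hf.continuousOn.integrableOn_compact hK.comp

theorem quad_cov {K : Set (ι → ℝ)} (hK : IsBody K) (w : ι → ℝ) :
    w ⬝ᵥ (cov K *ᵥ w) = (vol K)⁻¹ * ∫ x in K, (∑ i, w i * (x i - cen K i)) ^ 2 := by
  have h1 : ∀ x : ι → ℝ, (∑ i, w i * (x i - cen K i)) ^ 2
      = ∑ i, ∑ j, w i * w j * ((x i - cen K i) * (x j - cen K j)) := by
    intro x
    rw [sq, Finset.sum_mul_sum]
    apply Finset.sum_congr rfl
    intro i _
    apply Finset.sum_congr rfl
    intro j _
    ring
  have h2 : ∫ x in K, (∑ i, w i * (x i - cen K i)) ^ 2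
      = ∑ i, ∑ j, w i * w j * ∫ x in K, (x i - cen K i) * (x j - cen K j) := by
    simp_rw [h1]
    rw [integral_finset_sum]
    · apply Finset.sum_congr rfl
      intro i _
      rw [integral_finset_sum]
      · apply Finset.sum_congr rfl
        intro j _
        rw [integral_const_mul]
      · intro j _
        exact cont_int hK (by fun_prop)
    · intro i _
      exact cont_int hK (by fun_prop)
  rw [h2]
  simp only [dotProduct, mulVec, cov, Finset.mul_sum]
  apply Finset.sum_congr rfl
  intro i _
  apply Finset.sum_congr rfl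
  intro j _
  ring

theorem quad_cov_pos {K : Set (ι → ℝ)} (hK : IsBody K) (w : ι → ℝ) (hw : w ≠ 0) :
    0 < w ⬝ᵥ (cov K *ᵥ w) := by
  rw [quad_cov hK w]
  apply mul_pos (inv_pos.mpr (vol_pos hK))
  have hc : Continuous fun x : ι → ℝ => (∑ i, w i * (x i - cen K i)) ^ 2 := by fun_prop
  rw [setIntegral_pos_iff_support_of_nonneg_ae]
  · obtain ⟨y, hy⟩ := hK.int
    have hwpos : 0 < ∑ i, w i * w i := by
      have hne : ∃ i, w i ≠ 0 := Function.ne_iff.mp hw
      obtain ⟨i, hi⟩ := hne
      exact Finset.sum_pos' (fun j _ => mul_self_nonneg _)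
        ⟨i, Finset.mem_univ _, mul_self_pos.mpr hi⟩
    have hopen : IsOpen (Function.support (fun x : ι → ℝ => (∑ i, w i * (x i - cen K i)) ^ 2)
        ∩ interior K) := by
      apply IsOpen.inter _ isOpen_interior
      exact hc.isOpen_support
    have hne : (Function.support (fun x : ι → ℝ => (∑ i, w i * (x i - cen K i)) ^ 2)
        ∩ interior K).Nonempty := by
      by_cases h0 : ∑ i, w i * (y i - cen K i) = 0
      · -- move a little
        have hcont : Continuous fun t : ℝ => y + t • w := by fun_prop
        have hmem : ∀ᶠ t in nhds (0 : ℝ), y + t • w ∈ interior K := by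
          apply hcont.continuousAt.eventually_mem
          simpa using isOpen_interior.mem_nhds hy
        obtain ⟨ε, hε, hball⟩ := Metric.eventually_nhds_iff.mp hmem
        have hx : y + (ε / 2) • w ∈ interior K := by
          apply hball
          rw [Real.dist_eq, sub_zero, abs_of_pos (half_pos hε)]
          linarith
        refine ⟨y + (ε / 2) • w, ?_, hx⟩
        have h3 : ∑ i, w i * ((y + (ε / 2) • w) i - cen K i)
            = (ε / 2) * ∑ i, w i * w i := by
          have : ∀ i, w i * ((y + (ε / 2) • w) i - cen K i)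
              = w i * (y i - cen K i) + (ε / 2) * (w i * w i) := by
            intro i
            simp only [Pi.add_apply, Pi.smul_apply, smul_eq_mul]
            ring
          simp_rw [this]
          rw [Finset.sum_add_distrib, h0, zero_add, Finset.mul_sum]
        rw [Function.mem_support, h3]
        positivity
      · exact ⟨y, by rw [Function.mem_support]; exact pow_ne_zero 2 h0, hy⟩
    calc 0 < volume (Function.support (fun x : ι → ℝ => (∑ i, w i * (x i - cen K i)) ^ 2)
        ∩ interior K) := hopen.measure_pos volume hne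
      _ ≤ volume (Function.support (fun x : ι → ℝ => (∑ i, w i * (x i - cen K i)) ^ 2) ∩ K) :=
        measure_mono (inter_subset_inter_right _ interior_subset)
  · exact Filter.Eventually.of_forall fun x => sq_nonneg _
  · exact cont_int hK hc

/-- the covariance form is positive definite -/
theorem cov_posDef {K : Set (ι → ℝ)} (hK : IsBody K) : (cov K).PosDef := by
  apply PosDef.of_dotProduct_mulVec_pos
  · ext i j
    simp only [conjTranspose_apply, cov, star_trivial]
    congr 1
    apply integral_congr_ae
    exact Filter.Eventually.of_forall fun x => by ring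
  · intro w hw
    have := quad_cov_pos hK w hw
    simpa using this

theorem freeSum_body {K : Set (ι → ℝ)} {L : Set (κ → ℝ)}
    (hK : IsBody K) (_hK0 : (0 : ι → ℝ) ∈ K) (hL : IsBody L) (_hL0 : (0 : κ → ℝ) ∈ L) :
    IsBody (freeSum K L) := by
  refine ⟨?_, ?_, ?_⟩
  · -- convex
    rintro z ⟨s, t, hs, ht, hst, hz1, hz2⟩ z' ⟨s', t', hs', ht', hst', hz1', hz2'⟩ a b ha hb hab
    refine ⟨a * s + b * s', a * t + b * t', by positivity, by positivity, ?_, ?_, ?_⟩
    · have : a * s + b * s' + (a * t + b * t') = a * (s + t) + b * (s' + t') := by ring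
      rw [this, hst, hst']; linarith
    · have e := hK.conv.add_smul (mul_nonneg ha hs) (mul_nonneg hb hs')
      rw [e]
      have : (fun i => (a • z + b • z') (Sum.inl i))
          = a • (fun i => z (Sum.inl i)) + b • (fun i => z' (Sum.inl i)) := by
        ext i; simp
      rw [this]
      apply Set.add_mem_add
      · rw [← smul_smul]; exact Set.smul_mem_smul_set hz1
      · rw [← smul_smul]; exact Set.smul_mem_smul_set hz1'
    · have e := hL.conv.add_smul (mul_nonneg ha ht) (mul_nonneg hb ht')
      rw [e]
      have : (fun i => (a • z + b • z') (Sum.inr i))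
          = a • (fun i => z (Sum.inr i)) + b • (fun i => z' (Sum.inr i)) := by
        ext i; simp
      rw [this]
      apply Set.add_mem_add
      · rw [← smul_smul]; exact Set.smul_mem_smul_set hz2
      · rw [← smul_smul]; exact Set.smul_mem_smul_set hz2'
  · -- compact
    have himg : freeSum K L = (fun q : ℝ × (ι → ℝ) × (κ → ℝ) =>
        (Sum.elim (fun i => q.1 * q.2.1 i) (fun j => (1 - q.1) * q.2.2 j) : ι ⊕ κ → ℝ)) ''
        (Icc (0 : ℝ) 1 ×ˢ (K ×ˢ L)) := by
      ext z
      constructor
      · rintro ⟨s, t, hs, ht, hst, ⟨a, ha, haz⟩, ⟨b, hb, hbz⟩⟩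
        refine ⟨(s, a, b), ⟨⟨hs, by linarith⟩, ha, hb⟩, ?_⟩
        ext i
        rcases i with i | j
        · have := congrFun haz i
          simpa using this
        · have := congrFun hbz j
          have ht' : 1 - s = t := by linarith
          simp only [Sum.elim_inr, ht']
          simpa using this
      · rintro ⟨⟨s, a, b⟩, ⟨⟨hs, hs1⟩, ha, hb⟩, rfl⟩
        refine ⟨s, 1 - s, hs, by linarith, by ring, ⟨a, ha, ?_⟩, ⟨b, hb, ?_⟩⟩
        · ext i; simp
        · ext j; simp
    rw [himg]
    apply IsCompact.image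
    · exact isCompact_Icc.prod (hK.comp.prod hL.comp)
    · apply continuous_pi
      intro i
      rcases i with i | j
      · simp only [Sum.elim_inl]
        fun_prop
      · simp only [Sum.elim_inr]
        fun_prop
  · -- interior
    obtain ⟨a, ha⟩ := hK.int
    obtain ⟨b, hb⟩ := hL.int
    have h2 : (1 / 2 : ℝ) ≠ 0 := by norm_num
    have hU : IsOpen {z : ι ⊕ κ → ℝ | (fun i => z (Sum.inl i)) ∈ (1 / 2 : ℝ) • interior K ∧
        (fun j => z (Sum.inr j)) ∈ (1 / 2 : ℝ) • interior L} := by
      apply IsOpen.inter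
      · exact (isOpen_interior.smul₀ h2).preimage (by fun_prop)
      · exact (isOpen_interior.smul₀ h2).preimage (by fun_prop)
    have hsub : {z : ι ⊕ κ → ℝ | (fun i => z (Sum.inl i)) ∈ (1 / 2 : ℝ) • interior K ∧
        (fun j => z (Sum.inr j)) ∈ (1 / 2 : ℝ) • interior L} ⊆ freeSum K L := by
      rintro z ⟨h1, h3⟩
      exact ⟨1 / 2, 1 / 2, by norm_num, by norm_num, by norm_num,
        Set.smul_set_mono interior_subset h1, Set.smul_set_mono interior_subset h3⟩
    refine ⟨Sum.elim ((1 / 2 : ℝ) • a) ((1 / 2 : ℝ) • b), ?_⟩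
    apply interior_maximal hsub hU
    exact ⟨Set.smul_mem_smul_set ha, Set.smul_mem_smul_set hb⟩

end P254
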