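import Mathlib
import Vale.Agent.P254.PD

namespace P254

open MeasureTheory Set Matrix
open scoped Pointwise Nat

variable {ι κ : Type} [Fintype ι] [DecidableEq ι] [Fintype κ] [DecidableEq κ]

/-- Cartesian product -/
def prodBody (K : Set (ι → ℝ)) (L : Set (κ → ℝ)) : Set (ι ⊕ κ → ℝ) :=
  {z | (fun i => z (Sum.inl i)) ∈ K ∧ (fun j => z (Sum.inr j)) ∈ L}

theorem prodBody_body {K : Set (ι → ℝ)} {L : Set (κ → ℝ)} (hK : IsBody K) (hL : IsBody L) :
    IsBody (prodBody K L) := by
  refine ⟨?_, ?_, ?_⟩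
  · rintro z ⟨hz1, hz2⟩ z' ⟨hz1', hz2'⟩ a b ha hb hab
    exact ⟨hK.conv hz1 hz1' ha hb hab, hL.conv hz2 hz2' ha hb hab⟩
  · have himg : prodBody K L = (fun q : (ι → ℝ) × (κ → ℝ) =>
        (Sum.elim q.1 q.2 : ι ⊕ κ → ℝ)) '' (K ×ˢ L) := by
      ext z
      constructor
      · rintro ⟨h1, h2⟩
        refine ⟨(_, _), ⟨h1, h2⟩, ?_⟩
        ext a
        rcases a with a | a
        · rfl
        · rfl
      · rintro ⟨⟨x, y⟩, ⟨hx, hy⟩, rfl⟩
        exact ⟨hx, hy⟩
    rw [himg]
    apply (hK.comp.prod hL.comp).image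
    apply continuous_pi
    rintro (a | a)
    · simp only [Sum.elim_inl]
      fun_prop
    · simp only [Sum.elim_inr]
      fun_prop
  · obtain ⟨a, ha⟩ := hK.int
    obtain ⟨b, hb⟩ := hL.int
    have hU : IsOpen {z : ι ⊕ κ → ℝ | (fun i => z (Sum.inl i)) ∈ interior K ∧
        (fun j => z (Sum.inr j)) ∈ interior L} := by
      apply IsOpen.inter
      · exact isOpen_interior.preimage (by fun_prop)
      · exact isOpen_interior.preimage (by fun_prop)
    have hsub : {z : ι ⊕ κ → ℝ | (fun i => z (Sum.inl i)) ∈ interior K ∧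
        (fun j => z (Sum.inr j)) ∈ interior L} ⊆ prodBody K L := by
      rintro z ⟨h1, h3⟩
      exact ⟨interior_subset h1, interior_subset h3⟩
    refine ⟨Sum.elim a b, ?_⟩
    apply interior_maximal hsub hU
    exact ⟨ha, hb⟩

theorem prod_integral (K : Set (ι → ℝ)) (L : Set (κ → ℝ)) (f : (ι → ℝ) → ℝ)
    (h : (κ → ℝ) → ℝ) :
    ∫ z in prodBody K L, f (fun a => z (Sum.inl a)) * h (fun b => z (Sum.inr b))
      = (∫ x in K, f x) * ∫ y in L, h y := by
  have hmp : MeasurePreserving (MeasurableEquiv.sumPiEquivProdPi (fun _ : ι ⊕ κ => ℝ))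
      volume volume := volume_measurePreserving_sumPiEquivProdPi (fun _ : ι ⊕ κ => ℝ)
  have h1 : ∫ z in prodBody K L, f (fun a => z (Sum.inl a)) * h (fun b => z (Sum.inr b))
      = ∫ p in K ×ˢ L, f p.1 * h p.2 := by
    have hpre : prodBody K L
        = (MeasurableEquiv.sumPiEquivProdPi (fun _ : ι ⊕ κ => ℝ)) ⁻¹' (K ×ˢ L) := by
      ext z
      rfl
    rw [hpre]
    exact hmp.setIntegral_preimage_emb
      (MeasurableEquiv.sumPiEquivProdPi (fun _ : ι ⊕ κ => ℝ)).measurableEmbedding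
      (fun p => f p.1 * h p.2) (K ×ˢ L)
  rw [h1]
  exact setIntegral_prod_mul f h K L

theorem vol_eq_integral (K : Set (ι → ℝ)) : vol K = ∫ _x in K, (1 : ℝ) := by
  simp [vol, Measure.real]

theorem vol_prodBody (K : Set (ι → ℝ)) (L : Set (κ → ℝ)) :
    vol (prodBody K L) = vol K * vol L := by
  rw [vol_eq_integral, vol_eq_integral, vol_eq_integral, ← prod_integral K L (fun _ => 1)
    (fun _ => 1)]
  simp

theorem int_inl (K : Set (ι → ℝ)) (L : Set (κ → ℝ)) (f : (ι → ℝ) → ℝ) :
    ∫ z in prodBody K L, f (fun a => z (Sum.inl a)) = (∫ x in K, f x) * vol L := by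
  rw [vol_eq_integral, ← prod_integral K L f (fun _ => 1)]
  simp

theorem int_inr (K : Set (ι → ℝ)) (L : Set (κ → ℝ)) (h : (κ → ℝ) → ℝ) :
    ∫ z in prodBody K L, h (fun a => z (Sum.inr a)) = vol K * ∫ y in L, h y := by
  rw [vol_eq_integral, ← prod_integral K L (fun _ => 1) h]
  simp

theorem cen_inl {K : Set (ι → ℝ)} {L : Set (κ → ℝ)} (hK : IsBody K) (hL : IsBody L) (i : ι) :
    cen (prodBody K L) (Sum.inl i) = cen K i := by
  have hL0 := (vol_pos hL).ne'
  have hK0 := (vol_pos hK).ne'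
  have := int_inl K L (fun x => x i)
  unfold cen
  rw [vol_prodBody, this]
  field_simp

theorem cen_inr {K : Set (ι → ℝ)} {L : Set (κ → ℝ)} (hK : IsBody K) (hL : IsBody L) (j : κ) :
    cen (prodBody K L) (Sum.inr j) = cen L j := by
  have hL0 := (vol_pos hL).ne'
  have hK0 := (vol_pos hK).ne'
  have := int_inr K L (fun x => x j)
  unfold cen
  rw [vol_prodBody, this]
  field_simp

theorem int_sub_cen {K : Set (ι → ℝ)} (hK : IsBody K) (i : ι) :
    ∫ x in K, (x i - cen K i) = 0 := by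
  have hK0 := (vol_pos hK).ne'
  rw [integral_sub (cont_int hK (by fun_prop)) (cont_int hK (by fun_prop))]
  have h2 : ∫ _x in K, cen K i = vol K * cen K i := by
    rw [setIntegral_const]
    simp [vol, Measure.real]
  rw [h2]
  unfold cen
  field_simp
  ring

theorem cov_prodBody {K : Set (ι → ℝ)} {L : Set (κ → ℝ)} (hK : IsBody K) (hL : IsBody L) :
    cov (prodBody K L) = fromBlocks (cov K) 0 0 (cov L) := by
  have hL0 := (vol_pos hL).ne'
  have hK0 := (vol_pos hK).ne'
  ext a b
  rcases a with a | a <;> rcases b with b | b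
  · rw [fromBlocks_apply₁₁]
    have h := int_inl K L (fun x => (x a - cen K a) * (x b - cen K b))
    unfold cov
    rw [vol_prodBody, cen_inl hK hL, cen_inl hK hL, h]
    field_simp
  · rw [fromBlocks_apply₁₂]
    have h := prod_integral K L (fun x => (x a - cen K a)) (fun y => (y b - cen L b))
    unfold cov
    rw [vol_prodBody, cen_inl hK hL, cen_inr hK hL, h, int_sub_cen hK]
    simp
  · rw [fromBlocks_apply₂₁]
    have h := prod_integral K L (fun x => (x b - cen K b)) (fun y => (y a - cen L a))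
    unfold cov
    rw [vol_prodBody, cen_inl hK hL, cen_inr hK hL]
    have h2 : ∫ z in prodBody K L, (z (Sum.inr a) - cen L a) * (z (Sum.inl b) - cen K b)
        = 0 := by
      rw [show (fun z : ι ⊕ κ → ℝ => (z (Sum.inr a) - cen L a) * (z (Sum.inl b) - cen K b))
        = fun z => (z (Sum.inl b) - cen K b) * (z (Sum.inr a) - cen L a) from
        funext fun z => mul_comm _ _]
      rw [h, int_sub_cen hK, zero_mul]
    rw [h2]
    simp
  · rw [fromBlocks_apply₂₂]
    have h := int_inr K L (fun x => (x a - cen L a) * (x b - cen L b))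
    unfold cov
    rw [vol_prodBody, cen_inr hK hL, cen_inr hK hL, h]
    field_simp

theorem D_prod {K : Set (ι → ℝ)} {L : Set (κ → ℝ)} (hK : IsBody K) (hL : IsBody L) :
    D (prodBody K L) = D K * D L := by
  unfold D
  rw [cov_prodBody hK hL, det_fromBlocks_zero₂₁, vol_prodBody, mul_pow, mul_div_mul_comm]

end P254
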