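import Mathlib
import Vale.Agent.P254.Defs

namespace P254

open MeasureTheory Set Matrix
open scoped Pointwise Nat

variable {ι κ : Type} [Fintype ι] [DecidableEq ι] [Fintype κ] [DecidableEq κ]

theorem smul_mem_of {K : Set (ι → ℝ)} (hK : Convex ℝ K) (h0 : (0 : ι → ℝ) ∈ K) {r s : ℝ}
    (hr : 0 ≤ r) (hrs : r ≤ s) {x : ι → ℝ} (hx : x ∈ r • K) : x ∈ s • K := by
  obtain ⟨y, hy, rfl⟩ := hx
  rcases hr.eq_or_lt with h | h
  · subst h
    refine ⟨0, h0, ?_⟩
    simp
  · have hs : 0 < s := lt_of_lt_of_le h hrs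
    refine ⟨(r / s) • y, hK.smul_mem_of_zero_mem h0 hy ⟨by positivity, ?_⟩, ?_⟩
    · rw [div_le_one hs]; exact hrs
    · show s • (r / s) • y = r • y
      rw [smul_smul, mul_div_cancel₀ _ hs.ne']

/-- for `0 ≤ r ≤ 1`: `{x ∈ K | gau K x ≤ r} = r • K` -/
theorem mem_smul_iff_gau {K : Set (ι → ℝ)} (hK : IsBody K) (h0 : (0 : ι → ℝ) ∈ K) {r : ℝ}
    (hr : 0 ≤ r) (hr1 : r ≤ 1) (x : ι → ℝ) : x ∈ r • K ↔ (x ∈ K ∧ gau K x ≤ r) := by
  have hbdd : BddBelow {r : ℝ | 0 ≤ r ∧ x ∈ r • K} := ⟨0, fun s hs => hs.1⟩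
  constructor
  · intro hx
    refine ⟨?_, csInf_le hbdd ⟨hr, hx⟩⟩
    have := smul_mem_of hK.conv h0 hr hr1 hx
    rwa [one_smul] at this
  · rintro ⟨hxK, hg⟩
    have hne : {r : ℝ | 0 ≤ r ∧ x ∈ r • K}.Nonempty := ⟨1, zero_le_one, by rwa [one_smul]⟩
    have key : ∀ s, r < s → x ∈ s • K := by
      intro s hs
      obtain ⟨u, hu, hus⟩ := (csInf_lt_iff hbdd hne).1 (lt_of_le_of_lt hg hs)
      exact smul_mem_of hK.conv h0 hu.1 hus.le hu.2
    -- the sequence
    have hpos : ∀ n : ℕ, 0 < r + 1 / ((n : ℝ) + 1) := fun n => by positivity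
    have hseq : ∀ n : ℕ, ∃ y ∈ K, (r + 1 / ((n : ℝ) + 1)) • y = x := by
      intro n
      have h1 : r < r + 1 / ((n : ℝ) + 1) := by
        have : 0 < 1 / ((n : ℝ) + 1) := by positivity
        linarith
      exact key _ h1
    choose y hyK hyx using hseq
    obtain ⟨y0, hy0, ns, hns, hlim⟩ := hK.comp.tendsto_subseq hyK
    refine ⟨y0, hy0, ?_⟩
    have h1 : Filter.Tendsto (fun n : ℕ => r + 1 / ((n : ℝ) + 1)) Filter.atTop (nhds (r + 0)) :=
      tendsto_const_nhds.add tendsto_one_div_add_atTop_nhds_zero_nat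
    have h2 := (h1.comp hns.tendsto_atTop).smul hlim
    have h3 : Filter.Tendsto (fun _ : ℕ => x) Filter.atTop (nhds ((r + 0) • y0)) := by
      refine h2.congr fun n => ?_
      exact hyx (ns n)
    have h4 := tendsto_nhds_unique h3 tendsto_const_nhds
    show r • y0 = x
    rw [← h4, add_zero]

theorem gau_nonneg (K : Set (ι → ℝ)) (x : ι → ℝ) : 0 ≤ gau K x :=
  Real.sInf_nonneg fun _ hr => hr.1

theorem gau_le_one {K : Set (ι → ℝ)} {x : ι → ℝ} (hx : x ∈ K) : gau K x ≤ 1 :=
  csInf_le ⟨0, fun _ hs => hs.1⟩ ⟨zero_le_one, by rwa [one_smul]⟩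

/-- `∫_{rK} f = r^(k+i) ∫_K f` -/
theorem integral_smul_set {K : Set (ι → ℝ)} (i : ℕ) (f : (ι → ℝ) → ℝ)
    (hom : ∀ r : ℝ, 0 ≤ r → ∀ x, f (r • x) = r ^ i * f x) {r : ℝ} (hr : 0 < r) :
    ∫ x in r • K, f x = r ^ (Fintype.card ι + i) * ∫ x in K, f x := by
  have h1 := Measure.setIntegral_comp_smul_of_pos (volume : Measure (ι → ℝ)) f K hr
  rw [Module.finrank_fintype_fun_eq_card] at h1
  have h2 : ∫ x in K, f (r • x) = r ^ i * ∫ x in K, f x := by
    rw [← integral_const_mul]
    exact integral_congr_ae (Filter.Eventually.of_forall fun x => hom r hr.le x)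
  rw [h2, smul_eq_mul] at h1
  have h3 : r ^ Fintype.card ι ≠ 0 := by positivity
  rw [pow_add, mul_assoc, h1, ← mul_assoc, mul_inv_cancel₀ h3, one_mul]

theorem beta_nat (b : ℕ) : ∀ a : ℕ,
    ∫ t in (0 : ℝ)..1, t ^ a * (1 - t) ^ b = (a ! * b ! / (a + b + 1)! : ℝ) := by
  induction b with
  | zero =>
    intro a
    have h1 : ∫ t in (0 : ℝ)..1, t ^ a * (1 - t) ^ 0 = ∫ t in (0 : ℝ)..1, t ^ a := by
      simp
    rw [h1, integral_pow]
    have h2 : ((a + 0 + 1)! : ℝ) = ((a : ℝ) + 1) * (a ! : ℝ) := by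
      rw [add_zero, Nat.factorial_succ]; push_cast; ring
    have h3 : (a ! : ℝ) ≠ 0 := by exact_mod_cast Nat.factorial_ne_zero a
    rw [h2, Nat.factorial_zero]
    have h4 : ((a : ℝ) + 1) ≠ 0 := by positivity
    field_simp
    simp
  | succ b ih =>
    intro a
    have hder : ∀ t : ℝ, HasDerivAt (fun t : ℝ => t ^ (a + 1) * (1 - t) ^ (b + 1))
        (((a : ℝ) + 1) * (t ^ a * (1 - t) ^ (b + 1))
          - ((b : ℝ) + 1) * (t ^ (a + 1) * (1 - t) ^ b)) t := by
      intro t
      have h1 : HasDerivAt (fun t : ℝ => t ^ (a + 1)) (((a : ℝ) + 1) * t ^ a) t := by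
        have := hasDerivAt_pow (a + 1) t
        simpa using this
      have h2 : HasDerivAt (fun t : ℝ => 1 - t) (-1) t := by
        simpa using (hasDerivAt_id t).const_sub 1
      have h3 : HasDerivAt (fun t : ℝ => (1 - t) ^ (b + 1))
          (((b : ℝ) + 1) * (1 - t) ^ b * (-1)) t := by
        have := h2.fun_pow (b + 1)
        simpa using this
      exact (h1.fun_mul h3).congr_deriv (by ring)
    have hint := intervalIntegral.integral_eq_sub_of_hasDerivAt (a := (0 : ℝ)) (b := 1)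
      (fun t _ => hder t) (by
        apply Continuous.intervalIntegrable
        fun_prop)
    have hI1 : IntervalIntegrable (fun t : ℝ => ((a : ℝ) + 1) * (t ^ a * (1 - t) ^ (b + 1)))
        volume 0 1 := by
      apply Continuous.intervalIntegrable
      fun_prop
    have hI2 : IntervalIntegrable (fun t : ℝ => ((b : ℝ) + 1) * (t ^ (a + 1) * (1 - t) ^ b))
        volume 0 1 := by
      apply Continuous.intervalIntegrable
      fun_prop
    rw [intervalIntegral.integral_sub hI1 hI2, intervalIntegral.integral_const_mul,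
      intervalIntegral.integral_const_mul, ih (a + 1)] at hint
    have h5 : ((1 : ℝ) ^ (a + 1) * (1 - 1) ^ (b + 1) - 0 ^ (a + 1) * (1 - 0) ^ (b + 1)) = 0 := by
      simp
    rw [h5] at hint
    have h6 : (a + 1 + b + 1)! = (a + (b + 1) + 1)! := by
      congr 1; ring
    rw [h6] at hint
    have h7 : ((a + 1)! : ℝ) = ((a : ℝ) + 1) * (a ! : ℝ) := by
      rw [Nat.factorial_succ]; push_cast; ring
    have h8 : ((b + 1)! : ℝ) = ((b : ℝ) + 1) * (b ! : ℝ) := by
      rw [Nat.factorial_succ]; push_cast; ring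
    rw [h7] at hint
    rw [h8]
    have h9 : ((a : ℝ) + 1) ≠ 0 := by positivity
    have h10 : (((a + (b + 1) + 1)! : ℕ) : ℝ) ≠ 0 := by
      exact_mod_cast Nat.factorial_ne_zero _
    have h11 : ((a : ℝ) + 1) * ∫ t in (0 : ℝ)..1, t ^ a * (1 - t) ^ (b + 1)
        = ((a : ℝ) + 1) * ((a ! : ℝ) * (((b : ℝ) + 1) * (b ! : ℝ)) / ((a + (b + 1) + 1)! : ℕ)) := by
      have : ((a : ℝ) + 1) * ∫ t in (0 : ℝ)..1, t ^ a * (1 - t) ^ (b + 1)
        = ((b : ℝ) + 1) * (((a : ℝ) + 1) * (a ! : ℝ) * (b ! : ℝ) / ((a + (b + 1) + 1)! : ℕ)) := by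
        linarith
      rw [this]
      ring
    exact mul_left_cancel₀ h9 h11

/-- radial integration -/
theorem radial {K : Set (ι → ℝ)} (hK : IsBody K) (h0 : (0 : ι → ℝ) ∈ K) (i m : ℕ)
    (f : (ι → ℝ) → ℝ) (hf : Continuous f)
    (hom : ∀ r : ℝ, 0 ≤ r → ∀ x, f (r • x) = r ^ i * f x) :
    ∫ x in K, f x * (1 - gau K x) ^ m
      = ((Fintype.card ι + i)! * m ! / (Fintype.card ι + i + m)! : ℝ) * ∫ x in K, f x := by
  rcases Nat.eq_zero_or_pos m with hm | hm
  · subst hm
    have h1 : ((Fintype.card ι + i + 0)! : ℝ) ≠ 0 := by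
      exact_mod_cast Nat.factorial_ne_zero _
    simp only [pow_zero, mul_one, Nat.factorial_zero, Nat.cast_one, add_zero] at h1 ⊢
    rw [div_self h1, one_mul]
  obtain ⟨b, rfl⟩ : ∃ b, m = b + 1 := ⟨m - 1, by omega⟩
  -- the compact set `E`
  set E : Set ((ι → ℝ) × ℝ) := (fun p : (ι → ℝ) × ℝ => (p.2 • p.1, p.2)) '' (K ×ˢ Icc (0 : ℝ) 1)
    with hE
  have hEcomp : IsCompact E := (hK.comp.prod isCompact_Icc).image (by fun_prop)
  have hEmeas : MeasurableSet E := hEcomp.isClosed.measurableSet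
  have hmemE : ∀ x t, (x, t) ∈ E ↔ (0 ≤ t ∧ t ≤ 1 ∧ x ∈ t • K) := by
    intro x t
    rw [hE]
    constructor
    · rintro ⟨⟨y, s⟩, ⟨hy, hs⟩, h⟩
      simp only [Prod.mk.injEq] at h
      obtain ⟨h1, h2⟩ := h
      subst h2
      exact ⟨hs.1, hs.2, ⟨y, hy, h1⟩⟩
    · rintro ⟨h1, h2, ⟨y, hy, hxy⟩⟩
      exact ⟨(y, t), ⟨hy, h1, h2⟩, by simp only [Prod.mk.injEq, and_true]; exact hxy⟩
  set c : ℝ → ℝ := fun t => ((b : ℝ) + 1) * (1 - t) ^ b with hc
  have hccont : Continuous c := by rw [hc]; fun_prop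
  set G : (ι → ℝ) × ℝ → ℝ := E.indicator (fun p => f p.1 * c p.2) with hG
  have hGint : Integrable G ((volume : Measure (ι → ℝ)).prod (volume : Measure ℝ)) := by
    rw [hG, integrable_indicator_iff hEmeas]
    refine ContinuousOn.integrableOn_compact hEcomp ?_
    exact (by fun_prop : Continuous fun p : (ι → ℝ) × ℝ => f p.1 * c p.2).continuousOn
  have hswap := integral_integral_swap (f := fun x t => G (x, t)) hGint
  -- left side
  have hL : ∀ x, ∫ t, G (x, t) = K.indicator (fun x => f x * (1 - gau K x) ^ (b + 1)) x := by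
    intro x
    by_cases hx : x ∈ K
    · rw [indicator_of_mem hx]
      have hg0 := gau_nonneg K x
      have hg1 := gau_le_one hx
      have h1 : ∀ t, G (x, t) = (Icc (gau K x) 1).indicator (fun t => f x * c t) t := by
        intro t
        by_cases ht : t ∈ Icc (gau K x) 1
        · have h2 : (x, t) ∈ E := (hmemE x t).2 ⟨le_trans hg0 ht.1, ht.2,
            (mem_smul_iff_gau hK h0 (le_trans hg0 ht.1) ht.2 x).2 ⟨hx, ht.1⟩⟩
          rw [hG, indicator_of_mem h2, indicator_of_mem ht]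
        · have h2 : (x, t) ∉ E := by
            intro h
            obtain ⟨h3, h4, h5⟩ := (hmemE x t).1 h
            exact ht ⟨((mem_smul_iff_gau hK h0 h3 h4 x).1 h5).2, h4⟩
          rw [hG, indicator_of_notMem h2, indicator_of_notMem ht]
      simp only [h1]
      rw [integral_indicator measurableSet_Icc, integral_Icc_eq_integral_Ioc,
        ← intervalIntegral.integral_of_le hg1, intervalIntegral.integral_const_mul]
      congr 1
      have hder : ∀ t : ℝ, HasDerivAt (fun t : ℝ => -(1 - t) ^ (b + 1)) (c t) t := by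
        intro t
        have h2 : HasDerivAt (fun t : ℝ => 1 - t) (-1) t := by
          simpa using (hasDerivAt_id t).const_sub 1
        have h3 : HasDerivAt (fun t : ℝ => (1 - t) ^ (b + 1))
            (((b : ℝ) + 1) * (1 - t) ^ b * (-1)) t := by
          have := h2.fun_pow (b + 1)
          simpa using this
        exact h3.fun_neg.congr_deriv (by rw [hc]; ring)
      rw [intervalIntegral.integral_eq_sub_of_hasDerivAt (fun t _ => hder t)
        (hccont.intervalIntegrable _ _)]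
      simp
    · rw [indicator_of_notMem hx]
      have h1 : ∀ t, G (x, t) = 0 := by
        intro t
        have h2 : (x, t) ∉ E := by
          intro h
          obtain ⟨h3, h4, h5⟩ := (hmemE x t).1 h
          exact hx ((mem_smul_iff_gau hK h0 h3 h4 x).1 h5).1
        rw [hG, indicator_of_notMem h2]
      simp only [h1, integral_zero]
  -- right side
  have hR : ∀ t, t ≠ 0 → ∫ x, G (x, t) = (Icc (0 : ℝ) 1).indicator
      (fun t => (c t * t ^ (Fintype.card ι + i)) * ∫ x in K, f x) t := by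
    intro t ht0
    by_cases ht : t ∈ Icc (0 : ℝ) 1
    · rw [indicator_of_mem ht]
      have htpos : 0 < t := lt_of_le_of_ne ht.1 (Ne.symm ht0)
      have h1 : ∀ x, G (x, t) = (t • K).indicator (fun x => c t * f x) x := by
        intro x
        by_cases hx : x ∈ t • K
        · have h2 : (x, t) ∈ E := (hmemE x t).2 ⟨ht.1, ht.2, hx⟩
          rw [hG, indicator_of_mem h2, indicator_of_mem hx]
          ring
        · have h2 : (x, t) ∉ E := fun h => hx ((hmemE x t).1 h).2.2
          rw [hG, indicator_of_notMem h2, indicator_of_notMem hx]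
      simp only [h1]
      have hms : MeasurableSet (t • K) := (hK.comp.smul t).isClosed.measurableSet
      rw [integral_indicator hms, integral_const_mul, integral_smul_set i f hom htpos]
      ring
    · rw [indicator_of_notMem ht]
      have h1 : ∀ x, G (x, t) = 0 := by
        intro x
        have h2 : (x, t) ∉ E := fun h => ht ⟨((hmemE x t).1 h).1, ((hmemE x t).1 h).2.1⟩
        rw [hG, indicator_of_notMem h2]
      simp only [h1, integral_zero]
  have hKm : MeasurableSet K := hK.comp.isClosed.measurableSet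
  have hLHS : ∫ x in K, f x * (1 - gau K x) ^ (b + 1) = ∫ x, ∫ t, G (x, t) := by
    rw [← integral_indicator hKm]
    exact integral_congr_ae (Filter.Eventually.of_forall fun x => (hL x).symm)
  have hRHS : ∫ t, ∫ x, G (x, t)
      = ∫ t, (Icc (0 : ℝ) 1).indicator
        (fun t => (c t * t ^ (Fintype.card ι + i)) * ∫ x in K, f x) t := by
    refine integral_congr_ae ?_
    have h1 : ∀ᵐ t : ℝ, t ≠ 0 := by
      rw [ae_iff]
      simp
    filter_upwards [h1] with t ht
    exact hR t ht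
  rw [hLHS, hswap, hRHS, integral_indicator measurableSet_Icc, integral_mul_const,
    integral_Icc_eq_integral_Ioc, ← intervalIntegral.integral_of_le zero_le_one]
  congr 1
  have h2 : ∫ t in (0 : ℝ)..1, c t * t ^ (Fintype.card ι + i)
      = ((b : ℝ) + 1) * ∫ t in (0 : ℝ)..1, t ^ (Fintype.card ι + i) * (1 - t) ^ b := by
    rw [← intervalIntegral.integral_const_mul]
    refine intervalIntegral.integral_congr fun t _ => ?_
    simp only [hc]
    ring
  rw [h2, beta_nat]
  have h8 : ((b + 1)! : ℝ) = ((b : ℝ) + 1) * (b ! : ℝ) := by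
    rw [Nat.factorial_succ]; push_cast; ring
  rw [h8, ← add_assoc]
  ring

end P254
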