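import Mathlib
import Vale.Agent.P254.Radial
import Vale.Agent.P254.PD

namespace P254

open MeasureTheory Set Matrix
open scoped Pointwise Nat

variable {ι κ : Type} [Fintype ι] [DecidableEq ι] [Fintype κ] [DecidableEq κ]

/-- Cauchy-Schwarz for `∫ y * gau` together with `radial` (i = 1, m = 1; i = 0, m = 1, 2):
`∫ y gau = (k+1)/(k+2) ∫ y`, `∫ gau^2 = k/(k+2) |K|` -/
theorem key_ineq {K : Set (ι → ℝ)} (hK : IsBody K) (h0 : (0 : ι → ℝ) ∈ K) (w : ι → ℝ) :
    ((Fintype.card ι : ℝ) + 1) ^ 2 * (∫ x in K, ∑ a, w a * x a) ^ 2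
      ≤ (Fintype.card ι : ℝ) * ((Fintype.card ι : ℝ) + 2) * vol K *
        ∫ x in K, (∑ a, w a * x a) ^ 2 := by
  set k : ℕ := Fintype.card ι with hk
  have hV : 0 < vol K := vol_pos hK
  set y : (ι → ℝ) → ℝ := fun x => ∑ a, w a * x a with hy
  have hyc : Continuous y := by
    rw [hy]; fun_prop
  have hk0 : (0:ℝ) ≤ k := Nat.cast_nonneg k
  -- the three radial integrals
  have r1 : ∫ x in K, (1 - gau K x) = vol K / ((k:ℝ) + 1) := by
    have h := radial hK h0 0 1 (fun _ => (1:ℝ)) continuous_const (by intro r _ x; simp)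
    have h1 : ∫ x in K, (1:ℝ) = vol K := by
      simp [vol, Measure.real]
    simp only [one_mul, pow_one, add_zero] at h
    rw [h, h1, Nat.factorial_succ (Fintype.card ι), Nat.factorial_one]
    push_cast
    have : ((Fintype.card ι)! : ℝ) ≠ 0 := by positivity
    rw [← hk] at this ⊢
    field_simp
  have r2 : ∫ x in K, (1 - gau K x) ^ 2 = 2 * vol K / (((k:ℝ) + 1) * ((k:ℝ) + 2)) := by
    have h := radial hK h0 0 2 (fun _ => (1:ℝ)) continuous_const (by intro r _ x; simp)
    have h1 : ∫ x in K, (1:ℝ) = vol K := by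
      simp [vol, Measure.real]
    simp only [one_mul, add_zero] at h
    rw [h, h1, Nat.factorial_succ (Fintype.card ι + 1), Nat.factorial_succ (Fintype.card ι),
      Nat.factorial_two]
    push_cast
    have : ((Fintype.card ι)! : ℝ) ≠ 0 := by positivity
    rw [← hk] at this ⊢
    field_simp
    ring
  have r3 : ∫ x in K, y x * (1 - gau K x) = (∫ x in K, y x) / ((k:ℝ) + 2) := by
    have h := radial hK h0 1 1 y hyc (by
      intro r _ x
      simp only [hy, Pi.smul_apply, smul_eq_mul, pow_one, Finset.mul_sum]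
      exact Finset.sum_congr rfl (fun a _ => by ring))
    simp only [pow_one] at h
    rw [h, Nat.factorial_succ (Fintype.card ι + 1), Nat.factorial_one]
    push_cast
    have : ((Fintype.card ι + 1)! : ℝ) ≠ 0 := by positivity
    rw [← hk] at this ⊢
    field_simp
    ring
  -- integrability
  have i1 : IntegrableOn (fun x => 1 - gau K x) K := by
    by_contra hcon
    have := integral_undef hcon
    rw [r1] at this
    have h2 : 0 < vol K / ((k:ℝ) + 1) := by positivity
    linarith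
  have i2 : IntegrableOn (fun x => (1 - gau K x) ^ 2) K := by
    by_contra hcon
    have := integral_undef hcon
    rw [r2] at this
    have h2 : 0 < 2 * vol K / (((k:ℝ) + 1) * ((k:ℝ) + 2)) := by positivity
    linarith
  have i0 : IntegrableOn (fun _ : ι → ℝ => (1:ℝ)) K := cont_int hK continuous_const
  have iy : IntegrableOn y K := cont_int hK hyc
  have iyy : IntegrableOn (fun x => y x ^ 2) K := cont_int hK (hyc.pow 2)
  have i3 : IntegrableOn (fun x => y x * (1 - gau K x)) K := by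
    obtain ⟨C, hC⟩ := (hK.comp.image hyc).isBounded.exists_norm_le
    have hb : ∀ᵐ x ∂(volume.restrict K), ‖y x‖ ≤ C := by
      rw [ae_restrict_iff' hK.comp.measurableSet]
      exact Filter.Eventually.of_forall (fun x hx => hC _ ⟨x, hx, rfl⟩)
    exact Integrable.bdd_mul i1 hyc.aestronglyMeasurable hb
  set V := vol K
  set Y := ∫ x in K, y x with hY
  set S := ∫ x in K, y x ^ 2 with hS
  -- quadratic inequality
  have quad : ∀ G A : ℝ, 0 ≤ G ^ 2 * S - 2 * G * A * (Y - Y / ((k:ℝ) + 2))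
      + A ^ 2 * (V - 2 * (V / ((k:ℝ) + 1)) + 2 * V / (((k:ℝ) + 1) * ((k:ℝ) + 2))) := by
    intro G A
    have hnn : 0 ≤ ∫ x in K, (G * y x - A * gau K x) ^ 2 :=
      integral_nonneg (fun x => sq_nonneg _)
    have heq : ∀ x, (G * y x - A * gau K x) ^ 2 =
        G ^ 2 * y x ^ 2 - 2 * G * A * (y x - y x * (1 - gau K x))
          + A ^ 2 * (1 - 2 * (1 - gau K x) + (1 - gau K x) ^ 2) := by
      intro x; ring
    simp only [heq] at hnn
    have j1 : Integrable (fun x => G ^ 2 * y x ^ 2) (volume.restrict K) := iyy.const_mul _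
    have j2 : Integrable (fun x => 2 * G * A * (y x - y x * (1 - gau K x)))
        (volume.restrict K) := (iy.sub i3).const_mul _
    have j30 : Integrable (fun x : ι → ℝ => (1:ℝ) - 2 * (1 - gau K x)) (volume.restrict K) :=
      Integrable.sub i0 (i1.const_mul 2)
    have j31 : Integrable (fun x : ι → ℝ => (1:ℝ) - 2 * (1 - gau K x) + (1 - gau K x) ^ 2)
        (volume.restrict K) := j30.add i2
    have j3 : Integrable (fun x => A ^ 2 * (1 - 2 * (1 - gau K x) + (1 - gau K x) ^ 2))
        (volume.restrict K) := j31.const_mul _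
    have j12 : Integrable (fun x => G ^ 2 * y x ^ 2 - 2 * G * A * (y x - y x * (1 - gau K x)))
        (volume.restrict K) := j1.sub j2
    rw [integral_add j12 j3, integral_sub j1 j2, integral_const_mul, integral_const_mul,
      integral_const_mul, integral_sub iy i3, integral_add j30 i2,
      integral_sub i0 (i1.const_mul 2), integral_const_mul, r1, r2, r3] at hnn
    have h1 : ∫ x in K, (1:ℝ) = V := by
      simp [V, vol, Measure.real]
    rw [h1] at hnn
    exact hnn
  rcases Nat.eq_zero_or_pos k with hk0' | hkpos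
  · -- dimension zero
    have : IsEmpty ι := Fintype.card_eq_zero_iff.1 (hk ▸ hk0')
    have hy0 : Y = 0 := by
      rw [hY]
      simp [hy]
    rw [hy0, hk0']
    simp
  · have hkp : (0:ℝ) < k := by exact_mod_cast hkpos
    have e1 : V - 2 * (V / ((k:ℝ) + 1)) + 2 * V / (((k:ℝ) + 1) * ((k:ℝ) + 2))
        = V * k / ((k:ℝ) + 2) := by
      field_simp
      ring
    have e2 : Y - Y / ((k:ℝ) + 2) = Y * ((k:ℝ) + 1) / ((k:ℝ) + 2) := by
      field_simp
      ring
    have hq := quad (V * k / ((k:ℝ) + 2)) (Y * ((k:ℝ) + 1) / ((k:ℝ) + 2))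
    rw [e1, e2] at hq
    have hG : 0 < V * k / ((k:ℝ) + 2) := by positivity
    have hq' : 0 ≤ (V * k / ((k:ℝ) + 2)) *
        ((V * k / ((k:ℝ) + 2)) * S - (Y * ((k:ℝ) + 1) / ((k:ℝ) + 2)) ^ 2) := by
      calc (0:ℝ) ≤ _ := hq
        _ = _ := by ring
    have hq2 := nonneg_of_mul_nonneg_right hq' hG
    have hq3 : (Y * ((k:ℝ) + 1) / ((k:ℝ) + 2)) ^ 2 * ((k:ℝ) + 2) ^ 2 ≤
        (V * k / ((k:ℝ) + 2)) * S * ((k:ℝ) + 2) ^ 2 := by
      apply mul_le_mul_of_nonneg_right _ (sq_nonneg _)
      linarith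
    have e3 : (Y * ((k:ℝ) + 1) / ((k:ℝ) + 2)) ^ 2 * ((k:ℝ) + 2) ^ 2
        = ((k:ℝ) + 1) ^ 2 * Y ^ 2 := by
      field_simp
    have e4 : (V * k / ((k:ℝ) + 2)) * S * ((k:ℝ) + 2) ^ 2 = k * ((k:ℝ) + 2) * V * S := by
      field_simp
    rw [e3, e4] at hq3
    exact hq3

end P254
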