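import Mathlib
import Vale.Agent.P254.PD
import Vale.Agent.P254.CS

/-! P254, algebra, first half. -/

namespace P254

open MeasureTheory Set Matrix
open scoped Pointwise Nat

variable {ι κ : Type} [Fintype ι] [DecidableEq ι] [Fintype κ] [DecidableEq κ]

theorem int_coord {K : Set (ι → ℝ)} (hK : IsBody K) (i : ι) :
    ∫ x in K, x i = vol K * cen K i := by
  have hV := vol_pos hK
  unfold cen
  field_simp

omit [DecidableEq ι] in
theorem sv_eq {K : Set (ι → ℝ)} (i : ι) :
    sv K i = ((Fintype.card ι : ℝ) + 1) * cen K i := rfl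

theorem cov_entry {K : Set (ι → ℝ)} (hK : IsBody K) (i j : ι) :
    cov K i j = (vol K)⁻¹ * (∫ x in K, x i * x j) - cen K i * cen K j := by
  have hV := vol_pos hK
  have hc1 := int_coord hK
  have i1 : IntegrableOn (fun x : ι → ℝ => x i * x j) K := cont_int hK (by fun_prop)
  have i2 : IntegrableOn (fun x : ι → ℝ => cen K i * x j) K := cont_int hK (by fun_prop)
  have i3 : IntegrableOn (fun x : ι → ℝ => cen K j * x i) K := cont_int hK (by fun_prop)
  have i4 : IntegrableOn (fun _ : ι → ℝ => cen K i * cen K j) K := cont_int hK (by fun_prop)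
  have i5 : IntegrableOn (fun x : ι → ℝ => x i * x j - cen K i * x j - cen K j * x i) K :=
    cont_int hK (by fun_prop)
  have i6 : IntegrableOn (fun x : ι → ℝ => x i * x j - cen K i * x j) K :=
    cont_int hK (by fun_prop)
  have e : ∫ x in K, (x i - cen K i) * (x j - cen K j)
      = ∫ x in K, (x i * x j - cen K i * x j - cen K j * x i + cen K i * cen K j) := by
    refine integral_congr_ae (Filter.Eventually.of_forall fun x => ?_)
    simp only
    ring
  unfold cov
  rw [e, integral_add i5 i4, integral_sub i6 i3, integral_sub i1 i2,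
    integral_const_mul, integral_const_mul, hc1, hc1, setIntegral_const]
  simp only [smul_eq_mul]
  have hv : volume.real K = vol K := rfl
  rw [hv]
  field_simp
  ring

/-- `(k+1)(k+2) Σ = N - s sᵀ/(k+1)` -/
theorem cov_eq {K : Set (ι → ℝ)} (hK : IsBody K) :
    (((Fintype.card ι : ℝ) + 1) * ((Fintype.card ι : ℝ) + 2)) • cov K
      = NN K - (1 / ((Fintype.card ι : ℝ) + 1)) • vecMulVec (sv K) (sv K) := by
  ext i j
  have hk : ((Fintype.card ι : ℝ) + 1) ≠ 0 := by positivity
  rw [Matrix.smul_apply, Matrix.sub_apply, Matrix.smul_apply, cov_entry hK i j]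
  simp only [NN, vecMulVec_apply, sv_eq, smul_eq_mul]
  field_simp
  ring

theorem NN_eq {K : Set (ι → ℝ)} (hK : IsBody K) :
    NN K = (((Fintype.card ι : ℝ) + 1) * ((Fintype.card ι : ℝ) + 2)) • cov K
      + (1 / ((Fintype.card ι : ℝ) + 1)) • vecMulVec (sv K) (sv K) := by
  rw [cov_eq hK]
  simp

theorem NN_posDef {K : Set (ι → ℝ)} (hK : IsBody K) : (NN K).PosDef := by
  have hk : 0 < (Fintype.card ι : ℝ) + 1 := by positivity
  rw [NN_eq hK]
  have h1 : ((((Fintype.card ι : ℝ) + 1) * ((Fintype.card ι : ℝ) + 2)) • cov K).PosDef :=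
    (cov_posDef hK).smul (by positivity)
  have h2 : ((1 / ((Fintype.card ι : ℝ) + 1)) • vecMulVec (sv K) (sv K)).PosSemidef := by
    have h3 : (vecMulVec (sv K) (star (sv K))).PosSemidef := posSemidef_vecMulVec_self_star _
    have h4 : star (sv K) = sv K := by ext i; simp
    rw [h4] at h3
    exact h3.smul (by positivity)
  exact h1.add_posSemidef h2

/-- matrix determinant lemma -/
theorem det_sub_vecMulVec (A : Matrix ι ι ℝ) (hA : IsUnit A.det) (c : ℝ) (u : ι → ℝ) :
    (A - c • vecMulVec u u).det = A.det * (1 - c * (u ⬝ᵥ (A⁻¹ *ᵥ u))) := by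
  have h1 : A - c • vecMulVec u u
      = A + replicateCol Unit ((-c) • u) * replicateRow Unit u := by
    rw [← vecMulVec_eq]
    ext i j
    simp [vecMulVec_apply]
    ring
  rw [h1, det_add_replicateCol_mul_replicateRow hA, Matrix.mul_assoc]
  congr 1
  have h2 : (replicateRow Unit u * (A⁻¹ * replicateCol Unit ((-c) • u))) () ()
      = u ⬝ᵥ (A⁻¹ *ᵥ ((-c) • u)) := by
    simp [Matrix.mul_apply, dotProduct, mulVec]
  rw [det_unique, Matrix.add_apply]
  change (1 : Matrix Unit Unit ℝ) () () + (replicateRow Unit u * (A⁻¹ * replicateCol Unit ((-c) • u))) () () = _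
  rw [h2, Matrix.one_apply_eq, mulVec_smul, dotProduct_smul, smul_eq_mul]
  ring

/-- `D K = det N * p / ((k+1) ((k+1)(k+2))^k |K|^2)` -/
theorem D_eq {K : Set (ι → ℝ)} (hK : IsBody K) :
    D K = (NN K).det * pp K / (((Fintype.card ι : ℝ) + 1) *
      (((Fintype.card ι : ℝ) + 1) * ((Fintype.card ι : ℝ) + 2)) ^ (Fintype.card ι) *
        vol K ^ 2) := by
  have hV := vol_pos hK
  have hk : 0 < (Fintype.card ι : ℝ) + 1 := by positivity
  have hk2 : 0 < (Fintype.card ι : ℝ) + 2 := by positivity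
  have hdet : 0 < (NN K).det := (NN_posDef hK).det_pos
  have h1 := det_sub_vecMulVec (NN K) (isUnit_iff_ne_zero.mpr hdet.ne')
    (1 / ((Fintype.card ι : ℝ) + 1)) (sv K)
  rw [← cov_eq hK, det_smul] at h1
  have h2 : (cov K).det = (NN K).det * pp K / (((Fintype.card ι : ℝ) + 1) *
      (((Fintype.card ι : ℝ) + 1) * ((Fintype.card ι : ℝ) + 2)) ^ (Fintype.card ι)) := by
    rw [eq_div_iff (by positivity)]
    unfold pp
    have h3 : (((Fintype.card ι : ℝ) + 1) * ((Fintype.card ι : ℝ) + 2)) ^ Fintype.card ι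
        * (cov K).det * ((Fintype.card ι : ℝ) + 1)
        = (NN K).det * (1 - 1 / ((Fintype.card ι : ℝ) + 1) * (sv K ⬝ᵥ ((NN K)⁻¹ *ᵥ sv K)))
          * ((Fintype.card ι : ℝ) + 1) := by rw [h1]
    have h4 : (NN K).det * (1 - 1 / ((Fintype.card ι : ℝ) + 1) * (sv K ⬝ᵥ ((NN K)⁻¹ *ᵥ sv K)))
          * ((Fintype.card ι : ℝ) + 1)
        = (NN K).det * ((Fintype.card ι : ℝ) + 1 - sv K ⬝ᵥ ((NN K)⁻¹ *ᵥ sv K)) := by
      field_simp
    rw [← h4, ← h3]
    ring
  unfold D
  rw [h2, div_div]

theorem one_le_pp {K : Set (ι → ℝ)} (hK : IsBody K) (h0 : (0 : ι → ℝ) ∈ K) : 1 ≤ pp K := by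
  have hV := vol_pos hK
  have hk0 : 0 ≤ (Fintype.card ι : ℝ) := by positivity
  have hdet : 0 < (NN K).det := (NN_posDef hK).det_pos
  set k : ℝ := (Fintype.card ι : ℝ) with hk
  set w : ι → ℝ := (NN K)⁻¹ *ᵥ sv K with hw
  set y : ℝ := sv K ⬝ᵥ w with hy
  have hNw : NN K *ᵥ w = sv K := by
    rw [hw, mulVec_mulVec, Matrix.mul_nonsing_inv _ (isUnit_iff_ne_zero.mpr hdet.ne'),
      one_mulVec]
  have hwNw : ∑ a, ∑ b, w a * w b * NN K a b = y := by
    have : ∑ a, ∑ b, w a * w b * NN K a b = w ⬝ᵥ (NN K *ᵥ w) := by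
      simp only [dotProduct, mulVec, Finset.mul_sum]
      refine Finset.sum_congr rfl fun a _ => Finset.sum_congr rfl fun b _ => ?_
      ring
    rw [this, hNw, dotProduct_comm]
  have hy0 : 0 ≤ y := by
    have h := (NN_posDef hK).posSemidef.dotProduct_mulVec_nonneg w
    rw [hNw] at h
    have h4 : star w = w := by ext i; simp
    rw [h4, dotProduct_comm] at h
    exact h
  have hsw : ∑ a, w a * sv K a = y := by
    rw [hy, dotProduct_comm]
    rfl
  -- first moment
  have hint1 : ∀ a, IntegrableOn (fun x : ι → ℝ => w a * x a) K :=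
    fun a => cont_int hK (by fun_prop)
  have hm1 : (k + 1) * ∫ x in K, ∑ a, w a * x a = vol K * y := by
    rw [integral_finsetSum _ fun a _ => hint1 a, ← hsw, Finset.mul_sum, Finset.mul_sum]
    refine Finset.sum_congr rfl fun a _ => ?_
    rw [integral_const_mul, int_coord hK, sv_eq]
    ring
  have hint2 : ∀ a b, IntegrableOn (fun x : ι → ℝ => w a * w b * (x a * x b)) K :=
    fun a b => cont_int hK (by fun_prop)
  have hint3 : ∀ a, IntegrableOn (fun x : ι → ℝ => ∑ b, w a * w b * (x a * x b)) K :=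
    fun a => cont_int hK (by fun_prop)
  have hm2 : (k + 1) * (k + 2) * ∫ x in K, (∑ a, w a * x a) ^ 2 = vol K * (y + y ^ 2) := by
    have e : ∫ x in K, (∑ a, w a * x a) ^ 2 = ∫ x in K, ∑ a, ∑ b, w a * w b * (x a * x b) := by
      refine integral_congr_ae (Filter.Eventually.of_forall fun x => ?_)
      simp only
      rw [sq, Finset.sum_mul_sum]
      refine Finset.sum_congr rfl fun a _ => Finset.sum_congr rfl fun b _ => ?_
      ring
    rw [e, integral_finsetSum _ fun a _ => hint3 a]
    have e2 : ∀ a, ∫ x in K, ∑ b, w a * w b * (x a * x b)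
        = ∑ b, w a * w b * ∫ x in K, x a * x b := by
      intro a
      rw [integral_finsetSum _ fun b _ => hint2 a b]
      refine Finset.sum_congr rfl fun b _ => ?_
      rw [integral_const_mul]
    simp_rw [e2]
    have e3 : ∀ a b, (k + 1) * (k + 2) * ∫ x in K, x a * x b
        = vol K * (NN K a b + sv K a * sv K b) := by
      intro a b
      simp only [NN, ← hk]
      field_simp
      ring
    rw [Finset.mul_sum]
    have e4 : ∀ a, (k + 1) * (k + 2) * ∑ b, w a * w b * ∫ x in K, x a * x b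
        = vol K * (∑ b, w a * w b * NN K a b + w a * sv K a * ∑ b, w b * sv K b) := by
      intro a
      rw [Finset.mul_sum, Finset.mul_sum, ← Finset.sum_add_distrib, Finset.mul_sum]
      refine Finset.sum_congr rfl fun b _ => ?_
      have := e3 a b
      calc (k + 1) * (k + 2) * (w a * w b * ∫ x in K, x a * x b)
          = w a * w b * ((k + 1) * (k + 2) * ∫ x in K, x a * x b) := by ring
        _ = w a * w b * (vol K * (NN K a b + sv K a * sv K b)) := by rw [this]
        _ = _ := by ring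
    simp_rw [e4]
    rw [← Finset.mul_sum, Finset.sum_add_distrib, hwNw, ← Finset.sum_mul, hsw]
    ring
  have key := key_ineq hK h0 w
  rw [← hk] at key
  have h5 : (vol K * y) ^ 2 ≤ k * vol K * (vol K * (y + y ^ 2)) / (k + 1) := by
    rw [le_div_iff₀ (by positivity)]
    have e1 : (vol K * y) ^ 2 = (k + 1) ^ 2 * (∫ x in K, ∑ a, w a * x a) ^ 2 := by
      rw [← hm1]; ring
    rw [e1, ← hm2]
    nlinarith [key, mul_le_mul_of_nonneg_right key (show (0 : ℝ) ≤ k + 1 by positivity)]
  have h6 : y ^ 2 ≤ k * y := by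
    rw [le_div_iff₀ (by positivity)] at h5
    have h7 : 0 < vol K ^ 2 := by positivity
    have h8 : vol K ^ 2 * (y ^ 2 * (k + 1)) ≤ vol K ^ 2 * (k * (y + y ^ 2)) := by nlinarith
    have h9 := le_of_mul_le_mul_left h8 h7
    nlinarith
  have h10 : y ≤ k := by
    rcases hy0.eq_or_lt with h | h
    · rw [← h]; exact hk0
    · have : y * y ≤ k * y := by nlinarith
      exact le_of_mul_le_mul_right this h
  unfold pp
  linarith

end P254
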