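import Mathlib
import Vale.Agent.P254.Radial

namespace P254

open MeasureTheory Set Matrix
open scoped Pointwise Nat

variable {ι κ : Type} [Fintype ι] [DecidableEq ι] [Fintype κ] [DecidableEq κ]

/-- slices of the free sum -/
theorem mem_freeSum_iff {K : Set (ι → ℝ)} {L : Set (κ → ℝ)}
    (hK : IsBody K) (hK0 : (0 : ι → ℝ) ∈ K) (hL : IsBody L) (hL0 : (0 : κ → ℝ) ∈ L)
    (z : ι ⊕ κ → ℝ) : z ∈ freeSum K L ↔ ((fun i => z (Sum.inl i)) ∈ K ∧
      (fun j => z (Sum.inr j)) ∈ (1 - gau K (fun i => z (Sum.inl i))) • L) := by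
  constructor
  · rintro ⟨s, t, hs, ht, hst, h1, h2⟩
    have hk := (mem_smul_iff_gau hK hK0 hs (by linarith) _).1 h1
    have hl := (mem_smul_iff_gau hL hL0 ht (by linarith) _).1 h2
    refine ⟨hk.1, ?_⟩
    have g0 := gau_nonneg K (fun i => z (Sum.inl i))
    have g1 := gau_le_one hk.1
    exact (mem_smul_iff_gau hL hL0 (by linarith) (by linarith) _).2 ⟨hl.1, by linarith [hk.2]⟩
  · rintro ⟨h1, h2⟩
    have g0 := gau_nonneg K (fun i => z (Sum.inl i))
    have g1 := gau_le_one h1
    exact ⟨gau K (fun i => z (Sum.inl i)), 1 - gau K (fun i => z (Sum.inl i)), g0, by linarith,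
      by ring, (mem_smul_iff_gau hK hK0 g0 g1 _).2 ⟨h1, le_rfl⟩, h2⟩

theorem freeSum_isCompact {K : Set (ι → ℝ)} {L : Set (κ → ℝ)} (hK : IsCompact K)
    (hL : IsCompact L) : IsCompact (freeSum K L) := by
  have himg : freeSum K L = (fun p : ℝ × ((ι → ℝ) × (κ → ℝ)) =>
      (Sum.elim (p.1 • p.2.1) ((1 - p.1) • p.2.2) : ι ⊕ κ → ℝ)) ''
        (Set.Icc (0 : ℝ) 1 ×ˢ (K ×ˢ L)) := by
    ext z
    constructor
    · rintro ⟨s, t, hs, ht, hst, ⟨x, hx, hx'⟩, ⟨y, hy, hy'⟩⟩
      refine ⟨(s, (x, y)), ⟨⟨hs, by linarith⟩, hx, hy⟩, ?_⟩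
      have hts : t = 1 - s := by linarith
      subst hts
      ext a
      rcases a with a | a
      · exact congrFun hx' a
      · exact congrFun hy' a
    · rintro ⟨⟨s, x, y⟩, ⟨⟨hs0, hs1⟩, hx, hy⟩, rfl⟩
      refine ⟨s, 1 - s, hs0, ?_, ?_, ⟨x, hx, ?_⟩, ⟨y, hy, ?_⟩⟩
      · have : s ≤ 1 := hs1
        linarith
      · ring
      · ext a; rfl
      · ext a; rfl
  rw [himg]
  refine (isCompact_Icc.prod (hK.prod hL)).image ?_
  refine continuous_pi ?_
  rintro (a | a)
  · simp only [Sum.elim_inl, Pi.smul_apply, smul_eq_mul]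
    fun_prop
  · simp only [Sum.elim_inr, Pi.smul_apply, smul_eq_mul]
    fun_prop

theorem slice_integral [Nonempty κ] {L : Set (κ → ℝ)} (hL0 : (0 : κ → ℝ) ∈ L) (j : ℕ)
    (h : (κ → ℝ) → ℝ) (homh : ∀ r : ℝ, 0 ≤ r → ∀ x, h (r • x) = r ^ j * h x) {r : ℝ}
    (hr : 0 ≤ r) :
    ∫ y in r • L, h y = r ^ (Fintype.card κ + j) * ∫ y in L, h y := by
  rcases hr.eq_or_lt with hr0 | hr0
  · rw [← hr0, zero_smul_set ⟨0, hL0⟩, zero_pow (by have := Fintype.card_pos (α := κ); omega),
      zero_mul]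
    have : (0 : Set (κ → ℝ)) = {0} := rfl
    rw [this]
    exact setIntegral_measure_zero _ (measure_singleton _)
  · exact integral_smul_set j h homh hr0

theorem freeSum_integral [Nonempty ι] [Nonempty κ] {K : Set (ι → ℝ)} {L : Set (κ → ℝ)}
    (hK : IsBody K) (hK0 : (0 : ι → ℝ) ∈ K) (hL : IsBody L) (hL0 : (0 : κ → ℝ) ∈ L) (i j : ℕ)
    (f : (ι → ℝ) → ℝ) (hf : Continuous f)
    (homf : ∀ r : ℝ, 0 ≤ r → ∀ x, f (r • x) = r ^ i * f x)
    (h : (κ → ℝ) → ℝ) (hh : Continuous h)
    (homh : ∀ r : ℝ, 0 ≤ r → ∀ x, h (r • x) = r ^ j * h x) :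
    ∫ z in freeSum K L, f (fun a => z (Sum.inl a)) * h (fun b => z (Sum.inr b))
      = ((Fintype.card ι + i)! * (Fintype.card κ + j)! /
          (Fintype.card ι + i + (Fintype.card κ + j))! : ℝ) *
        ((∫ x in K, f x) * ∫ y in L, h y) := by
  classical
  set e := MeasurableEquiv.sumPiEquivProdPi (fun _ : ι ⊕ κ => ℝ) with he
  have hmp : MeasurePreserving e volume volume :=
    volume_measurePreserving_sumPiEquivProdPi (fun _ : ι ⊕ κ => ℝ)
  set S : Set ((ι → ℝ) × (κ → ℝ)) := {p | p.1 ∈ K ∧ p.2 ∈ (1 - gau K p.1) • L} with hS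
  set g : (ι → ℝ) × (κ → ℝ) → ℝ := fun p => f p.1 * h p.2 with hg
  have hpre : freeSum K L = e ⁻¹' S := by
    ext z
    exact mem_freeSum_iff hK hK0 hL hL0 z
  have hcomp : IsCompact (freeSum K L) := freeSum_isCompact hK.comp hL.comp
  have hSimg : S = (fun z : ι ⊕ κ → ℝ => ((fun a => z (Sum.inl a)), fun b => z (Sum.inr b))) ''
      freeSum K L := by
    ext p
    constructor
    · rintro hp
      refine ⟨Sum.elim p.1 p.2, ?_, rfl⟩
      exact (mem_freeSum_iff hK hK0 hL hL0 _).2 hp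
    · rintro ⟨z, hz, rfl⟩
      exact (mem_freeSum_iff hK hK0 hL hL0 z).1 hz
  have hScomp : IsCompact S := by
    rw [hSimg]
    refine hcomp.image ?_
    fun_prop
  have hSmeas : MeasurableSet S := hScomp.measurableSet
  have hgcont : Continuous g := by
    rw [hg]
    exact (hf.comp continuous_fst).mul (hh.comp continuous_snd)
  have h1 : ∫ z in freeSum K L, f (fun a => z (Sum.inl a)) * h (fun b => z (Sum.inr b))
      = ∫ p in S, g p := by
    rw [hpre]
    exact hmp.setIntegral_preimage_emb e.measurableEmbedding g S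
  rw [h1, ← integral_indicator hSmeas]
  have hint : Integrable (S.indicator g) ((volume : Measure (ι → ℝ)).prod
      (volume : Measure (κ → ℝ))) := by
    have := (hgcont.continuousOn (s := S)).integrableOn_compact (μ := volume) hScomp
    exact (integrable_indicator_iff hSmeas).2 this
  have h2 : ∫ p, S.indicator g p = ∫ x, ∫ y, S.indicator g (x, y) :=
    integral_prod _ hint
  rw [h2]
  have h3 : ∀ x, ∫ y, S.indicator g (x, y)
      = K.indicator (fun x => (f x * (1 - gau K x) ^ (Fintype.card κ + j)) * ∫ y in L, h y) x := by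
    intro x
    by_cases hx : x ∈ K
    · rw [indicator_of_mem hx]
      have g1 := gau_le_one hx
      have hcl : MeasurableSet ((1 - gau K x) • L) := (hL.comp.smul _).measurableSet
      have h4 : (fun y => S.indicator g (x, y))
          = ((1 - gau K x) • L).indicator (fun y => f x * h y) := by
        ext y
        by_cases hy : y ∈ (1 - gau K x) • L
        · rw [indicator_of_mem hy, indicator_of_mem (show (x, y) ∈ S from ⟨hx, hy⟩)]
        · rw [indicator_of_notMem hy, indicator_of_notMem (fun hp => hy hp.2)]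
      rw [h4, integral_indicator hcl, integral_const_mul,
        slice_integral hL0 j h homh (by linarith : (0 : ℝ) ≤ 1 - gau K x)]
      ring
    · rw [indicator_of_notMem hx]
      have h4 : (fun y => S.indicator g (x, y)) = fun _ => 0 := by
        ext y
        exact indicator_of_notMem (fun hp => hx hp.1) _
      rw [h4, integral_zero]
  simp_rw [h3]
  rw [integral_indicator hK.comp.measurableSet, integral_mul_const,
    radial hK hK0 i (Fintype.card κ + j) f hf homf]
  ring

end P254
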