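import Mathlib
import Vale.Agent.P254.AlgA
import Vale.Agent.P254.Prod

namespace P254

open MeasureTheory Set Matrix
open scoped Pointwise Nat

variable {ι κ : Type} [Fintype ι] [DecidableEq ι] [Fintype κ] [DecidableEq κ]

theorem vol_freeSum [Nonempty ι] [Nonempty κ] {K : Set (ι → ℝ)} {L : Set (κ → ℝ)}
    (hK : IsBody K) (hK0 : (0 : ι → ℝ) ∈ K) (hL : IsBody L) (hL0 : (0 : κ → ℝ) ∈ L) :
    vol (freeSum K L) = ((Fintype.card ι)! * (Fintype.card κ)! /
      (Fintype.card ι + Fintype.card κ)! : ℝ) * (vol K * vol L) := by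
  have h := freeSum_integral hK hK0 hL hL0 0 0 (fun _ => 1) continuous_const (by simp)
    (fun _ => 1) continuous_const (by simp)
  have e : ∀ {α : Type} [Fintype α] (S : Set (α → ℝ)), ∫ _ in S, (1 : ℝ) = vol S := by
    intro α _ S
    simp [vol, Measure.real]
  simp only [mul_one, add_zero, e] at h
  exact h

theorem mom_freeSum [Nonempty ι] [Nonempty κ] {K : Set (ι → ℝ)} {L : Set (κ → ℝ)}
    (hK : IsBody K) (hK0 : (0 : ι → ℝ) ∈ K) (hL : IsBody L) (hL0 : (0 : κ → ℝ) ∈ L) (i j : ℕ)
    (f : (ι → ℝ) → ℝ) (hf : Continuous f)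
    (homf : ∀ r : ℝ, 0 ≤ r → ∀ x, f (r • x) = r ^ i * f x)
    (h : (κ → ℝ) → ℝ) (hh : Continuous h)
    (homh : ∀ r : ℝ, 0 ≤ r → ∀ x, h (r • x) = r ^ j * h x) :
    (vol (freeSum K L))⁻¹ *
      ∫ z in freeSum K L, f (fun a => z (Sum.inl a)) * h (fun b => z (Sum.inr b))
      = ((Fintype.card ι + Fintype.card κ)! * (Fintype.card ι + i)! * (Fintype.card κ + j)! /
          ((Fintype.card ι)! * (Fintype.card κ)! *
            (Fintype.card ι + i + (Fintype.card κ + j))!) : ℝ) *
        (((vol K)⁻¹ * ∫ x in K, f x) * ((vol L)⁻¹ * ∫ y in L, h y)) := by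
  rw [freeSum_integral hK hK0 hL hL0 i j f hf homf h hh homh, vol_freeSum hK hK0 hL hL0]
  have h1 := vol_pos hK
  have h2 := vol_pos hL
  have h3 : (0 : ℝ) < (Fintype.card ι)! := by exact_mod_cast Nat.factorial_pos _
  have h4 : (0 : ℝ) < (Fintype.card κ)! := by exact_mod_cast Nat.factorial_pos _
  have h5 : (0 : ℝ) < (Fintype.card ι + Fintype.card κ)! := by
    exact_mod_cast Nat.factorial_pos _
  have h6 : (0 : ℝ) < (Fintype.card ι + i + (Fintype.card κ + j))! := by
    exact_mod_cast Nat.factorial_pos _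
  field_simp

lemma int_one {α : Type} [Fintype α] {S : Set (α → ℝ)} (hS : 0 < vol S) :
    (vol S)⁻¹ * ∫ _ in S, (1 : ℝ) = 1 := by
  have e : ∫ _ in S, (1 : ℝ) = vol S := by simp [vol, Measure.real]
  rw [e, inv_mul_cancel₀ hS.ne']

lemma fact_ne (n : ℕ) : ((n ! : ℕ) : ℝ) ≠ 0 := by exact_mod_cast (Nat.factorial_pos n).ne'

theorem sv_freeSum [Nonempty ι] [Nonempty κ] {K : Set (ι → ℝ)} {L : Set (κ → ℝ)}
    (hK : IsBody K) (hK0 : (0 : ι → ℝ) ∈ K) (hL : IsBody L) (hL0 : (0 : κ → ℝ) ∈ L) :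
    sv (freeSum K L) = Sum.elim (sv K) (sv L) := by
  ext c
  rcases c with a | b
  · have h := mom_freeSum hK hK0 hL hL0 1 0 (fun x => x a) (by fun_prop) (by simp)
      (fun _ => 1) continuous_const (by simp)
    simp only [mul_one, add_zero] at h
    rw [int_one (vol_pos hL), mul_one] at h
    simp only [sv, Sum.elim_inl, Fintype.card_sum, h]
    have e : Fintype.card ι + 1 + Fintype.card κ = (Fintype.card ι + Fintype.card κ) + 1 := by ring
    rw [e, Nat.factorial_succ, Nat.factorial_succ]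
    have h1 := fact_ne (Fintype.card ι)
    have h2 := fact_ne (Fintype.card κ)
    have h3 := fact_ne (Fintype.card ι + Fintype.card κ)
    have h4 : ((Fintype.card ι : ℝ) + Fintype.card κ + 1) ≠ 0 := by positivity
    push_cast
    field_simp
  · have h := mom_freeSum hK hK0 hL hL0 0 1 (fun _ => 1) continuous_const (by simp)
      (fun x => x b) (by fun_prop) (by simp)
    simp only [one_mul, add_zero] at h
    rw [int_one (vol_pos hK), one_mul] at h
    simp only [sv, Sum.elim_inr, Fintype.card_sum, h]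
    have e : Fintype.card ι + (Fintype.card κ + 1) = (Fintype.card ι + Fintype.card κ) + 1 := by
      ring
    rw [e, Nat.factorial_succ, Nat.factorial_succ]
    have h1 := fact_ne (Fintype.card ι)
    have h2 := fact_ne (Fintype.card κ)
    have h3 := fact_ne (Fintype.card ι + Fintype.card κ)
    have h4 : ((Fintype.card ι : ℝ) + Fintype.card κ + 1) ≠ 0 := by positivity
    push_cast
    field_simp

theorem NN_freeSum [Nonempty ι] [Nonempty κ] {K : Set (ι → ℝ)} {L : Set (κ → ℝ)}
    (hK : IsBody K) (hK0 : (0 : ι → ℝ) ∈ K) (hL : IsBody L) (hL0 : (0 : κ → ℝ) ∈ L) :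
    NN (freeSum K L) = fromBlocks (NN K) 0 0 (NN L) := by
  have h1 := fact_ne (Fintype.card ι)
  have h2 := fact_ne (Fintype.card κ)
  have h3 := fact_ne (Fintype.card ι + Fintype.card κ)
  have h4 : ((Fintype.card ι : ℝ) + Fintype.card κ + 1) ≠ 0 := by positivity
  have h5 : ((Fintype.card ι : ℝ) + Fintype.card κ + 1 + 1) ≠ 0 := by positivity
  have hll : ∀ a a' : ι, NN (freeSum K L) (Sum.inl a) (Sum.inl a') = NN K a a' := by
    intro a a'
    have h := mom_freeSum hK hK0 hL hL0 2 0 (fun x => x a * x a') (by fun_prop)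
      (by intro r _ x; simp; ring) (fun _ => 1) continuous_const (by simp)
    simp only [mul_one, add_zero] at h
    rw [int_one (vol_pos hL), mul_one] at h
    simp only [NN, sv_freeSum hK hK0 hL hL0, Sum.elim_inl, Fintype.card_sum, h]
    congr 1
    have e : Fintype.card ι + 2 + Fintype.card κ = (Fintype.card ι + Fintype.card κ) + 1 + 1 := by
      ring
    rw [e, Nat.factorial_succ, Nat.factorial_succ, Nat.factorial_succ, Nat.factorial_succ]
    push_cast
    field_simp
    ring
  have hrr : ∀ b b' : κ, NN (freeSum K L) (Sum.inr b) (Sum.inr b') = NN L b b' := by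
    intro b b'
    have h := mom_freeSum hK hK0 hL hL0 0 2 (fun _ => 1) continuous_const (by simp)
      (fun x => x b * x b') (by fun_prop) (by intro r _ x; simp; ring)
    simp only [one_mul, add_zero] at h
    rw [int_one (vol_pos hK), one_mul] at h
    simp only [NN, sv_freeSum hK hK0 hL hL0, Sum.elim_inr, Fintype.card_sum, h]
    congr 1
    have e : Fintype.card ι + (Fintype.card κ + 2)
        = (Fintype.card ι + Fintype.card κ) + 1 + 1 := by ring
    rw [e, Nat.factorial_succ, Nat.factorial_succ, Nat.factorial_succ, Nat.factorial_succ]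
    push_cast
    field_simp
    ring
  have hlr : ∀ (a : ι) (b : κ), (vol (freeSum K L))⁻¹ *
      (∫ z in freeSum K L, z (Sum.inl a) * z (Sum.inr b)) *
      (((Fintype.card ι : ℝ) + Fintype.card κ + 1) * ((Fintype.card ι : ℝ) + Fintype.card κ + 2))
      = sv K a * sv L b := by
    intro a b
    have h := mom_freeSum hK hK0 hL hL0 1 1 (fun x => x a) (by fun_prop) (by simp)
      (fun x => x b) (by fun_prop) (by simp)
    rw [h]
    simp only [sv]
    have e : Fintype.card ι + 1 + (Fintype.card κ + 1)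
        = (Fintype.card ι + Fintype.card κ) + 1 + 1 := by ring
    rw [e, Nat.factorial_succ, Nat.factorial_succ, Nat.factorial_succ, Nat.factorial_succ]
    push_cast
    field_simp
    ring
  ext c c'
  rcases c with a | b <;> rcases c' with a' | b'
  · rw [hll, fromBlocks_apply₁₁]
  · rw [fromBlocks_apply₁₂]
    simp only [NN, sv_freeSum hK hK0 hL hL0, Sum.elim_inl, Sum.elim_inr, Fintype.card_sum,
      Matrix.zero_apply]
    have := hlr a b'
    push_cast
    linarith
  · rw [fromBlocks_apply₂₁]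
    simp only [NN, sv_freeSum hK hK0 hL hL0, Sum.elim_inl, Sum.elim_inr, Fintype.card_sum,
      Matrix.zero_apply]
    have := hlr a' b
    have e : (∫ z in freeSum K L, z (Sum.inr b) * z (Sum.inl a'))
        = ∫ z in freeSum K L, z (Sum.inl a') * z (Sum.inr b) := by
      congr 1
      ext z
      ring
    rw [e]
    push_cast
    linarith
  · rw [hrr, fromBlocks_apply₂₂]

theorem pp_freeSum [Nonempty ι] [Nonempty κ] {K : Set (ι → ℝ)} {L : Set (κ → ℝ)}
    (hK : IsBody K) (hK0 : (0 : ι → ℝ) ∈ K) (hL : IsBody L) (hL0 : (0 : κ → ℝ) ∈ L) :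
    pp (freeSum K L) = pp K + pp L - 1 := by
  have hA : IsUnit (NN K).det := (NN_posDef hK).det_pos.ne'.isUnit
  have hB : IsUnit (NN L).det := (NN_posDef hL).det_pos.ne'.isUnit
  have hinv : (fromBlocks (NN K) 0 0 (NN L))⁻¹ = fromBlocks (NN K)⁻¹ 0 0 (NN L)⁻¹ := by
    apply Matrix.inv_eq_right_inv
    rw [fromBlocks_multiply]
    simp only [Matrix.mul_zero, Matrix.zero_mul, add_zero, zero_add,
      Matrix.mul_nonsing_inv _ hA, Matrix.mul_nonsing_inv _ hB, fromBlocks_one]
  unfold pp
  rw [sv_freeSum hK hK0 hL hL0, NN_freeSum hK hK0 hL hL0, hinv, fromBlocks_mulVec]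
  simp only [Matrix.zero_mulVec, add_zero, zero_add, Fintype.card_sum]
  have hd : ∀ (a c : ι → ℝ) (b d : κ → ℝ), Sum.elim a b ⬝ᵥ Sum.elim c d = a ⬝ᵥ c + b ⬝ᵥ d := by
    intro a c b d
    simp [dotProduct, Fintype.sum_sum_type]
  rw [hd]
  simp only [Sum.elim_comp_inl, Sum.elim_comp_inr]
  push_cast
  ring

/-- normalised value of `D` -/
theorem D_div {K : Set (ι → ℝ)} (hK : IsBody K) :
    D K / fS (Fintype.card ι) = (NN K).det * pp K / (vol K ^ 2 * ((Fintype.card ι)! : ℝ) ^ 2) := by
  rw [D_eq hK]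
  unfold fS
  have h1 := vol_pos hK
  have h2 := fact_ne (Fintype.card ι)
  have h3 : ((Fintype.card ι : ℝ) + 1) ≠ 0 := by positivity
  have h4 : ((Fintype.card ι : ℝ) + 2) ≠ 0 := by positivity
  rw [mul_pow, pow_succ]
  field_simp
  ring

/-- the free sum formula -/
theorem D_freeSum [Nonempty ι] [Nonempty κ] {K : Set (ι → ℝ)} {L : Set (κ → ℝ)}
    (hK : IsBody K) (hK0 : (0 : ι → ℝ) ∈ K) (hL : IsBody L) (hL0 : (0 : κ → ℝ) ∈ L) :
    D (freeSum K L) / fS (Fintype.card ι + Fintype.card κ)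
      = (D K / fS (Fintype.card ι)) * (D L / fS (Fintype.card κ)) *
        ((pp K + pp L - 1) / (pp K * pp L)) := by
  have h := D_div (freeSum_body hK hK0 hL hL0)
  rw [Fintype.card_sum] at h
  rw [h, D_div hK, D_div hL, pp_freeSum hK hK0 hL hL0, NN_freeSum hK hK0 hL hL0,
    vol_freeSum hK hK0 hL hL0, det_fromBlocks_zero₂₁]
  have h1 := vol_pos hK
  have h2 := vol_pos hL
  have h3 := fact_ne (Fintype.card ι)
  have h4 := fact_ne (Fintype.card κ)
  have h5 := fact_ne (Fintype.card ι + Fintype.card κ)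
  have h6 := one_le_pp hK hK0
  have h7 := one_le_pp hL hL0
  have h8 : pp K ≠ 0 := by linarith
  have h9 : pp L ≠ 0 := by linarith
  field_simp

end P254
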