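import Mathlib
import Vale.Agent.P254.Defs

namespace P254

open scoped Nat

/-- ratio of consecutive values -/
noncomputable def rS (n : ℕ) : ℝ :=
  ((n : ℝ) + 1) ^ (n + 3) / (((n : ℝ) + 2) ^ 2 * ((n : ℝ) + 3) ^ (n + 1))

theorem rS_pos (n : ℕ) : 0 < rS n := by
  unfold rS; positivity

theorem fS_pos' (n : ℕ) : 0 < fS n := by
  unfold fS; positivity

theorem fS_succ (n : ℕ) : fS (n + 1) = rS n * fS n := by
  unfold fS rS
  have h1 : (((n + 1)! : ℕ) : ℝ) = ((n : ℝ) + 1) * (n ! : ℝ) := by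
    rw [Nat.factorial_succ]; push_cast; ring
  have h2 : (((n + 1 : ℕ) : ℝ) + 1) = (n : ℝ) + 2 := by push_cast; ring
  have h3 : (((n + 1 : ℕ) : ℝ) + 2) = (n : ℝ) + 3 := by push_cast; ring
  rw [h1, h2, h3]
  have p1 : (n : ℝ) + 1 ≠ 0 := by positivity
  have p2 : (n : ℝ) + 2 ≠ 0 := by positivity
  have p3 : (n : ℝ) + 3 ≠ 0 := by positivity
  have e1 : ((n : ℝ) + 1) ^ (n + 3) = ((n : ℝ) + 1) ^ (n + 1) * ((n : ℝ) + 1) ^ 2 := by
    rw [← pow_add]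
  have e2 : ((n : ℝ) + 2) ^ (n + 1 + 1) = ((n : ℝ) + 2) ^ n * ((n : ℝ) + 2) ^ 2 := by
    rw [← pow_add]
  rw [e1, e2]
  field_simp

theorem exp_neg_le {y : ℝ} (hy : 0 ≤ y) : Real.exp (-y) ≤ 1 - y + y ^ 2 / 2 := by
  have h1 := Real.quadratic_le_exp_of_nonneg hy
  have h2 : Real.exp (-y) * Real.exp y = 1 := by rw [← Real.exp_add]; simp
  have h3 := Real.exp_pos (-y)
  have h4 : Real.exp (-y) * (1 + y + y ^ 2 / 2) ≤ 1 := by
    have := mul_le_mul_of_nonneg_left h1 h3.le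
    linarith
  have h5 : 1 ≤ (1 - y + y ^ 2 / 2) * (1 + y + y ^ 2 / 2) := by
    nlinarith [sq_nonneg (y ^ 2)]
  have h6 : 0 < 1 + y + y ^ 2 / 2 := by positivity
  exact le_of_mul_le_mul_right (h4.trans h5) h6

theorem key_pow (n : ℕ) :
    ((((n : ℝ) + 1) * ((n : ℝ) + 4))) ^ (n + 2) * (((n : ℝ) + 1) * ((n : ℝ) + 3) ^ 3)
      ≤ ((n : ℝ) + 2) ^ 4 * (((n : ℝ) + 2) * ((n : ℝ) + 3)) ^ (n + 2) := by
  have hn : (0 : ℝ) ≤ n := Nat.cast_nonneg n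
  set x : ℝ := 2 / (((n : ℝ) + 2) * ((n : ℝ) + 3)) with hx
  have hB : 0 < ((n : ℝ) + 2) * ((n : ℝ) + 3) := by positivity
  have hx1 : ((n : ℝ) + 1) * ((n : ℝ) + 4) = (1 - x) * (((n : ℝ) + 2) * ((n : ℝ) + 3)) := by
    rw [hx, sub_mul, div_mul_cancel₀ _ hB.ne']
    ring
  have hx0 : 0 ≤ 1 - x := by
    have : 0 ≤ ((n : ℝ) + 1) * ((n : ℝ) + 4) := by positivity
    rw [hx1] at this
    exact nonneg_of_mul_nonneg_left this hB
  have hexp : (1 - x) ^ (n + 2) ≤ 1 - 2 / ((n : ℝ) + 3) + (2 / ((n : ℝ) + 3)) ^ 2 / 2 := by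
    have h1 : 1 - x ≤ Real.exp (-x) := by
      have := Real.add_one_le_exp (-x)
      linarith
    have h2 : (1 - x) ^ (n + 2) ≤ Real.exp (-x) ^ (n + 2) := pow_le_pow_left₀ hx0 h1 _
    have h3 : Real.exp (-x) ^ (n + 2) = Real.exp (-(2 / ((n : ℝ) + 3))) := by
      rw [← Real.exp_nat_mul]
      congr 1
      rw [hx]
      push_cast
      field_simp
    rw [h3] at h2
    exact h2.trans (exp_neg_le (by positivity))
  rw [hx1, mul_pow]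
  have hP : 0 < (((n : ℝ) + 2) * ((n : ℝ) + 3)) ^ (n + 2) := by positivity
  have h7 : (1 - x) ^ (n + 2) * (((n : ℝ) + 1) * ((n : ℝ) + 3) ^ 3) ≤ ((n : ℝ) + 2) ^ 4 := by
    have h8 : (1 - x) ^ (n + 2) * (((n : ℝ) + 1) * ((n : ℝ) + 3) ^ 3)
        ≤ (1 - 2 / ((n : ℝ) + 3) + (2 / ((n : ℝ) + 3)) ^ 2 / 2)
          * (((n : ℝ) + 1) * ((n : ℝ) + 3) ^ 3) :=
      mul_le_mul_of_nonneg_right hexp (by positivity)
    have h9 : (1 - 2 / ((n : ℝ) + 3) + (2 / ((n : ℝ) + 3)) ^ 2 / 2)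
          * (((n : ℝ) + 1) * ((n : ℝ) + 3) ^ 3)
        = (((n : ℝ) + 3) ^ 2 - 2 * ((n : ℝ) + 3) + 2) * ((n : ℝ) + 1) * ((n : ℝ) + 3) := by
      field_simp
    rw [h9] at h8
    nlinarith [h8]
  calc (1 - x) ^ (n + 2) * (((n : ℝ) + 2) * ((n : ℝ) + 3)) ^ (n + 2)
        * (((n : ℝ) + 1) * ((n : ℝ) + 3) ^ 3)
      = ((1 - x) ^ (n + 2) * (((n : ℝ) + 1) * ((n : ℝ) + 3) ^ 3))
        * (((n : ℝ) + 2) * ((n : ℝ) + 3)) ^ (n + 2) := by ring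
    _ ≤ ((n : ℝ) + 2) ^ 4 * (((n : ℝ) + 2) * ((n : ℝ) + 3)) ^ (n + 2) :=
        mul_le_mul_of_nonneg_right h7 hP.le

theorem rS_mono_succ (n : ℕ) : rS n ≤ rS (n + 1) := by
  unfold rS
  have h2 : (((n + 1 : ℕ) : ℝ) + 1) = (n : ℝ) + 2 := by push_cast; ring
  have h3 : (((n + 1 : ℕ) : ℝ) + 2) = (n : ℝ) + 3 := by push_cast; ring
  have h4 : (((n + 1 : ℕ) : ℝ) + 3) = (n : ℝ) + 4 := by push_cast; ring
  rw [h2, h3, h4, div_le_div_iff₀ (by positivity) (by positivity)]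
  have hk := key_pow n
  have p3 : 0 < (n : ℝ) + 3 := by positivity
  refine le_of_mul_le_mul_right ?_ p3
  have e1 : ((n : ℝ) + 1) ^ (n + 3) * (((n : ℝ) + 3) ^ 2 * ((n : ℝ) + 4) ^ (n + 1 + 1)) * ((n : ℝ) + 3)
      = ((((n : ℝ) + 1) * ((n : ℝ) + 4))) ^ (n + 2) * (((n : ℝ) + 1) * ((n : ℝ) + 3) ^ 3) := by
    rw [mul_pow, show n + 3 = (n + 2) + 1 by ring, pow_succ ((n : ℝ) + 1) (n + 2)]
    ring
  have e2 : ((n : ℝ) + 2) ^ (n + 1 + 3) * (((n : ℝ) + 2) ^ 2 * ((n : ℝ) + 3) ^ (n + 1)) * ((n : ℝ) + 3)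
      = ((n : ℝ) + 2) ^ 4 * (((n : ℝ) + 2) * ((n : ℝ) + 3)) ^ (n + 2) := by
    rw [mul_pow, show n + 1 + 3 = (n + 2) + 2 by ring, pow_add ((n : ℝ) + 2) (n + 2) 2,
      show n + 2 = (n + 1) + 1 by ring, pow_succ ((n : ℝ) + 3) (n + 1)]
    ring
  rw [e1, e2]
  exact hk

theorem rS_mono : Monotone rS := monotone_nat_of_le_succ rS_mono_succ

theorem fS_mul_le (k m : ℕ) : fS k * fS m ≤ fS (k + m) := by
  induction k with
  | zero =>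
    have : fS 0 = 1 := by simp [fS]
    rw [this, one_mul, zero_add]
  | succ k ih =>
    have h1 : k + 1 + m = (k + m) + 1 := by ring
    rw [h1, fS_succ, fS_succ (k + m)]
    calc rS k * fS k * fS m = rS k * (fS k * fS m) := by ring
      _ ≤ rS k * fS (k + m) := mul_le_mul_of_nonneg_left ih (rS_pos k).le
      _ ≤ rS (k + m) * fS (k + m) :=
          mul_le_mul_of_nonneg_right (rS_mono (Nat.le_add_right k m)) (fS_pos' _).le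

end P254
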