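import Mathlib
import Vale.Agent.P254.PD

namespace P254

open MeasureTheory Set Matrix
open scoped Pointwise Nat

variable {ι κ : Type} [Fintype ι] [DecidableEq ι] [Fintype κ] [DecidableEq κ]

theorem change_var (e : (ι → ℝ) ≃ₗ[ℝ] (κ → ℝ)) (ε : ι ≃ κ) (c : κ → ℝ) :
    ∃ δ : ℝ, 0 < δ ∧
      δ ^ 2 = (((LinearMap.toMatrix' (e : (ι → ℝ) →ₗ[ℝ] (κ → ℝ))).submatrix ε id).det) ^ 2 ∧
      ∀ K : Set (ι → ℝ), MeasurableSet K → ∀ g : (κ → ℝ) → ℝ,
        ∫ y in (fun x => e x + c) '' K, g y = δ * ∫ x in K, g (e x + c) := by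
  let E : (ι → ℝ) ≃ₗ[ℝ] (ι → ℝ) := e.trans (LinearEquiv.funCongrLeft ℝ ℝ ε)
  have hE : ∀ x i, E x i = e x (ε i) := fun x i => rfl
  let A : (ι → ℝ) →ₗ[ℝ] (ι → ℝ) := E.toLinearMap
  have hdet : LinearMap.det A ≠ 0 := (LinearEquiv.isUnit_det' E).ne_zero
  refine ⟨|LinearMap.det A|, abs_pos.mpr hdet, ?_, ?_⟩
  · rw [sq_abs]
    congr 1
    rw [← LinearMap.det_toMatrix']
    congr 1
  · intro K hK g
    let N := MeasurableEquiv.piCongrLeft (fun _ : κ => ℝ) ε
    have hN : MeasurePreserving N volume volume :=
      volume_measurePreserving_piCongrLeft (fun _ : κ => ℝ) ε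
    have hNap : ∀ (x : ι → ℝ) (i : ι), N x (ε i) = x i := by
      intro x i
      exact Equiv.piCongrLeft_apply_apply (fun _ : κ => ℝ) ε x i
    have hNE : ∀ x, N (E x) = e x := by
      intro x
      funext k
      obtain ⟨i, rfl⟩ := ε.surjective k
      rw [hNap, hE]
    let b : ι → ℝ := fun i => c (ε i)
    have hNb : ∀ x, N (E x + b) = e x + c := by
      intro x
      funext k
      obtain ⟨i, rfl⟩ := ε.surjective k
      rw [hNap]
      simp [hE, b]
    let h : (ι → ℝ) → (ι → ℝ) := fun x => E x + b
    have himg : N ⁻¹' ((fun x => e x + c) '' K) = h '' K := by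
      ext x
      simp only [Set.mem_preimage, Set.mem_image]
      constructor
      · rintro ⟨y, hy, hyx⟩
        refine ⟨y, hy, ?_⟩
        apply N.injective
        rw [← hyx]
        exact hNb y
      · rintro ⟨y, hy, rfl⟩
        exact ⟨y, hy, (hNb y).symm⟩
    have h1 := hN.setIntegral_preimage_emb N.measurableEmbedding g ((fun x => e x + c) '' K)
    rw [← h1, himg]
    have hinj : Set.InjOn h K := by
      intro x _ y _ hxy
      have : E x = E y := by simpa [h] using hxy
      exact E.injective this
    let A' : (ι → ℝ) →L[ℝ] (ι → ℝ) := LinearMap.toContinuousLinearMap A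
    have hfd : ∀ x ∈ K, HasFDerivWithinAt h A' K x := by
      intro x _
      have : HasFDerivAt (fun x => A' x + b) A' x := A'.hasFDerivAt.add_const b
      exact this.hasFDerivWithinAt
    rw [integral_image_eq_integral_abs_det_fderiv_smul volume hK hfd hinj]
    have hd : A'.det = LinearMap.det A := by
      simp [A']
    rw [hd]
    simp only [smul_eq_mul]
    rw [integral_const_mul]
    congr 1
    apply integral_congr_ae
    filter_upwards with x
    simp only [h]
    rw [hNb]

/-- affine invariance of `D` (the index types may differ) -/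
theorem D_affine (e : (ι → ℝ) ≃ₗ[ℝ] (κ → ℝ)) (c : κ → ℝ) {K : Set (ι → ℝ)} (hK : IsBody K) :
    D ((fun x => e x + c) '' K) = D K := by
  classical
  have hcard : Fintype.card ι = Fintype.card κ := by
    have := e.finrank_eq
    simpa using this
  let ε : ι ≃ κ := Fintype.equivOfCardEq hcard
  obtain ⟨δ, hδ, hδ2, hcv⟩ := change_var e ε c
  have hKm : MeasurableSet K := hK.comp.measurableSet
  have hcv' := hcv K hKm
  have hone : ∀ {μ : Type} [Fintype μ] (s : Set (μ → ℝ)), ∫ _ in s, (1 : ℝ) = vol s := by
    intro μ _ s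
    simp [vol, Measure.real]
  have hvol : vol ((fun x => e x + c) '' K) = δ * vol K := by
    rw [← hone, hcv' (fun _ => 1), hone]
  have hv := vol_pos hK
  set B : Matrix κ ι ℝ := LinearMap.toMatrix' (e : (ι → ℝ) →ₗ[ℝ] (κ → ℝ)) with hB
  have hBx : ∀ x i, e x i = ∑ j, B i j * x j := by
    intro x i
    have : B *ᵥ x = e x := by
      rw [hB, LinearMap.toMatrix'_mulVec]
      rfl
    rw [← this]
    rfl
  have hint : ∀ j, IntegrableOn (fun x : ι → ℝ => x j) K := fun j =>
    cont_int hK (continuous_apply j)
  have hconst : ∀ r : ℝ, ∫ _ in K, r = r * vol K := by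
    intro r
    have : ∫ _ in K, r = ∫ _ in K, r * (1 : ℝ) := by simp
    rw [this, integral_const_mul, hone]
  -- centroid
  have hcen : ∀ i, cen ((fun x => e x + c) '' K) i = ∑ j, B i j * cen K j + c i := by
    intro i
    unfold cen
    rw [hvol, hcv' (fun y => y i)]
    have h1 : ∫ x in K, (e x + c) i = (∑ j, B i j * ∫ x in K, x j) + c i * vol K := by
      have : ∀ x : ι → ℝ, (e x + c) i = ∑ j, B i j * x j + c i := by
        intro x
        rw [Pi.add_apply, hBx]
      simp_rw [this]
      rw [integral_add, integral_finsetSum, hconst]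
      · congr 1
        apply Finset.sum_congr rfl
        intro j _
        rw [integral_const_mul]
      · intro j _
        exact (hint j).const_mul _
      · exact integrable_finsetSum _ fun j _ => (hint j).const_mul _
      · exact cont_int hK continuous_const
    rw [h1, mul_inv, mul_add, mul_add]
    have h2 : δ⁻¹ * (vol K)⁻¹ * (δ * ∑ j, B i j * ∫ x in K, x j)
        = ∑ j, B i j * ((vol K)⁻¹ * ∫ x in K, x j) := by
      have : δ⁻¹ * (vol K)⁻¹ * (δ * ∑ j, B i j * ∫ x in K, x j)
          = (vol K)⁻¹ * ∑ j, B i j * ∫ x in K, x j := by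
        field_simp
      rw [this, Finset.mul_sum]
      apply Finset.sum_congr rfl
      intro j _
      ring
    rw [h2]
    congr 1
    field_simp
  -- covariance
  have hcov : ∀ i i', cov ((fun x => e x + c) '' K) i i'
      = ∑ j, ∑ j', B i j * B i' j' * cov K j j' := by
    intro i i'
    unfold cov
    rw [hvol, hcv' (fun y => (y i - cen ((fun x => e x + c) '' K) i)
      * (y i' - cen ((fun x => e x + c) '' K) i'))]
    have h0 : ∀ (x : ι → ℝ) i, (e x + c) i - cen ((fun x => e x + c) '' K) i
        = ∑ j, B i j * (x j - cen K j) := by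
      intro x i
      rw [hcen, Pi.add_apply, hBx]
      simp only [mul_sub, Finset.sum_sub_distrib]
      ring
    have h1 : ∫ x in K, ((e x + c) i - cen ((fun x => e x + c) '' K) i)
        * ((e x + c) i' - cen ((fun x => e x + c) '' K) i')
        = ∑ j, ∑ j', B i j * B i' j' * ∫ x in K, (x j - cen K j) * (x j' - cen K j') := by
      have : ∀ x : ι → ℝ, ((e x + c) i - cen ((fun x => e x + c) '' K) i)
          * ((e x + c) i' - cen ((fun x => e x + c) '' K) i')
          = ∑ j, ∑ j', B i j * B i' j' * ((x j - cen K j) * (x j' - cen K j')) := by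
        intro x
        rw [h0, h0, Finset.sum_mul_sum]
        apply Finset.sum_congr rfl
        intro j _
        apply Finset.sum_congr rfl
        intro j' _
        ring
      simp_rw [this]
      have hi : ∀ j j', IntegrableOn (fun x : ι → ℝ =>
          B i j * B i' j' * ((x j - cen K j) * (x j' - cen K j'))) K := by
        intro j j'
        apply cont_int hK
        fun_prop
      rw [integral_finsetSum]
      · apply Finset.sum_congr rfl
        intro j _
        rw [integral_finsetSum]
        · apply Finset.sum_congr rfl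
          intro j' _
          rw [integral_const_mul]
        · intro j' _
          exact hi j j'
      · intro j _
        exact integrable_finsetSum _ fun j' _ => hi j j'
    rw [h1, mul_inv]
    have h2 : δ⁻¹ * (vol K)⁻¹ * (δ * ∑ j, ∑ j', B i j * B i' j'
          * ∫ x in K, (x j - cen K j) * (x j' - cen K j'))
        = (vol K)⁻¹ * ∑ j, ∑ j', B i j * B i' j'
          * ∫ x in K, (x j - cen K j) * (x j' - cen K j') := by
      field_simp
    rw [h2, Finset.mul_sum]
    apply Finset.sum_congr rfl
    intro j _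
    rw [Finset.mul_sum]
    apply Finset.sum_congr rfl
    intro j' _
    ring
  have hmat : (cov ((fun x => e x + c) '' K)).submatrix ε ε
      = (B.submatrix ε id) * cov K * (B.submatrix ε id)ᵀ := by
    ext i i'
    rw [Matrix.submatrix_apply, hcov]
    simp only [Matrix.mul_apply, Matrix.submatrix_apply, id, Matrix.transpose_apply,
      Finset.sum_mul]
    rw [Finset.sum_comm]
    apply Finset.sum_congr rfl
    intro j _
    apply Finset.sum_congr rfl
    intro j' _
    ring
  have hdet : (cov ((fun x => e x + c) '' K)).det = δ ^ 2 * (cov K).det := by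
    rw [← Matrix.det_submatrix_equiv_self ε, hmat, Matrix.det_mul, Matrix.det_mul,
      Matrix.det_transpose, hδ2]
    ring
  unfold D
  rw [hdet, hvol]
  have : vol K ≠ 0 := hv.ne'
  field_simp

theorem IsBody.affine (e : (ι → ℝ) ≃ₗ[ℝ] (κ → ℝ)) (c : κ → ℝ) {K : Set (ι → ℝ)}
    (hK : IsBody K) : IsBody ((fun x => e x + c) '' K) := by
  have he : Continuous e := (e : (ι → ℝ) →ₗ[ℝ] (κ → ℝ)).continuous_of_finiteDimensional
  have himg : (fun x => e x + c) '' K = (fun y => y + c) '' (e '' K) := by
    rw [Set.image_image]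
  refine ⟨?_, ?_, ?_⟩
  · rw [himg]
    have h1 : Convex ℝ (e '' K) := hK.conv.linear_image (e : (ι → ℝ) →ₗ[ℝ] (κ → ℝ))
    have h2 := h1.translate c
    simpa [add_comm] using h2
  · exact hK.comp.image (he.add continuous_const)
  · obtain ⟨x, hx⟩ := hK.int
    let F : (ι → ℝ) ≃ₜ (κ → ℝ) :=
      (e.toContinuousLinearEquiv.toHomeomorph).trans (Homeomorph.addRight c)
    have hF : ∀ x, F x = e x + c := fun x => rfl
    refine ⟨F x, ?_⟩
    have : F '' interior K = interior (F '' K) := F.image_interior K
    have h3 : F x ∈ interior (F '' K) := by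
      rw [← this]
      exact ⟨x, hx, rfl⟩
    exact h3

end P254
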