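import Mathlib
import Vale.Agent.P254.Alg
import Vale.Agent.P254.Inv

namespace P254

open MeasureTheory Set Matrix
open scoped Pointwise Nat

theorem T_body (n : ℕ) : IsBody (T n) := by
  refine ⟨?_, ?_, ?_⟩
  · intro x hx y hy a b ha hb hab
    refine ⟨fun i => ?_, ?_⟩
    · have h1 := hx.1 i
      have h2 := hy.1 i
      simp only [Pi.add_apply, Pi.smul_apply, smul_eq_mul]
      positivity
    · simp only [Pi.add_apply, Pi.smul_apply, smul_eq_mul, Finset.sum_add_distrib,
        ← Finset.mul_sum]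
      have h1 := mul_le_mul_of_nonneg_left hx.2 ha
      have h2 := mul_le_mul_of_nonneg_left hy.2 hb
      linarith
  · refine (isCompact_Icc (a := (0 : Fin n → ℝ)) (b := 1)).of_isClosed_subset ?_ ?_
    · have h1 : IsClosed {x : Fin n → ℝ | ∀ i, 0 ≤ x i} := by
        simp only [Set.ofPred_forall]
        exact isClosed_iInter fun i => isClosed_le continuous_const (continuous_apply i)
      have h2 : IsClosed {x : Fin n → ℝ | ∑ i, x i ≤ 1} :=
        isClosed_le (by fun_prop) continuous_const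
      exact h1.inter h2
    · intro x hx
      refine ⟨fun i => hx.1 i, fun i => ?_⟩
      have h1 : x i ≤ ∑ j, x j :=
        Finset.single_le_sum (f := x) (fun j _ => hx.1 j) (Finset.mem_univ i)
      exact h1.trans hx.2
  · refine ⟨fun _ => 1 / ((n : ℝ) + 1), ?_⟩
    rw [mem_interior]
    refine ⟨{x : Fin n → ℝ | (∀ i, 0 < x i) ∧ ∑ i, x i < 1}, ?_, ?_, ?_, ?_⟩
    · rintro x ⟨h1, h2⟩
      exact ⟨fun i => (h1 i).le, h2.le⟩
    · have h1 : IsOpen {x : Fin n → ℝ | ∀ i, 0 < x i} := by
        simp only [Set.ofPred_forall]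
        exact isOpen_iInter_of_finite fun i => isOpen_lt continuous_const (continuous_apply i)
      have h2 : IsOpen {x : Fin n → ℝ | ∑ i, x i < 1} :=
        isOpen_lt (by fun_prop) continuous_const
      exact h1.inter h2
    · intro i
      positivity
    · rw [Finset.sum_const, Finset.card_univ, Fintype.card_fin, nsmul_eq_mul, mul_one_div,
        div_lt_one (by positivity)]
      linarith

theorem T1_eq : T 1 = (MeasurableEquiv.funUnique (Fin 1) ℝ) ⁻¹' (Icc (0 : ℝ) 1) := by
  ext x
  simp [T, MeasurableEquiv.funUnique, Fin.forall_fin_one]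

theorem vol_T1 : vol (T 1) = 1 := by
  have h : volume ((MeasurableEquiv.funUnique (Fin 1) ℝ) ⁻¹' Icc (0 : ℝ) 1)
      = volume (Icc (0 : ℝ) 1) := (volume_preserving_funUnique (Fin 1) ℝ).measure_preimage
    measurableSet_Icc.nullMeasurableSet
  unfold vol
  rw [T1_eq, h, Real.volume_Icc]
  simp

theorem int_T1 (g : ℝ → ℝ) : ∫ x in T 1, g (x 0) = ∫ t in (0 : ℝ)..1, g t := by
  rw [T1_eq, intervalIntegral.integral_of_le zero_le_one, ← integral_Icc_eq_integral_Ioc]
  exact (volume_preserving_funUnique (Fin 1) ℝ).setIntegral_preimage_emb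
    (MeasurableEquiv.measurableEmbedding _) g (Icc 0 1)

theorem int1_T1 (i : Fin 1) : ∫ x in T 1, x i = 1 / 2 := by
  rw [Subsingleton.elim i 0, int_T1 (fun t => t), integral_id]
  norm_num

theorem int2_T1 (i j : Fin 1) : ∫ x in T 1, x i * x j = 1 / 3 := by
  rw [Subsingleton.elim i 0, Subsingleton.elim j 0, int_T1 (fun t => t * t)]
  have : (fun t : ℝ => t * t) = fun t => t ^ 2 := by ext t; ring
  rw [this, integral_pow]
  norm_num

theorem cov_T1 : cov (T 1) 0 0 = 1 / 12 := by
  unfold cov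
  have hc : cen (T 1) = fun _ => 1 / 2 := by
    ext i
    unfold cen
    rw [vol_T1, int1_T1]
    norm_num
  rw [hc, vol_T1, int_T1 (fun t => (t - 1 / 2) * (t - 1 / 2))]
  have h : ∀ t : ℝ, (t - 1 / 2) * (t - 1 / 2) = t ^ 2 - t + 1 / 4 := by intro t; ring
  simp_rw [h]
  rw [intervalIntegral.integral_add, intervalIntegral.integral_sub, integral_pow, integral_id]
  · norm_num
  · exact (continuous_pow 2).intervalIntegrable _ _
  · exact continuous_id.intervalIntegrable _ _
  · exact ((continuous_pow 2).sub continuous_id).intervalIntegrable _ _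
  · exact continuous_const.intervalIntegrable _ _

theorem pp_T1 : pp (T 1) = 1 := by
  have hs : sv (T 1) = fun _ => 1 := by
    ext i
    unfold sv
    rw [vol_T1, int1_T1]
    simp
    norm_num
  have hN : NN (T 1) = 1 := by
    ext i j
    unfold NN
    rw [hs, vol_T1, int2_T1, Subsingleton.elim i j, Matrix.one_apply_eq]
    simp
    norm_num
  unfold pp
  rw [hN, hs, inv_one, one_mulVec]
  simp [dotProduct]

theorem D_T1 : D (T 1) = fS 1 := by
  unfold D fS
  rw [det_fin_one, cov_T1, vol_T1]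
  norm_num

theorem mem_smul_T {n : ℕ} {s : ℝ} (hs : 0 ≤ s) (x : Fin n → ℝ) :
    x ∈ s • T n ↔ (∀ i, 0 ≤ x i) ∧ ∑ i, x i ≤ s := by
  rcases hs.eq_or_lt with rfl | hs0
  · have h0 : (0 : ℝ) • T n = {0} := by
      rw [zero_smul_set (show (T n).Nonempty from ⟨0, fun i => le_rfl, by simp⟩)]
      rfl
    rw [h0, mem_singleton_iff]
    constructor
    · rintro rfl
      exact ⟨fun i => le_rfl, by simp⟩
    · rintro ⟨h1, h2⟩
      have h3 : ∑ i, x i = 0 := le_antisymm h2 (Finset.sum_nonneg fun i _ => h1 i)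
      ext i
      exact (Finset.sum_eq_zero_iff_of_nonneg (fun i _ => h1 i)).1 h3 i (Finset.mem_univ i)
  · constructor
    · rintro ⟨y, hy, rfl⟩
      refine ⟨fun i => mul_nonneg hs (hy.1 i), ?_⟩
      simp only [Pi.smul_apply, smul_eq_mul, ← Finset.mul_sum]
      have := mul_le_mul_of_nonneg_left hy.2 hs
      linarith
    · rintro ⟨h1, h2⟩
      refine ⟨s⁻¹ • x, ⟨fun i => ?_, ?_⟩, ?_⟩
      · exact mul_nonneg (inv_nonneg.2 hs) (h1 i)
      · simp only [Pi.smul_apply, smul_eq_mul, ← Finset.mul_sum]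
        rw [inv_mul_le_iff₀ hs0, mul_one]
        exact h2
      · simp only [smul_smul, mul_inv_cancel₀ hs0.ne', one_smul]

theorem T_succ_eq (n : ℕ) : T (n + 1)
    = (fun x => (LinearEquiv.funCongrLeft ℝ ℝ (finSumFinEquiv (m := n) (n := 1)).symm) x + 0) ''
      freeSum (T n) (T 1) := by
  ext x
  constructor
  · rintro ⟨h1, h2⟩
    refine ⟨fun a => x (finSumFinEquiv a), ?_, ?_⟩
    · have h3 : ∑ i, x i = ∑ a : Fin n, x (finSumFinEquiv (Sum.inl a))
          + ∑ b : Fin 1, x (finSumFinEquiv (Sum.inr b)) := by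
        rw [← Equiv.sum_comp (finSumFinEquiv (m := n) (n := 1)) x, Fintype.sum_sum_type]
      have h4 : 0 ≤ ∑ b : Fin 1, x (finSumFinEquiv (m := n) (Sum.inr b)) :=
        Finset.sum_nonneg fun b _ => h1 _
      have h5 : 0 ≤ ∑ a : Fin n, x (finSumFinEquiv (n := 1) (Sum.inl a)) :=
        Finset.sum_nonneg fun b _ => h1 _
      refine ⟨∑ a : Fin n, x (finSumFinEquiv (n := 1) (Sum.inl a)),
        1 - ∑ a : Fin n, x (finSumFinEquiv (n := 1) (Sum.inl a)), h5, by linarith, by ring, ?_, ?_⟩
      · exact (mem_smul_T h5 _).2 ⟨fun i => h1 _, le_rfl⟩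
      · exact (mem_smul_T (by linarith) _).2 ⟨fun i => h1 _, by linarith⟩
    · ext i
      simp [LinearEquiv.funCongrLeft_apply]
  · rintro ⟨z, ⟨s, t, hs, ht, hst, hz1, hz2⟩, rfl⟩
    have k1 := (mem_smul_T hs _).1 hz1
    have k2 := (mem_smul_T ht _).1 hz2
    have hz : ∀ a, 0 ≤ z a := by
      rintro (a | a)
      · exact k1.1 a
      · exact k2.1 a
    refine ⟨fun i => ?_, ?_⟩
    · simp only [add_zero]
      exact hz _
    · simp only [add_zero]
      have h3 : ∑ i, (LinearEquiv.funCongrLeft ℝ ℝ (finSumFinEquiv (m := n) (n := 1)).symm) z i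
          = ∑ a, z a := by
        rw [← Equiv.sum_comp (finSumFinEquiv (m := n) (n := 1)).symm z]
        rfl
      rw [h3, Fintype.sum_sum_type]
      linarith [k1.2, k2.2]

/-- by induction on `n`: `T (n+1)` is (up to reindexing) `freeSum (T n) (T 1)` -/
theorem D_T (n : ℕ) (hn : 1 ≤ n) : D (T n) = fS n := by
  induction n, hn using Nat.le_induction with
  | base => exact D_T1
  | succ n hn ih =>
    have : Nonempty (Fin n) := ⟨⟨0, by omega⟩⟩
    have h0 : ∀ m : ℕ, (0 : Fin m → ℝ) ∈ T m := fun m => ⟨fun i => le_rfl, by simp⟩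
    have hfb := freeSum_body (T_body n) (h0 n) (T_body 1) (h0 1)
    have hf := D_freeSum (T_body n) (h0 n) (T_body 1) (h0 1)
    have hp := one_le_pp (T_body n) (h0 n)
    have hfpos : ∀ m : ℕ, 0 < fS m := fun m => by unfold fS; positivity
    rw [T_succ_eq, D_affine _ _ hfb]
    simp only [Fintype.card_fin] at hf
    rw [ih, D_T1, pp_T1, div_self (hfpos n).ne', div_self (hfpos 1).ne'] at hf
    have h1 : (pp (T n) + 1 - 1) / (pp (T n) * 1) = 1 := by
      rw [add_sub_cancel_right, mul_one, div_self (by linarith)]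
    rw [h1] at hf
    rw [div_eq_iff (hfpos (n + 1)).ne'] at hf
    linarith

end P254
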