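import Mathlib
import Vale.Agent.P254.Simplex

namespace P254

open MeasureTheory Set Matrix
open scoped Pointwise Nat

section reindex

variable {ι κ : Type} [Fintype ι] [DecidableEq ι] [Fintype κ] [DecidableEq κ]

theorem reindex_fun (e : κ ≃ ι) :
    (MeasurableEquiv.piCongrLeft (fun _ : κ => ℝ) e.symm : (ι → ℝ) → κ → ℝ)
      = fun z : ι → ℝ => fun i : κ => z (e i) := by
  funext z i
  have h := Equiv.piCongrLeft_apply_apply (P := fun _ : κ => ℝ) e.symm z (e i)
  rw [e.symm_apply_apply] at h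
  rw [MeasurableEquiv.coe_piCongrLeft]
  exact h

theorem reindex_mp (e : κ ≃ ι) :
    MeasurePreserving (fun z : ι → ℝ => fun i : κ => z (e i)) volume volume := by
  rw [← reindex_fun]
  exact volume_measurePreserving_piCongrLeft (fun _ : κ => ℝ) e.symm

theorem reindex_emb (e : κ ≃ ι) :
    MeasurableEmbedding (fun z : ι → ℝ => fun i : κ => z (e i)) := by
  rw [← reindex_fun]
  exact (MeasurableEquiv.piCongrLeft (fun _ : κ => ℝ) e.symm).measurableEmbedding

theorem reindex_int (e : κ ≃ ι) (K : Set (ι → ℝ)) (g : (κ → ℝ) → ℝ) :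
    ∫ x in (fun z : ι → ℝ => fun i : κ => z (e i)) '' K, g x = ∫ z in K, g (fun i => z (e i)) :=
  (reindex_mp e).setIntegral_image_emb (reindex_emb e) g K

theorem vol_reindex (e : κ ≃ ι) (K : Set (ι → ℝ)) :
    vol ((fun z : ι → ℝ => fun i : κ => z (e i)) '' K) = vol K := by
  unfold vol
  have h := (reindex_mp e).measure_preimage_emb (reindex_emb e)
    ((fun z : ι → ℝ => fun i : κ => z (e i)) '' K)
  rw [preimage_image_eq _ (reindex_emb e).injective] at h
  rw [h]

theorem sv_reindex (e : κ ≃ ι) (K : Set (ι → ℝ)) :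
    sv ((fun z : ι → ℝ => fun i : κ => z (e i)) '' K) = fun i => sv K (e i) := by
  ext i
  unfold sv
  rw [vol_reindex, reindex_int e K (fun x => x i), Fintype.card_congr e]

theorem NN_reindex (e : κ ≃ ι) (K : Set (ι → ℝ)) :
    NN ((fun z : ι → ℝ => fun i : κ => z (e i)) '' K) = (NN K).submatrix e e := by
  ext i j
  rw [submatrix_apply]
  unfold NN
  rw [sv_reindex, vol_reindex, reindex_int e K (fun x => x i * x j), Fintype.card_congr e]

end reindex

theorem T_succ_eq' (n : ℕ) : T (n + 1)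
    = (fun z : Fin n ⊕ Fin 1 → ℝ => fun i : Fin (n + 1) =>
        z ((finSumFinEquiv (m := n) (n := 1)).symm i)) '' freeSum (T n) (T 1) := by
  rw [T_succ_eq]
  congr 1
  ext z i
  simp [LinearEquiv.funCongrLeft_apply]

theorem sv_T1 : sv (T 1) = fun _ => 1 := by
  ext i
  unfold sv
  rw [vol_T1, int1_T1]
  simp
  norm_num

theorem NN_T1 : NN (T 1) = 1 := by
  ext i j
  unfold NN
  rw [sv_T1, vol_T1, int2_T1, Subsingleton.elim i j, Matrix.one_apply_eq]
  simp
  norm_num

theorem T_data (n : ℕ) (hn : 1 ≤ n) :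
    vol (T n) = 1 / (n ! : ℝ) ∧ sv (T n) = (fun _ => 1) ∧ NN (T n) = 1 := by
  induction n, hn using Nat.le_induction with
  | base => exact ⟨by rw [vol_T1]; simp, sv_T1, NN_T1⟩
  | succ n hn ih =>
    obtain ⟨i1, i2, i3⟩ := ih
    have : Nonempty (Fin n) := ⟨⟨0, by omega⟩⟩
    have h0 : ∀ m : ℕ, (0 : Fin m → ℝ) ∈ T m := fun m => ⟨fun i => le_rfl, by simp⟩
    refine ⟨?_, ?_, ?_⟩
    · rw [T_succ_eq', vol_reindex, vol_freeSum (T_body n) (h0 n) (T_body 1) (h0 1), i1, vol_T1]
      simp only [Fintype.card_fin, Nat.factorial_one, Nat.cast_one, mul_one]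
      have : (n ! : ℝ) ≠ 0 := by positivity
      field_simp
    · rw [T_succ_eq', sv_reindex, sv_freeSum (T_body n) (h0 n) (T_body 1) (h0 1), i2, sv_T1]
      ext i
      rcases (finSumFinEquiv (m := n) (n := 1)).symm i with a | a <;> rfl
    · rw [T_succ_eq', NN_reindex, NN_freeSum (T_body n) (h0 n) (T_body 1) (h0 1), i3, NN_T1,
        fromBlocks_one, submatrix_one_equiv]

theorem vol_T (n : ℕ) (hn : 1 ≤ n) : vol (T n) = 1 / (n ! : ℝ) := (T_data n hn).1

theorem sv_T (n : ℕ) (hn : 1 ≤ n) : sv (T n) = fun _ => 1 := (T_data n hn).2.1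

theorem NN_T (n : ℕ) (hn : 1 ≤ n) : NN (T n) = 1 := (T_data n hn).2.2

end P254
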