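import Mathlib
import Vale.Agent.P254.PD

namespace P254

open MeasureTheory Set Matrix
open scoped Pointwise Nat

variable {ι κ : Type} [Fintype ι] [DecidableEq ι] [Fintype κ] [DecidableEq κ]

theorem tr_int (K : Set (ι → ℝ)) (a : ι → ℝ) (g : (ι → ℝ) → ℝ) :
    ∫ x in (fun x => x - a) '' K, g x = ∫ x in K, g (x - a) :=
  (measurePreserving_sub_right volume a).setIntegral_image_emb
    (MeasurableEquiv.subRight a).measurableEmbedding g K

theorem vol_eq_int (K : Set (ι → ℝ)) : vol K = ∫ _x in K, (1 : ℝ) := by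
  simp [vol, Measure.real]

theorem vol_tr (K : Set (ι → ℝ)) (a : ι → ℝ) : vol ((fun x => x - a) '' K) = vol K := by
  rw [vol_eq_int, vol_eq_int, tr_int]

theorem sv_tr {K : Set (ι → ℝ)} (hK : IsBody K) (a : ι → ℝ) :
    sv ((fun x => x - a) '' K) = fun i => sv K i - ((Fintype.card ι : ℝ) + 1) * a i := by
  have hv := vol_pos hK
  funext i
  unfold sv
  rw [vol_tr, tr_int]
  have h1 : ∫ x in K, (x - a) i = (∫ x in K, x i) - vol K * a i := by
    have : ∀ x : ι → ℝ, (x - a) i = x i - a i := fun x => rfl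
    simp_rw [this]
    rw [integral_sub (cont_int hK (by fun_prop)) (cont_int hK (by fun_prop))]
    rw [setIntegral_const]
    simp [vol, Measure.real]
  rw [h1]
  field_simp

theorem NN_tr {K : Set (ι → ℝ)} (hK : IsBody K) (a : ι → ℝ) :
    NN ((fun x => x - a) '' K) = fun i j => NN K i j - (sv K i * a j + a i * sv K j)
      + ((Fintype.card ι : ℝ) + 1) * (a i * a j) := by
  have hv := vol_pos hK
  funext i j
  unfold NN
  rw [sv_tr hK, vol_tr, tr_int]
  have h1 : ∫ x in K, (x - a) i * (x - a) j = (∫ x in K, x i * x j) - a j * (∫ x in K, x i)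
      - a i * (∫ x in K, x j) + vol K * (a i * a j) := by
    have : ∀ x : ι → ℝ, (x - a) i * (x - a) j
        = x i * x j - a j * x i - a i * x j + a i * a j := fun x => by
      simp only [Pi.sub_apply]; ring
    simp_rw [this]
    rw [integral_add (cont_int hK (by fun_prop)) (cont_int hK (by fun_prop)),
      integral_sub (cont_int hK (by fun_prop)) (cont_int hK (by fun_prop)),
      integral_sub (cont_int hK (by fun_prop)) (cont_int hK (by fun_prop)),
      integral_const_mul, integral_const_mul, setIntegral_const]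
    simp [vol, Measure.real]
  rw [h1]
  have hi : (∫ x in K, x i) = vol K * sv K i / ((Fintype.card ι : ℝ) + 1) := by
    unfold sv; field_simp
  have hj : (∫ x in K, x j) = vol K * sv K j / ((Fintype.card ι : ℝ) + 1) := by
    unfold sv; field_simp
  rw [hi, hj]
  field_simp
  ring

/-- `det (1 - (1 aᵀ + a 1ᵀ) + (n+1) a aᵀ) = (1 - Σ a)^2 + Σ a^2` -/
theorem det_shift (n : ℕ) (a : Fin n → ℝ) :
    (Matrix.of (fun i j => (1 : Matrix (Fin n) (Fin n) ℝ) i j - (1 * a j + a i * 1)
      + ((n : ℝ) + 1) * (a i * a j))).det = (1 - ∑ i, a i) ^ 2 + ∑ i, a i ^ 2 := by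
  let U : Matrix (Fin n) (Fin 2) ℝ := Matrix.of fun i k => if k = 0 then 1 else a i
  let W : Matrix (Fin 2) (Fin n) ℝ := Matrix.of fun k j =>
    if k = 0 then - a j else -1 + ((n : ℝ) + 1) * a j
  have h1 : (Matrix.of (fun i j => (1 : Matrix (Fin n) (Fin n) ℝ) i j - (1 * a j + a i * 1)
      + ((n : ℝ) + 1) * (a i * a j))) = 1 + U * W := by
    ext i j
    simp only [Matrix.add_apply, Matrix.mul_apply, Fin.sum_univ_two, U, W, Matrix.of_apply]
    simp
    ring
  rw [h1, Matrix.det_one_add_mul_comm, Matrix.det_fin_two]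
  simp only [Matrix.add_apply, Matrix.mul_apply, U, W, Matrix.of_apply, Matrix.one_apply_eq,
    Matrix.one_apply_ne (by decide : (0 : Fin 2) ≠ 1), Matrix.one_apply_ne (by decide : (1 : Fin 2) ≠ 0)]
  simp only [if_true, Fin.isValue, one_ne_zero, if_false, mul_one, Finset.sum_neg_distrib,
    Finset.sum_add_distrib, Finset.sum_const, Finset.card_univ, Fintype.card_fin, nsmul_eq_mul,
    neg_mul, add_mul, ← Finset.mul_sum, zero_add, one_mul]
  have h2 : ∑ x, (n : ℝ) * a x * a x = (n : ℝ) * ∑ x, a x ^ 2 := by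
    rw [Finset.mul_sum]; exact Finset.sum_congr rfl fun x _ => by ring
  have h3 : ∑ x, a x * a x = ∑ x, a x ^ 2 := Finset.sum_congr rfl fun x _ => by ring
  simp only [h2, h3]
  ring

/-- a translated standard simplex: determinant of `NN` -/
theorem det_NN_tr {n : ℕ} {K : Set (Fin n → ℝ)} (hK : IsBody K) (h1 : NN K = 1)
    (h2 : sv K = fun _ => 1) (a : Fin n → ℝ) :
    (NN ((fun x => x - a) '' K)).det = (1 - ∑ i, a i) ^ 2 + ∑ i, a i ^ 2 := by
  rw [NN_tr hK, h1, h2, ← det_shift]
  congr 1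
  ext i j
  simp [Matrix.of_apply]

end P254
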