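import Mathlib
import Vale.Agent.P254.Defs

namespace P254

open Set
open scoped Pointwise

theorem affInd_of_interior {n : ℕ} (p : Fin (n + 1) → (Fin n → ℝ))
    (h : (interior (convexHull ℝ (range p))).Nonempty) : AffineIndependent ℝ p := by
  rw [interior_convexHull_nonempty_iff_affineSpan_eq_top] at h
  rw [affineIndependent_iff_finrank_vectorSpan_eq ℝ p (n := n) (by simp)]
  rw [← direction_affineSpan, h, AffineSubspace.direction_top, finrank_top]
  simp

theorem exists_dep {n : ℕ} (V : Fin (n + 2) → (Fin n → ℝ)) :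
    ∃ w : Fin (n + 2) → ℝ, ∑ i, w i = 0 ∧ ∑ i, w i • V i = 0 ∧ ∃ i, w i ≠ 0 := by
  let L : (Fin (n + 2) → ℝ) →ₗ[ℝ] ℝ × (Fin n → ℝ) :=
    Fintype.linearCombination ℝ (fun i => ((1 : ℝ), V i))
  have hker : LinearMap.ker L ≠ ⊥ := by
    apply LinearMap.ker_ne_bot_of_finrank_lt
    simp
    omega
  obtain ⟨w, hw, hw0⟩ := Submodule.exists_mem_ne_zero_of_ne_bot hker
  rw [LinearMap.mem_ker, Fintype.linearCombination_apply] at hw
  refine ⟨w, ?_, ?_, ?_⟩
  · have := congrArg Prod.fst hw
    simpa [Prod.fst_sum] using this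
  · have := congrArg Prod.snd hw
    simpa [Prod.snd_sum] using this
  · by_contra hcon
    push Not at hcon
    exact hw0 (funext hcon)

theorem radon_caseA {n : ℕ} (V : Fin (n + 2) → (Fin n → ℝ))
    (hV : (interior (convexHull ℝ (range V))).Nonempty) (w : Fin (n + 2) → ℝ)
    (h0 : ∑ i, w i = 0) (h1 : ∑ i, w i • V i = 0) (j : Fin (n + 2)) (hj : w j < 0)
    (hw : ∀ i, i ≠ j → 0 ≤ w i) :
    ∃ p : Fin (n + 1) → (Fin n → ℝ), AffineIndependent ℝ p ∧
      convexHull ℝ (range V) = convexHull ℝ (range p) := by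
  have hVj : V j = ∑ i : Fin (n + 1), (w (j.succAbove i) / (-w j)) • V (j.succAbove i) := by
    rw [Fin.sum_univ_succAbove _ j] at h1
    have h2 : ∑ i : Fin (n + 1), w (j.succAbove i) • V (j.succAbove i) = (-w j) • V j := by
      rw [neg_smul]; exact eq_neg_of_add_eq_zero_right h1
    have h3 : V j = (-w j)⁻¹ • ((-w j) • V j) := by
      rw [smul_smul, inv_mul_cancel₀ (by linarith), one_smul]
    rw [h3, ← h2, Finset.smul_sum]
    refine Finset.sum_congr rfl fun i _ => ?_
    rw [smul_smul, div_eq_inv_mul]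
  have hsum : ∑ i : Fin (n + 1), (w (j.succAbove i) / (-w j)) = 1 := by
    rw [Fin.sum_univ_succAbove _ j] at h0
    rw [← Finset.sum_div, div_eq_one_iff_eq (by linarith)]
    linarith
  have heq : convexHull ℝ (range V) = convexHull ℝ (range (fun i => V (j.succAbove i))) := by
    apply Subset.antisymm
    · refine convexHull_min ?_ (convex_convexHull ℝ _)
      rintro _ ⟨i, rfl⟩
      by_cases hij : i = j
      · subst hij
        rw [hVj]
        refine (convex_convexHull ℝ _).sum_mem (fun l _ => ?_) hsum (fun l _ => ?_)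
        · exact div_nonneg (hw _ (Fin.succAbove_ne _ _)) (by linarith)
        · exact subset_convexHull ℝ _ ⟨l, rfl⟩
      · obtain ⟨l, hl⟩ := Fin.exists_succAbove_eq hij
        exact subset_convexHull ℝ _ ⟨l, by simp only [hl]⟩
    · apply convexHull_mono
      rintro _ ⟨i, rfl⟩
      exact ⟨_, rfl⟩
  refine ⟨fun i => V (j.succAbove i), ?_, heq⟩
  apply affInd_of_interior
  rw [← heq]
  exact hV

theorem T_convex (k : ℕ) : Convex ℝ (T k) := by
  intro x hx y hy s t hs ht hst
  refine ⟨fun i => ?_, ?_⟩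
  · simp only [Pi.add_apply, Pi.smul_apply, smul_eq_mul]
    exact add_nonneg (mul_nonneg hs (hx.1 i)) (mul_nonneg ht (hy.1 i))
  · simp only [Pi.add_apply, Pi.smul_apply, smul_eq_mul, Finset.sum_add_distrib,
      ← Finset.mul_sum]
    nlinarith [hx.2, hy.2]

theorem freeSum_convex' {ι κ : Type} {K : Set (ι → ℝ)} {L : Set (κ → ℝ)}
    (hK : Convex ℝ K) (hL : Convex ℝ L) : Convex ℝ (freeSum K L) := by
  rintro z ⟨s, t, hs, ht, hst, hz1, hz2⟩ z' ⟨s', t', hs', ht', hst', hz1', hz2'⟩ l u hl hu hlu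
  refine ⟨l * s + u * s', l * t + u * t', by positivity, by positivity, ?_, ?_, ?_⟩
  · calc l * s + u * s' + (l * t + u * t') = l * (s + t) + u * (s' + t') := by ring
      _ = 1 := by rw [hst, hst']; linarith
  · rw [hK.add_smul (by positivity) (by positivity), mul_smul, mul_smul]
    exact Set.add_mem_add (Set.smul_mem_smul_set hz1) (Set.smul_mem_smul_set hz1')
  · rw [hL.add_smul (by positivity) (by positivity), mul_smul, mul_smul]
    exact Set.add_mem_add (Set.smul_mem_smul_set hz2) (Set.smul_mem_smul_set hz2')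

/-- a point given by coordinates in `T k` lies in the hull -/
theorem T_comb_mem {n k : ℕ} (P : Fin (k + 1) → (Fin n → ℝ)) {x : Fin k → ℝ} (hx : x ∈ T k)
    {S : Set (Fin n → ℝ)} (hS : Convex ℝ S) (hP : ∀ i, P i ∈ S) :
    P 0 + ∑ i, x i • (P i.succ - P 0) ∈ S := by
  have h : P 0 + ∑ i, x i • (P i.succ - P 0)
      = ∑ i : Fin (k + 1), (Fin.cons (1 - ∑ i, x i) x : Fin (k + 1) → ℝ) i • P i := by
    rw [Fin.sum_univ_succ]
    simp only [Fin.cons_zero, Fin.cons_succ, smul_sub, Finset.sum_sub_distrib, sub_smul,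
      one_smul, Finset.sum_smul]
    abel
  rw [h]
  refine hS.sum_mem (fun i _ => ?_) ?_ (fun i _ => hP i)
  · refine Fin.cases ?_ (fun i => ?_) i
    · simp only [Fin.cons_zero]; linarith [hx.2]
    · simp only [Fin.cons_succ]; exact hx.1 i
  · rw [Fin.sum_univ_succ]
    simp

theorem radon_caseB {n k m : ℕ} (V : Fin (n + 2) → (Fin n → ℝ))
    (hV : (interior (convexHull ℝ (range V))).Nonempty)
    (α : Fin (k + 1) → ℝ) (β : Fin (m + 1) → ℝ)
    (P : Fin (k + 1) → (Fin n → ℝ)) (Q : Fin (m + 1) → (Fin n → ℝ)) (hkm : k + m = n)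
    (hα : ∀ i, 0 ≤ α i) (hβ : ∀ i, 0 ≤ β i) (hα1 : ∑ i, α i = 1) (hβ1 : ∑ i, β i = 1)
    (hr : ∑ i, α i • P i = ∑ i, β i • Q i) (hR : range V = range P ∪ range Q) :
    (fun i : Fin k => α i.succ) ∈ T k ∧ (fun j : Fin m => β j.succ) ∈ T m ∧
    ∃ (e : (Fin k ⊕ Fin m → ℝ) ≃ₗ[ℝ] (Fin n → ℝ)) (c : Fin n → ℝ),
      convexHull ℝ (range V)
        = (fun x => e x + c) '' freeSum ((fun x => x - fun i : Fin k => α i.succ) '' T k)
          ((fun x => x - fun j : Fin m => β j.succ) '' T m) := by
  classical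
  set c : Fin n → ℝ := ∑ i, α i • P i with hc
  set v : Fin k ⊕ Fin m → (Fin n → ℝ) :=
    Sum.elim (fun i => P i.succ - P 0) (fun j => Q j.succ - Q 0) with hv
  set E : (Fin k ⊕ Fin m → ℝ) →ₗ[ℝ] (Fin n → ℝ) := Fintype.linearCombination ℝ v with hE
  have hEap : ∀ z, E z = ∑ i, z (Sum.inl i) • (P i.succ - P 0)
      + ∑ j, z (Sum.inr j) • (Q j.succ - Q 0) := by
    intro z
    rw [hE, Fintype.linearCombination_apply, Fintype.sum_sum_type]
    rfl
  have hcP : c = P 0 + ∑ i : Fin k, α i.succ • (P i.succ - P 0) := by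
    have h2 : α 0 = 1 - ∑ i : Fin k, α i.succ := by
      rw [Fin.sum_univ_succ] at hα1; linarith
    rw [hc, Fin.sum_univ_succ, h2]
    simp only [smul_sub, Finset.sum_sub_distrib, sub_smul, one_smul, Finset.sum_smul]
    abel
  have hcQ : c = Q 0 + ∑ i : Fin m, β i.succ • (Q i.succ - Q 0) := by
    have h2 : β 0 = 1 - ∑ i : Fin m, β i.succ := by
      rw [Fin.sum_univ_succ] at hβ1; linarith
    rw [hr, Fin.sum_univ_succ, h2]
    simp only [smul_sub, Finset.sum_sub_distrib, sub_smul, one_smul, Finset.sum_smul]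
    abel
  -- surjectivity
  have hspan : Submodule.span ℝ (range v) = ⊤ := by
    set W := Submodule.span ℝ (range v) with hW
    have hP1 : ∀ i, P i - P 0 ∈ W := by
      intro i
      refine Fin.cases ?_ (fun i => ?_) i
      · rw [sub_self]; exact W.zero_mem
      · exact Submodule.subset_span ⟨Sum.inl i, rfl⟩
    have hQ1 : ∀ i, Q i - Q 0 ∈ W := by
      intro i
      refine Fin.cases ?_ (fun i => ?_) i
      · rw [sub_self]; exact W.zero_mem
      · exact Submodule.subset_span ⟨Sum.inr i, rfl⟩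
    have hPc : ∀ i, P i - c ∈ W := by
      intro i
      have : P i - c = (P i - P 0) - ∑ i : Fin k, α i.succ • (P i.succ - P 0) := by
        rw [hcP]; abel
      rw [this]
      exact W.sub_mem (hP1 i) (W.sum_mem fun l _ => W.smul_mem _ (hP1 _))
    have hQc : ∀ i, Q i - c ∈ W := by
      intro i
      have : Q i - c = (Q i - Q 0) - ∑ i : Fin m, β i.succ • (Q i.succ - Q 0) := by
        rw [hcQ]; abel
      rw [this]
      exact W.sub_mem (hQ1 i) (W.sum_mem fun l _ => W.smul_mem _ (hQ1 _))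
    have haff : affineSpan ℝ (range V) ≤ AffineSubspace.mk' c W := by
      rw [affineSpan_le, hR]
      rintro x (⟨i, rfl⟩ | ⟨i, rfl⟩)
      · exact (AffineSubspace.mem_mk').2 (hPc i)
      · exact (AffineSubspace.mem_mk').2 (hQc i)
    rw [interior_convexHull_nonempty_iff_affineSpan_eq_top] at hV
    rw [hV] at haff
    have := AffineSubspace.direction_le haff
    rw [AffineSubspace.direction_top, AffineSubspace.direction_mk'] at this
    exact top_le_iff.1 this
  have hsurj : Function.Surjective E := by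
    rw [← LinearMap.range_eq_top, hE, Fintype.range_linearCombination, hspan]
  have hinj : Function.Injective E := by
    rw [LinearMap.injective_iff_surjective_of_finrank_eq_finrank]
    · exact hsurj
    · simp [hkm]
  obtain ⟨e, he⟩ : ∃ e : (Fin k ⊕ Fin m → ℝ) ≃ₗ[ℝ] (Fin n → ℝ),
      ∀ z, e z = ∑ i, z (Sum.inl i) • (P i.succ - P 0)
        + ∑ j, z (Sum.inr j) • (Q j.succ - Q 0) :=
    ⟨LinearEquiv.ofBijective E ⟨hinj, hsurj⟩, hEap⟩
  refine ⟨?_, ?_, e, c, ?_⟩
  · refine ⟨fun i => hα _, ?_⟩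
    rw [Fin.sum_univ_succ] at hα1
    linarith [hα 0]
  · refine ⟨fun i => hβ _, ?_⟩
    rw [Fin.sum_univ_succ] at hβ1
    linarith [hβ 0]
  · apply Subset.antisymm
    · refine convexHull_min ?_ ?_
      · rw [hR]
        have h0k : (0 : Fin k → ℝ) ∈ T k := ⟨fun i => le_refl _, by simp⟩
        have h0m : (0 : Fin m → ℝ) ∈ T m := ⟨fun i => le_refl _, by simp⟩
        have hsk : ∀ i : Fin k, (Pi.single i 1 : Fin k → ℝ) ∈ T k := fun i =>
          ⟨fun l => by by_cases h : l = i <;> simp [h], by simp⟩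
        have hsm : ∀ i : Fin m, (Pi.single i 1 : Fin m → ℝ) ∈ T m := fun i =>
          ⟨fun l => by by_cases h : l = i <;> simp [h], by simp⟩
        -- general point of the first factor
        have hA : ∀ x ∈ T k, P 0 + ∑ i, x i • (P i.succ - P 0) ∈
            (fun x => e x + c) ''
              freeSum ((fun x => x - fun i => α (Fin.succ i)) '' T k)
                ((fun x => x - fun j => β (Fin.succ j)) '' T m) := by
          intro x hx
          refine ⟨Sum.elim (fun i => x i - α i.succ) (fun _ => 0), ⟨1, 0, by norm_num, le_refl _,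
            by norm_num, ?_, ?_⟩, ?_⟩
          · rw [one_smul]
            exact ⟨x, hx, rfl⟩
          · refine ⟨0 - fun j => β (Fin.succ j), ⟨0, h0m, rfl⟩, ?_⟩
            simp only [zero_smul]
            rfl
          · simp only [he, Sum.elim_inl, Sum.elim_inr, zero_smul,
              Finset.sum_const_zero, add_zero, sub_smul, Finset.sum_sub_distrib]
            rw [hcP]
            abel
        have hB : ∀ x ∈ T m, Q 0 + ∑ i, x i • (Q i.succ - Q 0) ∈
            (fun x => e x + c) ''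
              freeSum ((fun x => x - fun i => α (Fin.succ i)) '' T k)
                ((fun x => x - fun j => β (Fin.succ j)) '' T m) := by
          intro x hx
          refine ⟨Sum.elim (fun _ => 0) (fun i => x i - β i.succ), ⟨0, 1, le_refl _, by norm_num,
            by norm_num, ?_, ?_⟩, ?_⟩
          · refine ⟨0 - fun j => α (Fin.succ j), ⟨0, h0k, rfl⟩, ?_⟩
            simp only [zero_smul]
            rfl
          · rw [one_smul]
            exact ⟨x, hx, rfl⟩
          · simp only [he, Sum.elim_inl, Sum.elim_inr, zero_smul,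
              Finset.sum_const_zero, zero_add, sub_smul, Finset.sum_sub_distrib]
            rw [hcQ]
            abel
        rintro x (⟨i, rfl⟩ | ⟨i, rfl⟩)
        · refine Fin.cases ?_ (fun i => ?_) i
          · have := hA 0 h0k
            simpa using this
          · have := hA _ (hsk i)
            simpa [Pi.single_apply, Finset.sum_ite_eq, ite_smul] using this
        · refine Fin.cases ?_ (fun i => ?_) i
          · have := hB 0 h0m
            simpa using this
          · have := hB _ (hsm i)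
            simpa [Pi.single_apply, Finset.sum_ite_eq, ite_smul] using this
      · have hconv : Convex ℝ (freeSum ((fun x => x - fun i => α (Fin.succ i)) '' T k)
                ((fun x => x - fun j => β (Fin.succ j)) '' T m)) := by
          apply freeSum_convex'
          · have := (T_convex k).translate (-fun i => α (Fin.succ i))
            simpa [sub_eq_add_neg, add_comm] using this
          · have := (T_convex m).translate (-fun i => β (Fin.succ i))
            simpa [sub_eq_add_neg, add_comm] using this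
        have h1 := (hconv.linear_image e.toLinearMap).translate c
        rw [image_image] at h1
        simpa [add_comm] using h1
    · rintro _ ⟨z, ⟨s, t, hs, ht, hst, ⟨_, ⟨x, hx, rfl⟩, hz1⟩, ⟨_, ⟨y, hy, rfl⟩, hz2⟩⟩, rfl⟩
      have e1 : ∀ i, z (Sum.inl i) = s * (x i - α i.succ) := fun i => (congrFun hz1 i).symm
      have e2 : ∀ i, z (Sum.inr i) = t * (y i - β i.succ) := fun i => (congrFun hz2 i).symm
      have hPm : ∀ i, P i ∈ convexHull ℝ (range V) := fun i =>
        subset_convexHull ℝ _ (by rw [hR]; exact Or.inl ⟨i, rfl⟩)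
      have hQm : ∀ i, Q i ∈ convexHull ℝ (range V) := fun i =>
        subset_convexHull ℝ _ (by rw [hR]; exact Or.inr ⟨i, rfl⟩)
      have m1 := T_comb_mem P hx (convex_convexHull ℝ (range V)) hPm
      have m2 := T_comb_mem Q hy (convex_convexHull ℝ (range V)) hQm
      have m3 := (convex_convexHull ℝ (range V)) m1 m2 hs ht hst
      convert m3 using 1
      simp only [he, e1, e2]
      have hc2 : c = s • c + t • c := by rw [← add_smul, hst, one_smul]
      rw [hc2]
      nth_rewrite 1 [hcP]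
      nth_rewrite 1 [hcQ]
      simp only [mul_smul, ← Finset.smul_sum, sub_smul, Finset.sum_sub_distrib, smul_add, smul_sub]
      abel

theorem sq_sum_lt {k : ℕ} (α : Fin (k + 1) → ℝ) (hα : ∀ i, 0 ≤ α i) (hα1 : ∑ i, α i = 1)
    {i j : Fin (k + 1)} (hij : i ≠ j) (hi : 0 < α i) (hj : 0 < α j) :
    (1 - ∑ l : Fin k, α l.succ) ^ 2 + ∑ l : Fin k, α l.succ ^ 2 < 1 := by
  have h1 : (1 - ∑ l : Fin k, α l.succ) ^ 2 + ∑ l : Fin k, α l.succ ^ 2 = ∑ l, α l ^ 2 := by
    rw [Fin.sum_univ_succ (fun l => α l ^ 2), ← hα1, Fin.sum_univ_succ]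
    ring
  rw [h1, ← hα1]
  have hle : ∀ l, α l ≤ 1 := fun l => by
    rw [← hα1]
    exact Finset.single_le_sum (fun l _ => hα l) (Finset.mem_univ l)
  refine Finset.sum_lt_sum (fun l _ => ?_) ⟨i, Finset.mem_univ _, ?_⟩
  · nlinarith [hα l, hle l]
  · have h2 : α i + α j ≤ 1 := by
      rw [← hα1, ← Finset.sum_pair hij]
      exact Finset.sum_le_sum_of_subset_of_nonneg (Finset.subset_univ _) (fun l _ _ => hα l)
    nlinarith

/-- `n + 2` points: simplex, or affine image of a free sum of two translated simplices; in the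
second case the origins of the two simplices are not at a vertex -/
theorem radon_structure' {n : ℕ} (V : Fin (n + 2) → (Fin n → ℝ))
    (hV : (interior (convexHull ℝ (range V))).Nonempty) :
    (∃ p : Fin (n + 1) → (Fin n → ℝ), AffineIndependent ℝ p ∧
      convexHull ℝ (range V) = convexHull ℝ (range p)) ∨
    ∃ (k m : ℕ) (a : Fin k → ℝ) (b : Fin m → ℝ)
      (e : (Fin k ⊕ Fin m → ℝ) ≃ₗ[ℝ] (Fin n → ℝ)) (c : Fin n → ℝ),
      1 ≤ k ∧ 1 ≤ m ∧ a ∈ T k ∧ b ∈ T m ∧
      (1 - ∑ i, a i) ^ 2 + ∑ i, a i ^ 2 < 1 ∧ (1 - ∑ i, b i) ^ 2 + ∑ i, b i ^ 2 < 1 ∧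
      convexHull ℝ (range V)
        = (fun x => e x + c) '' freeSum ((fun x => x - a) '' T k) ((fun x => x - b) '' T m) := by
  classical
  obtain ⟨w, h0, h1, i0, hi0⟩ := exists_dep V
  set N : Finset (Fin (n + 2)) := Finset.univ.filter (fun i => w i < 0) with hN
  set M : Finset (Fin (n + 2)) := Finset.univ.filter (fun i => 0 < w i) with hM
  have hNne : N.Nonempty := by
    by_contra hcon
    rw [Finset.not_nonempty_iff_eq_empty, hN, Finset.filter_eq_empty_iff] at hcon
    have h2 : ∀ i ∈ (Finset.univ : Finset (Fin (n + 2))), 0 ≤ w i := fun i hi =>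
      not_lt.1 (hcon hi)
    exact hi0 ((Finset.sum_eq_zero_iff_of_nonneg h2).1 h0 i0 (Finset.mem_univ _))
  have hMne : M.Nonempty := by
    by_contra hcon
    rw [Finset.not_nonempty_iff_eq_empty, hM, Finset.filter_eq_empty_iff] at hcon
    have h2 : ∀ i ∈ (Finset.univ : Finset (Fin (n + 2))), w i ≤ 0 := fun i hi =>
      not_lt.1 (hcon hi)
    exact hi0 ((Finset.sum_eq_zero_iff_of_nonpos h2).1 h0 i0 (Finset.mem_univ _))
  by_cases hN1 : N.card = 1
  · left
    obtain ⟨j, hj⟩ := Finset.card_eq_one.1 hN1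
    refine radon_caseA V hV w h0 h1 j ?_ ?_
    · have : j ∈ N := by rw [hj]; exact Finset.mem_singleton_self j
      exact (Finset.mem_filter.1 this).2
    · intro i hij
      by_contra hcon
      have : i ∈ N := Finset.mem_filter.2 ⟨Finset.mem_univ _, not_le.1 hcon⟩
      rw [hj, Finset.mem_singleton] at this
      exact hij this
  by_cases hM1 : M.card = 1
  · left
    obtain ⟨j, hj⟩ := Finset.card_eq_one.1 hM1
    refine radon_caseA V hV (fun i => -w i) (by rw [Finset.sum_neg_distrib, h0, neg_zero])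
      (by simp only [neg_smul, Finset.sum_neg_distrib, h1, neg_zero]) j ?_ ?_
    · have : j ∈ M := by rw [hj]; exact Finset.mem_singleton_self j
      have := (Finset.mem_filter.1 this).2
      show -w j < 0
      linarith
    · intro i hij
      by_contra hcon
      have : i ∈ M := Finset.mem_filter.2 ⟨Finset.mem_univ _, by linarith⟩
      rw [hj, Finset.mem_singleton] at this
      exact hij this
  right
  have hN2 : 2 ≤ N.card := by
    have := hNne.card_pos
    omega
  have hM2 : 2 ≤ M.card := by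
    have := hMne.card_pos
    omega
  have hMN : M ⊆ Nᶜ := by
    intro i hi
    rw [Finset.mem_compl]
    intro hi2
    have a1 := (Finset.mem_filter.1 hi).2
    have a2 := (Finset.mem_filter.1 hi2).2
    linarith
  have hP2 : 2 ≤ Nᶜ.card := hM2.trans (Finset.card_le_card hMN)
  have hcard : N.card + Nᶜ.card = n + 2 := by
    rw [Finset.card_add_card_compl, Fintype.card_fin]
  obtain ⟨k, hk⟩ : ∃ k, Nᶜ.card = k + 1 := ⟨Nᶜ.card - 1, by omega⟩
  obtain ⟨m, hm⟩ : ∃ m, N.card = m + 1 := ⟨N.card - 1, by omega⟩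
  let eP : Fin (k + 1) ≃ {x // x ∈ Nᶜ} := (Finset.equivFinOfCardEq hk).symm
  let eN : Fin (m + 1) ≃ {x // x ∈ N} := (Finset.equivFinOfCardEq hm).symm
  have sP : ∀ {X : Type} [AddCommMonoid X] (f : Fin (n + 2) → X),
      ∑ i, f (eP i) = ∑ i ∈ Nᶜ, f i := by
    intro X _ f
    rw [Equiv.sum_comp eP (fun i : {x // x ∈ Nᶜ} => f i), Finset.sum_coe_sort Nᶜ f]
  have sN : ∀ {X : Type} [AddCommMonoid X] (f : Fin (n + 2) → X),
      ∑ i, f (eN i) = ∑ i ∈ N, f i := by
    intro X _ f
    rw [Equiv.sum_comp eN (fun i : {x // x ∈ N} => f i), Finset.sum_coe_sort N f]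
  have hwP : ∀ i ∈ Nᶜ, 0 ≤ w i := by
    intro i hi
    by_contra hcon
    exact (Finset.mem_compl.1 hi) (Finset.mem_filter.2 ⟨Finset.mem_univ _, not_le.1 hcon⟩)
  have hwN : ∀ i ∈ N, w i < 0 := fun i hi => (Finset.mem_filter.1 hi).2
  have hS : 0 < -∑ i ∈ N, w i := by
    rw [← Finset.sum_neg_distrib]
    exact Finset.sum_pos (fun i hi => neg_pos.2 (hwN i hi)) hNne
  set S : ℝ := -∑ i ∈ N, w i with hSdef
  have hSP : ∑ i ∈ Nᶜ, w i = S := by
    have := Finset.sum_add_sum_compl N w
    rw [h0] at this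
    rw [hSdef]; linarith
  have hvec : ∑ i ∈ Nᶜ, w i • V i = -∑ i ∈ N, w i • V i := by
    have := Finset.sum_add_sum_compl N (fun i => w i • V i)
    rw [h1] at this
    exact eq_neg_of_add_eq_zero_right this
  obtain ⟨ha, hb, e, c, heq⟩ := radon_caseB (n := n) (k := k) (m := m) V hV
    (fun i => w (eP i) / S) (fun i => -w (eN i) / S) (fun i => V (eP i)) (fun i => V (eN i))
    (by omega) (fun i => div_nonneg (hwP _ (eP i).2) hS.le)
    (fun i => div_nonneg (neg_nonneg.2 (hwN _ (eN i).2).le) hS.le)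
    (by rw [← Finset.sum_div, sP w, hSP, div_self hS.ne'])
    (by rw [← Finset.sum_div, Finset.sum_neg_distrib, sN w, ← hSdef, div_self hS.ne'])
    (by
      rw [sP (fun i => (w i / S) • V i), sN (fun i => (-w i / S) • V i)]
      have e1 : ∀ i, (w i / S) • V i = S⁻¹ • (w i • V i) := fun i => by
        rw [smul_smul, div_eq_inv_mul]
      have e2 : ∀ i, (-w i / S) • V i = -(S⁻¹ • (w i • V i)) := fun i => by
        rw [smul_smul, ← neg_smul]; congr 1; ring
      simp only [e1, e2, Finset.sum_neg_distrib, ← Finset.smul_sum]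
      rw [hvec, smul_neg])
    (by
      apply Subset.antisymm
      · rintro _ ⟨i, rfl⟩
        by_cases hi : i ∈ N
        · right
          exact ⟨eN.symm ⟨i, hi⟩, by simp⟩
        · left
          exact ⟨eP.symm ⟨i, Finset.mem_compl.2 hi⟩, by simp⟩
      · rintro _ (⟨i, rfl⟩ | ⟨i, rfl⟩)
        · exact ⟨_, rfl⟩
        · exact ⟨_, rfl⟩)
  refine ⟨k, m, _, _, e, c, by omega, by omega, ha, hb, ?_, ?_, heq⟩
  · obtain ⟨i, hi, j, hj, hij⟩ := Finset.one_lt_card.1 (show 1 < M.card by omega)
    have hi1 : i ∈ Nᶜ := hMN hi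
    have hj1 : j ∈ Nᶜ := hMN hj
    refine sq_sum_lt (fun i => w (eP i) / S) (fun i => div_nonneg (hwP _ (eP i).2) hS.le)
      (by rw [← Finset.sum_div, sP w, hSP, div_self hS.ne'])
      (i := eP.symm ⟨i, hi1⟩) (j := eP.symm ⟨j, hj1⟩) ?_ ?_ ?_
    · intro h
      exact hij (congrArg Subtype.val (eP.symm.injective h))
    · simp only [Equiv.apply_symm_apply]
      exact div_pos (Finset.mem_filter.1 hi).2 hS
    · simp only [Equiv.apply_symm_apply]
      exact div_pos (Finset.mem_filter.1 hj).2 hS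
  · obtain ⟨i, hi, j, hj, hij⟩ := Finset.one_lt_card.1 (show 1 < N.card by omega)
    refine sq_sum_lt (fun i => -w (eN i) / S)
      (fun i => div_nonneg (neg_nonneg.2 (hwN _ (eN i).2).le) hS.le)
      (by rw [← Finset.sum_div, Finset.sum_neg_distrib, sN w, ← hSdef, div_self hS.ne'])
      (i := eN.symm ⟨i, hi⟩) (j := eN.symm ⟨j, hj⟩) ?_ ?_ ?_
    · intro h
      exact hij (congrArg Subtype.val (eN.symm.injective h))
    · simp only [Equiv.apply_symm_apply]
      exact div_pos (neg_pos.2 (hwN i hi)) hS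
    · simp only [Equiv.apply_symm_apply]
      exact div_pos (neg_pos.2 (hwN j hj)) hS

/-- `n + 2` points: simplex, or affine image of a free sum of two translated simplices -/
theorem radon_structure {n : ℕ} (V : Fin (n + 2) → (Fin n → ℝ))
    (hV : (interior (convexHull ℝ (range V))).Nonempty) :
    (∃ p : Fin (n + 1) → (Fin n → ℝ), AffineIndependent ℝ p ∧
      convexHull ℝ (range V) = convexHull ℝ (range p)) ∨
    ∃ (k m : ℕ) (a : Fin k → ℝ) (b : Fin m → ℝ)
      (e : (Fin k ⊕ Fin m → ℝ) ≃ₗ[ℝ] (Fin n → ℝ)) (c : Fin n → ℝ),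
      1 ≤ k ∧ 1 ≤ m ∧ a ∈ T k ∧ b ∈ T m ∧
      convexHull ℝ (range V)
        = (fun x => e x + c) '' freeSum ((fun x => x - a) '' T k) ((fun x => x - b) '' T m) := by
  rcases radon_structure' V hV with h | ⟨k, m, a, b, e, c, h1, h2, ha, hb, _, _, h⟩
  · exact Or.inl h
  · exact Or.inr ⟨k, m, a, b, e, c, h1, h2, ha, hb, h⟩

end P254
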