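import Mathlib
import Vale.Agent.P254.Defs

namespace P254

open MeasureTheory Set Matrix
open scoped Pointwise Nat

theorem T_convex' (n : ℕ) : Convex ℝ (T n) := by
  intro x hx y hy a b ha hb hab
  refine ⟨fun i => ?_, ?_⟩
  · have := hx.1 i
    have := hy.1 i
    simp only [Pi.add_apply, Pi.smul_apply, smul_eq_mul]
    positivity
  · have h1 := hx.2
    have h2 := hy.2
    simp only [Pi.add_apply, Pi.smul_apply, smul_eq_mul, Finset.sum_add_distrib,
      ← Finset.mul_sum]
    nlinarith

/-- simplices are affine images of `T n` -/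
theorem simplex_image' {n : ℕ} (p : Fin (n + 1) → (Fin n → ℝ)) (hp : AffineIndependent ℝ p) :
    ∃ (e : (Fin n → ℝ) ≃ₗ[ℝ] (Fin n → ℝ)) (c : Fin n → ℝ),
      (∀ x, e x + c = (1 - ∑ i, x i) • p 0 + ∑ i, x i • p i.succ) ∧
      convexHull ℝ (range p) = (fun x => e x + c) '' T n := by
  have hli : LinearIndependent ℝ (fun i : Fin n => p i.succ - p 0) := by
    have h := (affineIndependent_iff_linearIndependent_vsub ℝ p 0).1 hp
    have h2 := h.comp (fun i : Fin n => (⟨i.succ, Fin.succ_ne_zero i⟩ : {x : Fin (n + 1) // x ≠ 0}))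
      (fun i j hij => by simpa using hij)
    simpa [Function.comp_def] using h2
  classical
  let b := basisOfPiSpaceOfLinearIndependent hli
  have hb : ∀ i, b i = p i.succ - p 0 := fun i => by
    simp [b, coe_basisOfPiSpaceOfLinearIndependent]
  have he : ∀ x : Fin n → ℝ, b.equivFun.symm x + p 0
      = (1 - ∑ i, x i) • p 0 + ∑ i, x i • p i.succ := by
    intro x
    rw [Module.Basis.equivFun_symm_apply]
    simp only [hb, smul_sub, Finset.sum_sub_distrib, sub_smul, one_smul, Finset.sum_smul]
    abel
  refine ⟨b.equivFun.symm, p 0, he, ?_⟩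
  apply Set.Subset.antisymm
  · apply convexHull_min
    · rintro _ ⟨i, rfl⟩
      refine Fin.cases ?_ (fun i => ?_) i
      · refine ⟨0, ⟨fun i => le_rfl, by simp⟩, by simp⟩
      · refine ⟨Pi.single i 1, ⟨fun j => ?_, ?_⟩, ?_⟩
        · by_cases h : j = i
          · subst h; simp
          · simp [Pi.single_eq_of_ne h]
        · simp
        · simp only [he]
          simp [Pi.single_apply, Finset.sum_ite_eq', ite_smul]
    · intro y hy z hz u v hu hv huv
      obtain ⟨x1, hx1, rfl⟩ := hy
      obtain ⟨x2, hx2, rfl⟩ := hz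
      refine ⟨u • x1 + v • x2, T_convex' n hx1 hx2 hu hv huv, ?_⟩
      simp only [map_add, map_smul, smul_add]
      have : p 0 = u • p 0 + v • p 0 := by rw [← add_smul, huv, one_smul]
      nth_rewrite 1 [this]
      abel
  · rintro _ ⟨x, hx, rfl⟩
    simp only [he]
    have h1 : (1 - ∑ i, x i) • p 0 + ∑ i, x i • p i.succ
        = ∑ i : Fin (n + 1), (Fin.cons (1 - ∑ i, x i) x : Fin (n + 1) → ℝ) i • p i := by
      rw [Fin.sum_univ_succ]
      simp
    rw [h1]
    apply (convex_convexHull ℝ (range p)).sum_mem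
    · intro i _
      refine Fin.cases ?_ (fun i => ?_) i
      · simpa using hx.2
      · simpa using hx.1 i
    · rw [Fin.sum_univ_succ]
      simp
    · intro i _
      exact subset_convexHull ℝ _ (mem_range_self i)

end P254
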