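import Mathlib
import Vale.Agent.P254.Inv
import Vale.Agent.P254.Radon
import Vale.Agent.P254.SImage

namespace P254

open MeasureTheory Set Matrix
open scoped Pointwise Nat

/-- simplices are affine images of `T n` -/
theorem simplex_image {n : ℕ} (p : Fin (n + 1) → (Fin n → ℝ)) (hp : AffineIndependent ℝ p) :
    ∃ (e : (Fin n → ℝ) ≃ₗ[ℝ] (Fin n → ℝ)) (c : Fin n → ℝ),
      convexHull ℝ (range p) = (fun x => e x + c) '' T n := by
  obtain ⟨e, c, _, h⟩ := simplex_image' p hp
  exact ⟨e, c, h⟩

end P254
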