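import Mathlib
import Vale.Agent.P254.Simplex
import Vale.Agent.P254.SimplexB
import Vale.Agent.P254.ProdBody
import Vale.Agent.P254.FS
import Vale.Agent.P254.Struct
import Vale.Agent.P254.Strict

namespace P254

open MeasureTheory Set Matrix
open scoped Pointwise Nat

variable {ι κ : Type} [Fintype ι] [DecidableEq ι] [Fintype κ] [DecidableEq κ]

theorem fS_pos (n : ℕ) : 0 < fS n := by
  unfold fS; positivity

theorem D_pos {K : Set (ι → ℝ)} (hK : IsBody K) : 0 < D K := by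
  unfold D
  exact div_pos (cov_posDef hK).det_pos (pow_pos (vol_pos hK) 2)

/-- closure of the inequality under free sums -/
theorem D_freeSum_le [Nonempty ι] [Nonempty κ] {K : Set (ι → ℝ)} {L : Set (κ → ℝ)}
    (hK : IsBody K) (hK0 : (0 : ι → ℝ) ∈ K) (hL : IsBody L) (hL0 : (0 : κ → ℝ) ∈ L)
    (h1 : D K ≤ fS (Fintype.card ι)) (h2 : D L ≤ fS (Fintype.card κ)) :
    D (freeSum K L) ≤ fS (Fintype.card ι + Fintype.card κ) := by
  have hp := one_le_pp hK hK0
  have hq := one_le_pp hL hL0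
  have e := D_freeSum hK hK0 hL hL0
  have f1 := fS_pos (Fintype.card ι)
  have f2 := fS_pos (Fintype.card κ)
  have f3 := fS_pos (Fintype.card ι + Fintype.card κ)
  have a1 : D K / fS (Fintype.card ι) ≤ 1 := (div_le_one f1).2 h1
  have a2 : D L / fS (Fintype.card κ) ≤ 1 := (div_le_one f2).2 h2
  have b1 : 0 ≤ D K / fS (Fintype.card ι) := div_nonneg (D_pos hK).le f1.le
  have b2 : 0 ≤ D L / fS (Fintype.card κ) := div_nonneg (D_pos hL).le f2.le
  have hr : (pp K + pp L - 1) / (pp K * pp L) ≤ 1 := by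
    rw [div_le_one (by positivity)]
    nlinarith [mul_nonneg (sub_nonneg.2 hp) (sub_nonneg.2 hq)]
  have hr0 : 0 ≤ (pp K + pp L - 1) / (pp K * pp L) := by
    apply div_nonneg <;> [linarith; positivity]
  have : D (freeSum K L) / fS (Fintype.card ι + Fintype.card κ) ≤ 1 := by
    rw [e]
    exact mul_le_one₀ (mul_le_one₀ a1 b2 a2) hr0 hr
  exact (div_le_one f3).1 this

/-- strict version -/
theorem D_freeSum_lt [Nonempty ι] [Nonempty κ] {K : Set (ι → ℝ)} {L : Set (κ → ℝ)}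
    (hK : IsBody K) (hK0 : (0 : ι → ℝ) ∈ K) (hL : IsBody L) (hL0 : (0 : κ → ℝ) ∈ L)
    (h1 : D K ≤ fS (Fintype.card ι)) (h2 : D L ≤ fS (Fintype.card κ))
    (hp : 1 < pp K) (hq : 1 < pp L) :
    D (freeSum K L) < fS (Fintype.card ι + Fintype.card κ) := by
  have e := D_freeSum hK hK0 hL hL0
  have f1 := fS_pos (Fintype.card ι)
  have f2 := fS_pos (Fintype.card κ)
  have f3 := fS_pos (Fintype.card ι + Fintype.card κ)
  have a1 : D K / fS (Fintype.card ι) ≤ 1 := (div_le_one f1).2 h1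
  have a2 : D L / fS (Fintype.card κ) ≤ 1 := (div_le_one f2).2 h2
  have b1 : 0 ≤ D K / fS (Fintype.card ι) := div_nonneg (D_pos hK).le f1.le
  have b2 : 0 ≤ D L / fS (Fintype.card κ) := div_nonneg (D_pos hL).le f2.le
  have hr : (pp K + pp L - 1) / (pp K * pp L) < 1 := by
    rw [div_lt_one (by positivity)]
    nlinarith [mul_pos (sub_pos.2 hp) (sub_pos.2 hq)]
  have hr0 : 0 ≤ (pp K + pp L - 1) / (pp K * pp L) := by
    apply div_nonneg <;> [linarith; positivity]
  have : D (freeSum K L) / fS (Fintype.card ι + Fintype.card κ) < 1 := by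
    rw [e]
    exact lt_of_le_of_lt (mul_le_of_le_one_left hr0 (mul_le_one₀ a1 b2 a2)) hr
  exact (div_lt_one f3).1 this

theorem isBody_sub {n : ℕ} (a : Fin n → ℝ) : IsBody ((fun x => x - a) '' T n) := by
  have h := (T_body n).affine (LinearEquiv.refl ℝ (Fin n → ℝ)) (-a)
  simpa [sub_eq_add_neg] using h

theorem D_sub {n : ℕ} (hn : 1 ≤ n) (a : Fin n → ℝ) : D ((fun x => x - a) '' T n) = fS n := by
  have h := D_affine (LinearEquiv.refl ℝ (Fin n → ℝ)) (-a) (T_body n)
  rw [D_T n hn] at h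
  simpa [sub_eq_add_neg] using h

/-- `p` of a translated simplex is the inverse of the sum of squares of the barycentric
coordinates -/
theorem pp_sub {n : ℕ} (hn : 1 ≤ n) (a : Fin n → ℝ) :
    ((1 - ∑ i, a i) ^ 2 + ∑ i, a i ^ 2) * pp ((fun x => x - a) '' T n) = 1 := by
  have h := D_eq (isBody_sub a)
  rw [D_sub hn a, det_NN_tr (T_body n) (NN_T n hn) (sv_T n hn), vol_tr, vol_T n hn] at h
  unfold fS at h
  simp only [Fintype.card_fin] at h
  have hf : (n ! : ℝ) ≠ 0 := by positivity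
  have h1 : ((n : ℝ) + 1) ≠ 0 := by positivity
  have h2 : ((n : ℝ) + 2) ≠ 0 := by positivity
  rw [div_eq_div_iff (by positivity) (by positivity)] at h
  have h3 : (n ! : ℝ) ^ 2 * (((n : ℝ) + 1) * (((n : ℝ) + 1) * ((n : ℝ) + 2)) ^ n * (1 / (n ! : ℝ)) ^ 2)
      = ((n : ℝ) + 1) ^ (n + 1) * ((n : ℝ) + 2) ^ n := by
    rw [mul_pow]
    field_simp
    rw [pow_succ']
  rw [h3] at h
  have h4 : ((n : ℝ) + 1) ^ (n + 1) * ((n : ℝ) + 2) ^ n ≠ 0 := by positivity
  have h5 : (((1 - ∑ i, a i) ^ 2 + ∑ i, a i ^ 2) * pp ((fun x => x - a) '' T n) - 1)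
      * (((n : ℝ) + 1) ^ (n + 1) * ((n : ℝ) + 2) ^ n) = 0 := by
    linarith
  have h6 := (mul_eq_zero.1 h5).resolve_right h4
  linarith

theorem one_lt_pp_sub {n : ℕ} (hn : 1 ≤ n) (a : Fin n → ℝ)
    (h : (1 - ∑ i, a i) ^ 2 + ∑ i, a i ^ 2 < 1) : 1 < pp ((fun x => x - a) '' T n) := by
  have h1 := pp_sub hn a
  have h0 : 0 ≤ (1 - ∑ i, a i) ^ 2 + ∑ i, a i ^ 2 := by positivity
  by_contra hcon
  rw [not_lt] at hcon
  nlinarith

theorem D_simplex {n : ℕ} (hn : 1 ≤ n) (p : Fin (n + 1) → (Fin n → ℝ))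
    (hp : AffineIndependent ℝ p) : D (convexHull ℝ (range p)) = fS n := by
  obtain ⟨e, c, h⟩ := simplex_image p hp
  rw [h, D_affine e c (T_body n), D_T n hn]

/-- polytopes with at most `n + 2` vertices -/
theorem D_points {n : ℕ} (hn : 1 ≤ n) (V : Fin (n + 2) → (Fin n → ℝ))
    (hV : (interior (convexHull ℝ (range V))).Nonempty) :
    (∃ p : Fin (n + 1) → (Fin n → ℝ), AffineIndependent ℝ p ∧
      convexHull ℝ (range V) = convexHull ℝ (range p)) ∨ D (convexHull ℝ (range V)) < fS n := by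
  rcases radon_structure' V hV with h | ⟨k, m, a, b, e, c, hk, hm, ha, hb, hsa, hsb, h⟩
  · exact Or.inl h
  · right
    have : Nonempty (Fin k) := ⟨⟨0, hk⟩⟩
    have : Nonempty (Fin m) := ⟨⟨0, hm⟩⟩
    have hK := isBody_sub a
    have hL := isBody_sub b
    have hK0 : (0 : Fin k → ℝ) ∈ (fun x => x - a) '' T k := ⟨a, ha, by simp⟩
    have hL0 : (0 : Fin m → ℝ) ∈ (fun x => x - b) '' T m := ⟨b, hb, by simp⟩
    have hcard : k + m = n := by
      have := e.finrank_eq
      simpa using this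
    rw [h, D_affine e c (freeSum_body hK hK0 hL hL0)]
    have := D_freeSum_lt hK hK0 hL hL0 (by simpa using (D_sub hk a).le)
      (by simpa using (D_sub hm b).le) (one_lt_pp_sub hk a hsa) (one_lt_pp_sub hm b hsb)
    simpa [hcard] using this

end P254
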