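import Mathlib
import Vale.Agent.P254.Final

/-! P254: cones with apex at the origin have `pp = 1`. -/

namespace P254

open MeasureTheory Set Matrix
open scoped Pointwise Nat

variable {ι κ : Type} [Fintype ι] [DecidableEq ι] [Fintype κ] [DecidableEq κ]

/-- a convex body with a linear gauge has `pp = 1` -/
theorem pp_of_linear {K : Set (ι → ℝ)} (hK : IsBody K) (h0 : (0 : ι → ℝ) ∈ K) (w : ι → ℝ)
    (hw : ∀ x ∈ K, gau K x = ∑ a, w a * x a) : pp K = 1 := by
  set k : ℕ := Fintype.card ι with hk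
  have hV : 0 < vol K := vol_pos hK
  have hmeas : MeasurableSet K := hK.comp.measurableSet
  have h1V : ∫ x in K, (1:ℝ) = vol K := by simp [vol, Measure.real]
  have r1 : ∫ x in K, (1 - ∑ a, w a * x a) = vol K / ((k:ℝ) + 1) := by
    have h := radial hK h0 0 1 (fun _ => (1:ℝ)) continuous_const (by intro r _ x; simp)
    simp only [one_mul, pow_one, add_zero] at h
    have e : ∫ x in K, (1 - ∑ a, w a * x a) = ∫ x in K, (1 - gau K x) :=
      setIntegral_congr_fun hmeas fun x hx => by simp only [hw x hx]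
    rw [e, h, h1V, Nat.factorial_succ (Fintype.card ι), Nat.factorial_one]
    push_cast
    have : ((Fintype.card ι)! : ℝ) ≠ 0 := by positivity
    rw [← hk] at this ⊢
    field_simp
  have r2 : ∀ i, ∫ x in K, x i * (1 - ∑ a, w a * x a) = (∫ x in K, x i) / ((k:ℝ) + 2) := by
    intro i
    have h := radial hK h0 1 1 (fun x => x i) (by fun_prop) (by
      intro r _ x
      simp)
    simp only [pow_one] at h
    have e : ∫ x in K, x i * (1 - ∑ a, w a * x a) = ∫ x in K, x i * (1 - gau K x) :=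
      setIntegral_congr_fun hmeas fun x hx => by simp only [hw x hx]
    rw [e, h, Nat.factorial_succ (Fintype.card ι + 1), Nat.factorial_one]
    push_cast
    have : ((Fintype.card ι + 1)! : ℝ) ≠ 0 := by positivity
    rw [← hk] at this ⊢
    field_simp
    ring
  have s1 : ∑ a, w a * ∫ x in K, x a = vol K * k / ((k:ℝ) + 1) := by
    have e : ∫ x in K, (1 - ∑ a, w a * x a) = vol K - ∑ a, w a * ∫ x in K, x a := by
      rw [integral_sub (cont_int hK continuous_const) (cont_int hK (by fun_prop)), h1V,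
        integral_finsetSum _ (fun a _ => cont_int hK (by fun_prop))]
      congr 1
      exact Finset.sum_congr rfl fun a _ => integral_const_mul _ _
    rw [e] at r1
    have : ((k : ℝ) + 1) ≠ 0 := by positivity
    field_simp at r1 ⊢
    linarith
  have s2 : ∀ i, ∑ a, (∫ x in K, x i * x a) * w a
      = (∫ x in K, x i) * ((k:ℝ) + 1) / ((k:ℝ) + 2) := by
    intro i
    have e : ∫ x in K, x i * (1 - ∑ a, w a * x a)
        = (∫ x in K, x i) - ∑ a, (∫ x in K, x i * x a) * w a := by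
      have e1 : ∀ x : ι → ℝ, x i * (1 - ∑ a, w a * x a) = x i - ∑ a, (x i * x a) * w a := by
        intro x
        rw [mul_sub, mul_one, Finset.mul_sum]
        congr 1
        exact Finset.sum_congr rfl fun a _ => by ring
      simp_rw [e1]
      rw [integral_sub (cont_int hK (by fun_prop)) (cont_int hK (by fun_prop)),
        integral_finsetSum _ (fun a _ => cont_int hK (by fun_prop))]
      congr 1
      exact Finset.sum_congr rfl fun a _ => integral_mul_const _ _
    have h := r2 i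
    rw [e] at h
    have : ((k : ℝ) + 2) ≠ 0 := by positivity
    field_simp at h ⊢
    linarith
  have hsw : sv K ⬝ᵥ w = k := by
    have e : sv K ⬝ᵥ w = ((k : ℝ) + 1) * ((vol K)⁻¹ * ∑ a, w a * ∫ x in K, x a) := by
      simp only [dotProduct, sv, Finset.mul_sum, ← hk]
      exact Finset.sum_congr rfl fun a _ => by ring
    rw [e, s1]
    field_simp
  have hNw : NN K *ᵥ w = sv K := by
    funext i
    have e : (NN K *ᵥ w) i = ((k : ℝ) + 1) * ((k : ℝ) + 2) * ((vol K)⁻¹ *
        ∑ a, (∫ x in K, x i * x a) * w a) - sv K i * (sv K ⬝ᵥ w) := by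
      simp only [mulVec, dotProduct, NN, Finset.mul_sum, ← hk, ← Finset.sum_sub_distrib]
      exact Finset.sum_congr rfl fun a _ => by ring
    rw [e, s2, hsw]
    have : sv K i = ((k : ℝ) + 1) * ((vol K)⁻¹ * ∫ x in K, x i) := rfl
    rw [this]
    field_simp
    ring
  have hdet : (NN K).det ≠ 0 := (NN_posDef hK).det_pos.ne'
  have hinv : (NN K)⁻¹ *ᵥ sv K = w := by
    rw [← hNw, mulVec_mulVec, Matrix.nonsing_inv_mul _ (isUnit_iff_ne_zero.2 hdet), one_mulVec]
  unfold pp
  rw [hinv, hsw]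
  ring

/-- the cone over `K` with apex at the origin -/
def cone (K : Set (ι → ℝ)) : Set (ι ⊕ Fin 1 → ℝ) :=
  {z | 0 ≤ z (Sum.inr 0) ∧ z (Sum.inr 0) ≤ 1 ∧
    (fun i => z (Sum.inl i)) ∈ z (Sum.inr 0) • K}

/-- the apex of the pyramid -/
def apx (ι : Type) : ι ⊕ Fin 1 → ℝ := Sum.elim (fun _ => 0) (fun _ => 1)

/-- reflection of the last coordinate -/
noncomputable def refl1 (ι : Type) : (ι ⊕ Fin 1 → ℝ) ≃ₗ[ℝ] (ι ⊕ Fin 1 → ℝ) where
  toFun z := Sum.elim (fun i => z (Sum.inl i)) (fun j => - z (Sum.inr j))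
  map_add' x y := by
    funext i
    rcases i with i | i <;> simp [add_comm]
  map_smul' c x := by
    funext i
    rcases i with i | i <;> simp
  invFun z := Sum.elim (fun i => z (Sum.inl i)) (fun j => - z (Sum.inr j))
  left_inv z := by
    funext i
    rcases i with i | i <;> simp
  right_inv z := by
    funext i
    rcases i with i | i <;> simp

theorem smul_mono2 {K : Set (ι → ℝ)} (hK : IsBody K) (h0 : (0 : ι → ℝ) ∈ K) {s r : ℝ}
    (hs : 0 ≤ s) (hsr : s ≤ r) : s • K ⊆ r • K := by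
  rcases (hs.trans hsr).eq_or_lt with h | h
  · have : s = r := le_antisymm hsr (h ▸ hs)
    rw [this]
  · rintro _ ⟨y, hy, rfl⟩
    refine ⟨(s / r) • y, ?_, ?_⟩
    · have h1 : s / r ≤ 1 := (div_le_one h).2 hsr
      have := hK.conv hy h0 (div_nonneg hs h.le) (by linarith : (0:ℝ) ≤ 1 - s / r) (by ring)
      simpa using this
    · simp only [smul_smul]
      rw [mul_div_cancel₀ _ h.ne']

theorem cone_eq {K : Set (ι → ℝ)} (hK : IsBody K) (h0 : (0 : ι → ℝ) ∈ K) :
    cone K = (fun x => refl1 ι x + apx ι) '' freeSum K (T 1) := by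
  ext z
  constructor
  · rintro ⟨h1, h2, h3⟩
    refine ⟨Sum.elim (fun i => z (Sum.inl i)) (fun j => 1 - z (Sum.inr j)), ?_, ?_⟩
    · refine ⟨z (Sum.inr 0), 1 - z (Sum.inr 0), h1, by linarith, by ring, h3, ?_⟩
      refine ⟨fun _ => 1, ⟨fun i => by simp, by simp⟩, ?_⟩
      funext j
      rw [Subsingleton.elim j 0]
      simp
    · funext i
      rcases i with i | i <;> simp [refl1, apx]
  · rintro ⟨x, ⟨s, t, hs, ht, hst, h1, ⟨y, hy, hyx⟩⟩, rfl⟩
    have hy0 := hy.1 0
    have hy1 : y 0 ≤ 1 := by simpa using hy.2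
    have hx0 : t * y 0 = x (Sum.inr 0) := by simpa using congrFun hyx 0
    have h4 : t * y 0 ≤ t := mul_le_of_le_one_right ht hy1
    have h5 : 0 ≤ t * y 0 := mul_nonneg ht hy0
    have e : (refl1 ι x + apx ι) (Sum.inr 0) = 1 - x (Sum.inr 0) := by
      simp [refl1, apx]; ring
    have e2 : (fun i => (refl1 ι x + apx ι) (Sum.inl i)) = fun i => x (Sum.inl i) := by
      funext i; simp [refl1, apx]
    refine ⟨?_, ?_, ?_⟩
    · simp only [e]; linarith
    · simp only [e]; linarith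
    · simp only [e2, e]
      exact smul_mono2 hK h0 hs (by linarith) h1

theorem cone_body {K : Set (ι → ℝ)} (hK : IsBody K) (h0 : (0 : ι → ℝ) ∈ K) :
    IsBody (cone K) := by
  rw [cone_eq hK h0]
  exact (freeSum_body hK h0 (T_body 1) ⟨fun i => le_rfl, by simp⟩).affine _ _

theorem zero_mem_cone {K : Set (ι → ℝ)} (h0 : (0 : ι → ℝ) ∈ K) :
    (0 : ι ⊕ Fin 1 → ℝ) ∈ cone K :=
  ⟨le_rfl, zero_le_one, ⟨0, h0, by ext i; simp⟩⟩

theorem D_cone [Nonempty ι] {K : Set (ι → ℝ)} (hK : IsBody K) (h0 : (0 : ι → ℝ) ∈ K) :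
    D (cone K) / fS (Fintype.card ι + 1) = D K / fS (Fintype.card ι) := by
  have hT0 : (0 : Fin 1 → ℝ) ∈ T 1 := ⟨fun i => le_rfl, by simp⟩
  rw [cone_eq hK h0, D_affine _ _ (freeSum_body hK h0 (T_body 1) hT0)]
  have h := D_freeSum hK h0 (T_body 1) hT0
  have hp := one_le_pp hK h0
  have hT : D (T 1) = fS 1 := D_T 1 le_rfl
  have hf : fS 1 ≠ 0 := (fS_pos 1).ne'
  simp only [Fintype.card_fin] at h
  rw [h, pp_T1, hT, div_self hf]
  have : pp K ≠ 0 := by linarith
  field_simp
  ring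

theorem gau_cone {K : Set (ι → ℝ)} (h0 : (0 : ι → ℝ) ∈ K) (z : ι ⊕ Fin 1 → ℝ)
    (hz : z ∈ cone K) : gau (cone K) z = z (Sum.inr 0) := by
  obtain ⟨h1, h2, ⟨y, hy, hyz⟩⟩ := hz
  apply le_antisymm
  · apply csInf_le ⟨0, fun _ h => h.1⟩
    refine ⟨h1, ⟨Sum.elim y (fun _ => 1), ⟨by simp, by simp, ?_⟩, ?_⟩⟩
    · simpa using hy
    · funext i
      rcases i with i | i
      · have := congrFun hyz i
        simpa using this
      · rw [Subsingleton.elim i 0]
        simp
  · apply le_csInf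
    · refine ⟨1, zero_le_one, ?_⟩
      rw [one_smul]
      exact ⟨h1, h2, ⟨y, hy, hyz⟩⟩
    · rintro r ⟨hr, ⟨v, hv, hvz⟩⟩
      have := congrFun hvz (Sum.inr 0)
      simp only [Pi.smul_apply, smul_eq_mul] at this
      rw [← this]
      exact mul_le_of_le_one_right hr hv.2.1

theorem pp_cone {K : Set (ι → ℝ)} (hK : IsBody K) (h0 : (0 : ι → ℝ) ∈ K) :
    pp (cone K) = 1 := by
  refine pp_of_linear (cone_body hK h0) (zero_mem_cone h0) (apx ι) fun z hz => ?_
  rw [gau_cone h0 z hz]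
  simp [apx]

end P254
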