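import Mathlib
import Vale.Agent.P254.Cone

/-! P254: tensor powers of cones. -/

namespace P254

open MeasureTheory Set Matrix
open scoped Pointwise Nat

/-- there is a convex body in dimension `N` with `pp = 1`, containing the origin, whose ratio to
the simplex is `r` -/
def HasRatio (N : ℕ) (r : ℝ) : Prop :=
  ∃ (ι : Type) (_ : Fintype ι) (_ : DecidableEq ι) (_ : Nonempty ι), Fintype.card ι = N ∧
    ∃ C : Set (ι → ℝ), IsBody C ∧ (0 : ι → ℝ) ∈ C ∧ pp C = 1 ∧ D C / fS N = r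

theorem hasRatio_add {N M : ℕ} {r s : ℝ} (h1 : HasRatio N r) (h2 : HasRatio M s) :
    HasRatio (N + M) (r * s) := by
  obtain ⟨ι, _, _, _, hN, C, hC, hC0, hpC, hDC⟩ := h1
  obtain ⟨κ, _, _, _, hM, E, hE, hE0, hpE, hDE⟩ := h2
  refine ⟨ι ⊕ κ, inferInstance, inferInstance, inferInstance, by simp [hN, hM],
    freeSum C E, freeSum_body hC hC0 hE hE0, ?_, ?_, ?_⟩
  · refine ⟨1, 0, zero_le_one, le_rfl, by norm_num, ?_, ?_⟩
    · rw [one_smul]; exact hC0
    · exact ⟨0, hE0, by ext j; simp⟩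
  · rw [pp_freeSum hC hC0 hE hE0, hpC, hpE]; norm_num
  · have h := D_freeSum hC hC0 hE hE0
    rw [hpC, hpE, hN, hM, hDC, hDE] at h
    rw [h]
    norm_num

theorem hasRatio_seg : HasRatio 1 1 := by
  refine ⟨Fin 1, inferInstance, inferInstance, inferInstance, by simp, T 1, T_body 1,
    ⟨fun i => le_rfl, by simp⟩, pp_T1, ?_⟩
  rw [D_T 1 le_rfl]
  exact div_self (fS_pos 1).ne'

theorem D_translate {n : ℕ} {K : Set (Fin n → ℝ)} (hK : IsBody K) (a : Fin n → ℝ) :
    IsBody ((fun x => x - a) '' K) ∧ D ((fun x => x - a) '' K) = D K := by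
  have h1 := hK.affine (LinearEquiv.refl ℝ (Fin n → ℝ)) (-a)
  have h2 := D_affine (LinearEquiv.refl ℝ (Fin n → ℝ)) (-a) hK
  constructor
  · simpa [sub_eq_add_neg] using h1
  · simpa [sub_eq_add_neg] using h2

theorem hasRatio_cone {n : ℕ} (hn : 1 ≤ n) {K : Set (Fin n → ℝ)} (hK : IsBody K) :
    HasRatio (n + 1) (D K / fS n) := by
  have : Nonempty (Fin n) := ⟨⟨0, hn⟩⟩
  obtain ⟨a, ha⟩ := hK.int
  have haK : a ∈ K := interior_subset ha
  obtain ⟨h1, h2⟩ := D_translate hK a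
  have h0 : (0 : Fin n → ℝ) ∈ (fun x => x - a) '' K := ⟨a, haK, by simp⟩
  refine ⟨Fin n ⊕ Fin 1, inferInstance, inferInstance, inferInstance, by simp,
    cone ((fun x => x - a) '' K), cone_body h1 h0, zero_mem_cone h0, pp_cone h1 h0, ?_⟩
  have h := D_cone h1 h0
  simp only [Fintype.card_fin] at h
  rw [h, h2]

theorem hasRatio_pow {N : ℕ} {r : ℝ} (h : HasRatio N r) (m : ℕ) (hm : 1 ≤ m) :
    HasRatio (m * N) (r ^ m) := by
  induction m, hm using Nat.le_induction with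
  | base => simpa using h
  | succ m hm ih =>
    have := hasRatio_add ih h
    have e : (m + 1) * N = m * N + N := by ring
    rw [e, pow_succ]
    exact this

theorem hasRatio_seg_add {N : ℕ} {r : ℝ} (h : HasRatio N r) (j : ℕ) : HasRatio (N + j) r := by
  induction j with
  | zero => simpa using h
  | succ j ih =>
    have := hasRatio_add ih hasRatio_seg
    rwa [mul_one] at this

/-- transfer to `Fin N` -/
theorem HasRatio.fin {N : ℕ} {r : ℝ} (h : HasRatio N r) :
    ∃ C : Set (Fin N → ℝ), IsBody C ∧ D C = r * fS N := by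
  obtain ⟨ι, _, _, _, hN, C, hC, _, _, hDC⟩ := h
  let e : Fin N ≃ ι := (Fintype.equivFinOfCardEq hN).symm
  let L : (ι → ℝ) ≃ₗ[ℝ] (Fin N → ℝ) := LinearEquiv.funCongrLeft ℝ ℝ e
  refine ⟨(fun x => L x + 0) '' C, hC.affine L 0, ?_⟩
  rw [D_affine L 0 hC, ← hDC]
  have := (fS_pos N).ne'
  field_simp

/-- amplification: ratio `ρ` in dimension `n` gives ratio `ρ ^ m` in every dimension
`N ≥ m (n + 1)` -/
theorem amplify {n : ℕ} (hn : 1 ≤ n) {K : Set (Fin n → ℝ)} (hK : IsBody K) (m N : ℕ)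
    (hm : 1 ≤ m) (hN : m * (n + 1) ≤ N) :
    ∃ C : Set (Fin N → ℝ), IsBody C ∧ D C = (D K / fS n) ^ m * fS N := by
  have h1 := hasRatio_pow (hasRatio_cone hn hK) m hm
  have h2 := hasRatio_seg_add h1 (N - m * (n + 1))
  have e : m * (n + 1) + (N - m * (n + 1)) = N := by omega
  rw [e] at h2
  exact h2.fin

end P254
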