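import Mathlib
import Vale.Agent.P254.Defs

namespace P254

open scoped Nat

theorem fS_lower (N : ℕ) (hN : 1 ≤ N) :
    Real.exp (-(2 * (N : ℝ) + 3)) / ((N : ℝ) + 1) ≤ fS N := by
  have hN0 : (0 : ℝ) < N := by exact_mod_cast hN
  have h1 : (N : ℝ) ^ N / (N ! : ℝ) ≤ Real.exp N := Real.pow_div_factorial_le_exp (N : ℝ) hN0.le N
  have hfac : (0 : ℝ) < (N ! : ℝ) := by positivity
  have h2 : (N : ℝ) ^ N * Real.exp (-(N : ℝ)) ≤ (N ! : ℝ) := by
    rw [div_le_iff₀ hfac] at h1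
    have h3 : Real.exp (-(N : ℝ)) * Real.exp N = 1 := by rw [← Real.exp_add]; simp
    calc (N : ℝ) ^ N * Real.exp (-(N : ℝ)) ≤ (Real.exp N * (N ! : ℝ)) * Real.exp (-(N : ℝ)) :=
          mul_le_mul_of_nonneg_right h1 (Real.exp_pos _).le
      _ = (Real.exp (-(N : ℝ)) * Real.exp N) * (N ! : ℝ) := by ring
      _ = (N ! : ℝ) := by rw [h3, one_mul]
  have h4 : ((N : ℝ) + 1) ^ N ≤ (N : ℝ) ^ N * Real.exp 1 := by
    have h5 : (N : ℝ) + 1 = N * (1 / N + 1) := by field_simp; ring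
    have h6 : (1 / (N : ℝ) + 1) ^ N ≤ Real.exp 1 := by
      have := pow_le_pow_left₀ (by positivity) (Real.add_one_le_exp (1 / (N : ℝ))) N
      rw [← Real.exp_nat_mul] at this
      have e : (N : ℝ) * (1 / N) = 1 := by field_simp
      rwa [e] at this
    rw [h5, mul_pow]
    exact mul_le_mul_of_nonneg_left h6 (by positivity)
  have h7 : ((N : ℝ) + 2) ^ N ≤ (N : ℝ) ^ N * Real.exp 2 := by
    have h5 : (N : ℝ) + 2 = N * (2 / N + 1) := by field_simp; ring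
    have h6 : (2 / (N : ℝ) + 1) ^ N ≤ Real.exp 2 := by
      have := pow_le_pow_left₀ (by positivity) (Real.add_one_le_exp (2 / (N : ℝ))) N
      rw [← Real.exp_nat_mul] at this
      have e : (N : ℝ) * (2 / N) = 2 := by field_simp
      rwa [e] at this
    rw [h5, mul_pow]
    exact mul_le_mul_of_nonneg_left h6 (by positivity)
  unfold fS
  rw [div_le_div_iff₀ (by positivity) (by positivity)]
  have h8 : ((N : ℝ) + 1) ^ (N + 1) * ((N : ℝ) + 2) ^ N
      ≤ ((N : ℝ) ^ N * Real.exp 1 * (N + 1)) * ((N : ℝ) ^ N * Real.exp 2) := by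
    rw [pow_succ]
    exact mul_le_mul (mul_le_mul_of_nonneg_right h4 (by positivity)) h7 (by positivity)
      (by positivity)
  have h9 : ((N : ℝ) ^ N * Real.exp (-(N : ℝ))) ^ 2 ≤ (N ! : ℝ) ^ 2 :=
    pow_le_pow_left₀ (by positivity) h2 2
  have h10 : Real.exp (-(2 * (N : ℝ) + 3)) * (Real.exp 1 * Real.exp 2)
      = Real.exp (-(N : ℝ)) ^ 2 := by
    rw [← Real.exp_add, ← Real.exp_add, ← Real.exp_nat_mul]
    congr 1
    push_cast
    ring
  calc Real.exp (-(2 * (N : ℝ) + 3)) * (((N : ℝ) + 1) ^ (N + 1) * ((N : ℝ) + 2) ^ N)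
      ≤ Real.exp (-(2 * (N : ℝ) + 3)) *
        (((N : ℝ) ^ N * Real.exp 1 * (N + 1)) * ((N : ℝ) ^ N * Real.exp 2)) :=
        mul_le_mul_of_nonneg_left h8 (Real.exp_pos _).le
    _ = (Real.exp (-(2 * (N : ℝ) + 3)) * (Real.exp 1 * Real.exp 2)) * ((N : ℝ) ^ N) ^ 2
          * (N + 1) := by ring
    _ = ((N : ℝ) ^ N * Real.exp (-(N : ℝ))) ^ 2 * (N + 1) := by rw [h10]; ring
    _ ≤ (N ! : ℝ) ^ 2 * (N + 1) := mul_le_mul_of_nonneg_right h9 (by positivity)

theorem fac_upper (N : ℕ) (hN : 1 ≤ N) :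
    (N ! : ℝ) ^ 2 ≤ Real.exp 2 * N * ((N : ℝ) / Real.exp 1) ^ (2 * N) := by
  have hN0 : (0 : ℝ) < N := by exact_mod_cast hN
  obtain ⟨m, rfl⟩ : ∃ m, N = m + 1 := ⟨N - 1, by omega⟩
  have h1 : Stirling.stirlingSeq (m + 1) ≤ Stirling.stirlingSeq 1 :=
    Stirling.stirlingSeq'_antitone (Nat.zero_le m)
  rw [Stirling.stirlingSeq_one, Stirling.stirlingSeq] at h1
  rw [div_le_div_iff₀ (by positivity) (by positivity)] at h1
  have h2 := pow_le_pow_left₀ (by positivity) h1 2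
  have e1 : (((m + 1 : ℕ) ! : ℝ) * Real.sqrt 2) ^ 2 = ((m + 1 : ℕ) ! : ℝ) ^ 2 * 2 := by
    rw [mul_pow, Real.sq_sqrt (by norm_num)]
  have e2 : (Real.exp 1 * (Real.sqrt (2 * ((m + 1 : ℕ) : ℝ))
      * (((m + 1 : ℕ) : ℝ) / Real.exp 1) ^ (m + 1))) ^ 2
      = Real.exp 2 * (2 * ((m + 1 : ℕ) : ℝ))
        * (((m + 1 : ℕ) : ℝ) / Real.exp 1) ^ (2 * (m + 1)) := by
    rw [mul_pow, mul_pow, Real.sq_sqrt (by positivity), ← pow_mul, ← Real.exp_nat_mul,
      mul_comm (m + 1) 2]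
    norm_num
    ring
  rw [e1, e2] at h2
  linarith

theorem fS_upper (N : ℕ) (hN : 1 ≤ N) : fS N ≤ Real.exp (-(2 * (N : ℝ))) := by
  have hN0 : (0 : ℝ) < N := by exact_mod_cast hN
  have h1 := fac_upper N hN
  unfold fS
  rw [div_le_iff₀ (by positivity)]
  refine h1.trans ?_
  -- (N+1)^(N+1) ≥ e N^(N+1)
  have hA : Real.exp 1 * (N : ℝ) ^ (N + 1) ≤ ((N : ℝ) + 1) ^ (N + 1) := by
    have h2 : Real.exp (1 / ((N : ℝ) + 1)) ≤ ((N : ℝ) + 1) / N := by
      have h3 : 1 - 1 / ((N : ℝ) + 1) ≤ Real.exp (-(1 / ((N : ℝ) + 1))) := by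
        have := Real.add_one_le_exp (-(1 / ((N : ℝ) + 1)))
        linarith
      have h4 : (N : ℝ) / (N + 1) = 1 - 1 / ((N : ℝ) + 1) := by field_simp; ring
      rw [← h4] at h3
      have h5 : Real.exp (1 / ((N : ℝ) + 1)) = (Real.exp (-(1 / ((N : ℝ) + 1))))⁻¹ := by
        rw [Real.exp_neg, inv_inv]
      have h7 : ((N : ℝ) + 1) / N = ((N : ℝ) / (N + 1))⁻¹ := by rw [inv_div]
      rw [h5, h7]
      exact inv_anti₀ (by positivity) h3
    have h6 := pow_le_pow_left₀ (Real.exp_pos _).le h2 (N + 1)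
    rw [← Real.exp_nat_mul, div_pow, le_div_iff₀ (by positivity)] at h6
    have e : ((N + 1 : ℕ) : ℝ) * (1 / ((N : ℝ) + 1)) = 1 := by
      push_cast
      field_simp
    rwa [e] at h6
  have hB : Real.exp 1 * (N : ℝ) ^ N ≤ ((N : ℝ) + 2) ^ N := by
    rcases Nat.lt_or_ge N 2 with h | h
    · have : N = 1 := by omega
      subst this
      have := Real.exp_one_lt_d9
      norm_num
      linarith
    · have h2N : (2 : ℝ) ≤ N := by exact_mod_cast h
      have h2 : Real.exp (2 / ((N : ℝ) + 2)) ≤ ((N : ℝ) + 2) / N := by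
        have h3 : 1 - 2 / ((N : ℝ) + 2) ≤ Real.exp (-(2 / ((N : ℝ) + 2))) := by
          have := Real.add_one_le_exp (-(2 / ((N : ℝ) + 2)))
          linarith
        have h4 : (N : ℝ) / (N + 2) = 1 - 2 / ((N : ℝ) + 2) := by field_simp; ring
        rw [← h4] at h3
        have h5 : Real.exp (2 / ((N : ℝ) + 2)) = (Real.exp (-(2 / ((N : ℝ) + 2))))⁻¹ := by
          rw [Real.exp_neg, inv_inv]
        have h7 : ((N : ℝ) + 2) / N = ((N : ℝ) / (N + 2))⁻¹ := by rw [inv_div]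
        rw [h5, h7]
        exact inv_anti₀ (by positivity) h3
      have h6 := pow_le_pow_left₀ (Real.exp_pos _).le h2 N
      rw [← Real.exp_nat_mul, div_pow, le_div_iff₀ (by positivity)] at h6
      have h7 : Real.exp 1 ≤ Real.exp ((N : ℝ) * (2 / ((N : ℝ) + 2))) := by
        apply Real.exp_le_exp.2
        rw [mul_div_assoc', le_div_iff₀ (by positivity)]
        linarith
      exact (mul_le_mul_of_nonneg_right h7 (by positivity)).trans h6
  have hC : (Real.exp 1 * (N : ℝ) ^ (N + 1)) * (Real.exp 1 * (N : ℝ) ^ N)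
      ≤ ((N : ℝ) + 1) ^ (N + 1) * ((N : ℝ) + 2) ^ N :=
    mul_le_mul hA hB (by positivity) (by positivity)
  have hD : Real.exp 2 * N * ((N : ℝ) / Real.exp 1) ^ (2 * N)
      = Real.exp (-(2 * (N : ℝ))) *
        ((Real.exp 1 * (N : ℝ) ^ (N + 1)) * (Real.exp 1 * (N : ℝ) ^ N)) := by
    rw [div_pow, ← Real.exp_nat_mul]
    have e1 : Real.exp 2 = Real.exp 1 * Real.exp 1 := by
      rw [← Real.exp_add]; norm_num
    have e2 : Real.exp (-(2 * (N : ℝ))) = (Real.exp (((2 * N : ℕ) : ℝ) * 1))⁻¹ := by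
      rw [← Real.exp_neg]
      congr 1
      push_cast
      ring
    rw [e1, e2]
    field_simp
    ring
  rw [hD]
  exact mul_le_mul_of_nonneg_left hC (Real.exp_pos _).le

end P254
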