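import Mathlib
import Vale.Agent.P254.Lower

namespace P254

theorem amp_limit (ρ : ℝ) (hρ : 0 < ρ) (n : ℕ)
    (h : ∀ ε : ℝ, 0 < ε → ∀ N0 : ℕ, ∃ N ≥ N0,
      ρ ^ (N / (n + 1)) * fS N ≤ (Real.exp (-1) + ε) ^ (2 * N)) : ρ ≤ 1 := by
  by_contra hcon
  rw [not_le] at hcon
  set L : ℝ := Real.log ρ with hL
  have hL0 : 0 < L := Real.log_pos hcon
  set c : ℝ := (n : ℝ) + 1 with hc
  have hc0 : 0 < c := by positivity
  set a : ℝ := L / (2 * c) with ha
  have ha0 : 0 < a := by positivity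
  set b : ℝ := L + 3 with hb
  have hb0 : 0 < b := by linarith
  set τ : ℝ := Real.exp (L / (4 * c)) with hτ
  have hτ1 : 1 < τ := Real.one_lt_exp_iff.2 (by positivity)
  have hε : 0 < Real.exp (-1) * (τ - 1) := mul_pos (Real.exp_pos _) (by linarith)
  obtain ⟨N, hN0, hN⟩ := h _ hε (max 1 (max (Nat.ceil (2 * b / a)) (Nat.ceil (8 / a ^ 2))))
  have hN1 : 1 ≤ N := le_trans (le_max_left _ _) hN0
  have hN2 : 2 * b / a ≤ N := by
    refine le_trans (Nat.le_ceil _) ?_
    exact_mod_cast le_trans (le_trans (le_max_left _ _) (le_max_right _ _)) hN0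
  have hN3 : 8 / a ^ 2 ≤ N := by
    refine le_trans (Nat.le_ceil _) ?_
    exact_mod_cast le_trans (le_trans (le_max_right _ _) (le_max_right _ _)) hN0
  have hNr : (1 : ℝ) ≤ N := by exact_mod_cast hN1
  set m : ℕ := N / (n + 1) with hm
  have hmN : (N : ℝ) ≤ c * ((m : ℝ) + 1) := by
    have h1 := Nat.div_add_mod N (n + 1)
    have h2 : N % (n + 1) < n + 1 := Nat.mod_lt N (Nat.succ_pos n)
    have h3 : N ≤ (n + 1) * (m + 1) := by
      rw [hm, mul_add]
      omega
    have h4 : (N : ℝ) ≤ (((n + 1) * (m + 1) : ℕ) : ℝ) := by exact_mod_cast h3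
    rw [hc]
    push_cast at h4
    exact h4
  -- rewrite everything with exponentials
  have e1 : ρ ^ m = Real.exp (m * L) := by
    rw [Real.exp_nat_mul, hL, Real.exp_log hρ]
  have e2 : (Real.exp (-1) + Real.exp (-1) * (τ - 1)) ^ (2 * N)
      = Real.exp (-(2 * (N : ℝ)) + N * a) := by
    have : Real.exp (-1) + Real.exp (-1) * (τ - 1) = Real.exp (-1 + L / (4 * c)) := by
      rw [Real.exp_add, hτ]; ring
    rw [this, ← Real.exp_nat_mul]
    congr 1
    push_cast
    rw [ha]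
    field_simp
    ring
  rw [e1, e2] at hN
  have hlow := fS_lower N hN1
  have hNp : (0 : ℝ) < (N : ℝ) + 1 := by positivity
  have h5 : Real.exp (m * L) * (Real.exp (-(2 * (N : ℝ) + 3)) / ((N : ℝ) + 1))
      ≤ Real.exp (-(2 * (N : ℝ)) + N * a) :=
    le_trans (mul_le_mul_of_nonneg_left hlow (Real.exp_pos _).le) hN
  have h6 : Real.exp (m * L - 3 - N * a) ≤ (N : ℝ) + 1 := by
    have e3 : Real.exp (m * L) * (Real.exp (-(2 * (N : ℝ) + 3)) / ((N : ℝ) + 1))
        = Real.exp (m * L - 3 - N * a) / ((N : ℝ) + 1) * Real.exp (-(2 * (N : ℝ)) + N * a) := by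
      have : Real.exp (m * L) * Real.exp (-(2 * (N : ℝ) + 3))
          = Real.exp (m * L - 3 - N * a) * Real.exp (-(2 * (N : ℝ)) + N * a) := by
        rw [← Real.exp_add, ← Real.exp_add]
        congr 1
        ring
      rw [mul_div_assoc', this]
      ring
    rw [e3] at h5
    have h7 : Real.exp (m * L - 3 - N * a) / ((N : ℝ) + 1) ≤ 1 := by
      by_contra h8
      rw [not_le] at h8
      have := mul_lt_mul_of_pos_right h8 (Real.exp_pos (-(2 * (N : ℝ)) + N * a))
      linarith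
    rwa [div_le_one hNp] at h7
  have h8 : N * a - b ≤ m * L - 3 - N * a := by
    -- N a = N L / (2 c) <= (m + 1) L / 2
    have h9 : 2 * (N * a) ≤ ((m : ℝ) + 1) * L := by
      have : 2 * (N * a) = N * L / c := by rw [ha]; field_simp
      rw [this, div_le_iff₀ hc0]
      nlinarith
    rw [hb]
    linarith
  have h10 : (N : ℝ) * a / 2 ≤ N * a - b := by
    rw [div_le_iff₀ ha0] at hN2
    linarith
  have h11 : Real.exp ((N : ℝ) * a / 2) ≤ (N : ℝ) + 1 :=
    le_trans (Real.exp_le_exp.2 (h10.trans h8)) h6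
  have h12 := Real.quadratic_le_exp_of_nonneg (x := (N : ℝ) * a / 2) (by positivity)
  have h13 : (N : ℝ) ≤ ((N : ℝ) * a / 2) ^ 2 / 2 := by
    rw [div_le_iff₀ (by positivity)] at hN3
    nlinarith
  have h14 : 0 < (N : ℝ) * a / 2 := by positivity
  linarith

end P254
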