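import Mathlib
import Vale.Agent.P254.Final

namespace P254

open MeasureTheory Set Matrix
open scoped Pointwise Nat

/-- a convex body which is the convex hull of at most `n + 1` points is a simplex -/
theorem simplex_of_few {n : ℕ} {α : Type} [Fintype α] (q : α → (Fin n → ℝ))
    (hc : Fintype.card α ≤ n + 1) (hq : (interior (convexHull ℝ (range q))).Nonempty) :
    ∃ p : Fin (n + 1) → (Fin n → ℝ), AffineIndependent ℝ p ∧
      convexHull ℝ (range q) = convexHull ℝ (range p) := by
  have h1 := interior_convexHull_nonempty_iff_affineSpan_eq_top.1 hq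
  have h2 : vectorSpan ℝ (range q) = ⊤ :=
    AffineSubspace.vectorSpan_eq_top_of_affineSpan_eq_top ℝ _ _ h1
  have h3 : Module.finrank ℝ (vectorSpan ℝ (range q)) = n := by
    rw [h2, finrank_top]; simp
  have hne : (range q).Nonempty := by
    by_contra hcon
    rw [not_nonempty_iff_eq_empty] at hcon
    rw [hcon] at hq
    simp at hq
  have hpos : 0 < Fintype.card α := by
    obtain ⟨_, ⟨i, _⟩⟩ := hne
    exact Fintype.card_pos_iff.2 ⟨i⟩
  have hcard : Fintype.card α = n + 1 := by
    have h4 := finrank_vectorSpan_range_le ℝ q (n := Fintype.card α - 1) (by omega)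
    rw [h3] at h4
    omega
  let e : Fin (n + 1) ≃ α := (Fintype.equivFinOfCardEq hcard).symm
  refine ⟨q ∘ e, ?_, ?_⟩
  · rw [affineIndependent_iff_finrank_vectorSpan_eq ℝ (q ∘ e) (n := n) (by simp)]
    rw [e.surjective.range_comp, h3]
  · rw [e.surjective.range_comp]

theorem zero_smul_mem {n : ℕ} {K : Set (Fin n → ℝ)} (h0 : (0 : Fin n → ℝ) ∈ K) :
    (0 : Fin n → ℝ) ∈ (0 : ℝ) • K := ⟨0, h0, by simp⟩

/-- the base of a pyramid with few vertices is a simplex -/
theorem base_simplex {n : ℕ} {K : Set (Fin n → ℝ)} (hK : IsBody K) (h0 : (0 : Fin n → ℝ) ∈ K)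
    (r : Fin (n + 2) → (Fin n ⊕ Fin 1 → ℝ)) (hr : freeSum K (T 1) = convexHull ℝ (range r)) :
    ∃ p : Fin (n + 1) → (Fin n → ℝ), AffineIndependent ℝ p ∧ K = convexHull ℝ (range p) := by
  classical
  have hpos : ∀ z ∈ freeSum K (T 1), 0 ≤ z (Sum.inr 0) := by
    rintro z ⟨s, t, hs, ht, hst, h1, ⟨y, hy, hyz⟩⟩
    have := congrFun hyz 0
    simp only [Pi.smul_apply, smul_eq_mul] at this
    rw [← this]
    exact mul_nonneg ht (hy.1 0)
  have hbase : ∀ z ∈ freeSum K (T 1), z (Sum.inr 0) = 0 → (fun i => z (Sum.inl i)) ∈ K := by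
    rintro z ⟨s, t, hs, ht, hst, ⟨x, hx, hxz⟩, h2⟩ _
    simp only at hxz
    rw [← hxz]
    have := hK.conv hx h0 hs ht hst
    simpa using this
  have hup : ∀ x ∈ K, (Sum.elim x 0 : Fin n ⊕ Fin 1 → ℝ) ∈ freeSum K (T 1) := by
    intro x hx
    refine ⟨1, 0, zero_le_one, le_rfl, by norm_num, ?_, ?_⟩
    · simpa using hx
    · refine ⟨0, ⟨fun i => le_rfl, by simp⟩, ?_⟩
      ext j; simp
  have hapex : (Sum.elim 0 1 : Fin n ⊕ Fin 1 → ℝ) ∈ freeSum K (T 1) := by
    refine ⟨0, 1, le_rfl, zero_le_one, by norm_num, ?_, ?_⟩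
    · refine ⟨0, h0, ?_⟩
      ext j; simp
    · refine ⟨1, ⟨fun i => by simp, by simp⟩, ?_⟩
      ext j; simp
  have hrmem : ∀ i, r i ∈ freeSum K (T 1) := fun i => by
    rw [hr]; exact subset_convexHull ℝ _ (mem_range_self i)
  -- indices of base points
  set A : Finset (Fin (n + 2)) := Finset.univ.filter (fun i => r i (Sum.inr 0) = 0) with hA
  have hAcard : A.card ≤ n + 1 := by
    by_contra hcon
    have h1 : A = Finset.univ := by
      rw [← Finset.card_eq_iff_eq_univ]
      have := Finset.card_le_univ A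
      simp only [Fintype.card_fin] at this ⊢
      omega
    have h2 : ∀ i, r i (Sum.inr 0) = 0 := fun i => by
      have : i ∈ A := by rw [h1]; exact Finset.mem_univ i
      exact (Finset.mem_filter.1 this).2
    have h3 : convexHull ℝ (range r) ⊆ {z : Fin n ⊕ Fin 1 → ℝ | z (Sum.inr 0) = 0} := by
      apply convexHull_min
      · rintro _ ⟨i, rfl⟩
        exact h2 i
      · intro x hx y hy a b _ _ _
        simp only [mem_ofPred_eq, Pi.add_apply, Pi.smul_apply, smul_eq_mul] at hx hy ⊢
        rw [hx, hy]; ring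
    have h4 := h3 (hr ▸ hapex)
    simp at h4
  let q : A → (Fin n → ℝ) := fun i => fun j => r i (Sum.inl j)
  have hKq : K = convexHull ℝ (range q) := by
    apply Subset.antisymm
    · intro x hx
      have h1 := hup x hx
      rw [hr] at h1
      have h2 : convexHull ℝ (range r) ⊆ {z : Fin n ⊕ Fin 1 → ℝ | 0 ≤ z (Sum.inr 0) ∧
          (z (Sum.inr 0) = 0 → (fun i => z (Sum.inl i)) ∈ convexHull ℝ (range q))} := by
        apply convexHull_min
        · rintro _ ⟨i, rfl⟩
          refine ⟨hpos _ (hrmem i), fun h => subset_convexHull ℝ _ ?_⟩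
          exact ⟨⟨i, Finset.mem_filter.2 ⟨Finset.mem_univ i, h⟩⟩, rfl⟩
        · rintro z ⟨hz0, hz⟩ w ⟨hw0, hw⟩ a b ha hb hab
          refine ⟨?_, fun h => ?_⟩
          · simp only [Pi.add_apply, Pi.smul_apply, smul_eq_mul]
            positivity
          · simp only [Pi.add_apply, Pi.smul_apply, smul_eq_mul] at h
            have e1 : a * z (Sum.inr 0) = 0 := by
              have := mul_nonneg ha hz0
              have := mul_nonneg hb hw0
              linarith
            have e2 : b * w (Sum.inr 0) = 0 := by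
              have := mul_nonneg ha hz0
              have := mul_nonneg hb hw0
              linarith
            rcases ha.eq_or_lt with ha0 | ha0
            · have hb1 : b = 1 := by linarith
              rw [hb1, one_mul] at e2
              rw [← ha0, hb1]
              simpa using hw e2
            · rcases hb.eq_or_lt with hb0 | hb0
              · have ha1 : a = 1 := by linarith
                rw [ha1, one_mul] at e1
                rw [← hb0, ha1]
                simpa using hz e1
              · have e3 := (mul_eq_zero.1 e1).resolve_left ha0.ne'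
                have e4 := (mul_eq_zero.1 e2).resolve_left hb0.ne'
                exact (convex_convexHull ℝ (range q)) (hz e3) (hw e4) ha hb hab
      have h3 := (h2 h1).2 (by simp)
      simpa using h3
    · apply convexHull_min
      · rintro _ ⟨i, rfl⟩
        exact hbase (r i) (hrmem i) (Finset.mem_filter.1 i.2).2
      · exact hK.conv
  obtain ⟨p, hp, hpq⟩ := simplex_of_few q (by simpa using hAcard) (hKq ▸ hK.int)
  exact ⟨p, hp, by rw [hKq, hpq]⟩

end P254
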