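import Mathlib
import Vale.Agent.P254.FS

namespace P254

open scoped Nat

theorem rS_zero_lt (k : ℕ) (hk : 1 ≤ k) : rS 0 < rS k := by
  refine lt_of_lt_of_le ?_ (rS_mono hk)
  unfold rS
  norm_num

theorem fS_mul_lt (k m : ℕ) (hk : 1 ≤ k) (hm : 1 ≤ m) : fS k * fS m < fS (k + m) := by
  induction m, hm using Nat.le_induction with
  | base =>
    have h0 : fS 0 = 1 := by simp [fS]
    have h1 : fS 1 = rS 0 := by rw [show (1 : ℕ) = 0 + 1 by rfl, fS_succ, h0, mul_one]
    rw [fS_succ k, h1, mul_comm]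
    exact mul_lt_mul_of_pos_right (rS_zero_lt k hk) (fS_pos' k)
  | succ m hm ih =>
    rw [← add_assoc, fS_succ, fS_succ]
    calc fS k * (rS m * fS m) = rS m * (fS k * fS m) := by ring
      _ < rS m * fS (k + m) := mul_lt_mul_of_pos_left ih (rS_pos m)
      _ ≤ rS (k + m) * fS (k + m) :=
        mul_le_mul_of_nonneg_right (rS_mono (Nat.le_add_left m k)) (fS_pos' _).le

end P254
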