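import Mathlib
import Vale.Agent.P254.Final

/-! P254: final statements in `Fin n → ℝ`. -/

namespace P254

open MeasureTheory Set Matrix
open scoped Pointwise Nat

noncomputable def rr (k m : ℕ) : (Fin k ⊕ Fin m → ℝ) ≃ₗ[ℝ] (Fin (k + m) → ℝ) :=
  LinearEquiv.funCongrLeft ℝ ℝ finSumFinEquiv.symm

theorem rr_castAdd {k m : ℕ} (x : Fin k ⊕ Fin m → ℝ) (i : Fin k) :
    rr k m x (Fin.castAdd m i) = x (Sum.inl i) := by
  simp [rr, LinearEquiv.funCongrLeft_apply, LinearMap.funLeft_apply]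

theorem rr_natAdd {k m : ℕ} (x : Fin k ⊕ Fin m → ℝ) (j : Fin m) :
    rr k m x (Fin.natAdd k j) = x (Sum.inr j) := by
  simp [rr, LinearEquiv.funCongrLeft_apply, LinearMap.funLeft_apply]

theorem cprod_eq {k m : ℕ} (K : Set (Fin k → ℝ)) (L : Set (Fin m → ℝ)) :
    cprod K L = (fun x => rr k m x + 0) '' prodBody K L := by
  ext z
  constructor
  · intro hz
    refine ⟨(rr k m).symm z, ?_, by simp⟩
    obtain ⟨x, rfl⟩ := (rr k m).surjective z
    simpa [cprod, prodBody, rr_castAdd, rr_natAdd] using hz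
  · rintro ⟨x, hx, rfl⟩
    simpa [cprod, prodBody, rr_castAdd, rr_natAdd] using hx

theorem fsum_eq {k m : ℕ} {K : Set (Fin k → ℝ)} {L : Set (Fin m → ℝ)} (hK : Convex ℝ K)
    (hL : Convex ℝ L) (h0 : (0 : Fin k → ℝ) ∈ K) (h0' : (0 : Fin m → ℝ) ∈ L) :
    fsum K L = (fun x => rr k m x + 0) '' freeSum K L := by
  have hA : Convex ℝ {z : Fin (k + m) → ℝ |
      (fun i => z (Fin.castAdd m i)) ∈ K ∧ ∀ j, z (Fin.natAdd k j) = 0} := by
    intro x hx y hy a b ha hb hab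
    refine ⟨hK hx.1 hy.1 ha hb hab, fun j => ?_⟩
    simp [hx.2 j, hy.2 j]
  have hB : Convex ℝ {z : Fin (k + m) → ℝ |
      (∀ i, z (Fin.castAdd m i) = 0) ∧ (fun j => z (Fin.natAdd k j)) ∈ L} := by
    intro x hx y hy a b ha hb hab
    refine ⟨fun j => ?_, hL hx.2 hy.2 ha hb hab⟩
    simp [hx.1 j, hy.1 j]
  unfold fsum
  rw [hA.convexHull_union hB ⟨0, h0, fun j => rfl⟩ ⟨0, fun i => rfl, h0'⟩]
  ext z
  rw [mem_convexJoin]
  constructor
  · rintro ⟨a, ha, b, hb, s, t, hs, ht, hst, rfl⟩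
    refine ⟨(rr k m).symm (s • a + t • b), ⟨s, t, hs, ht, hst, ?_, ?_⟩, by simp⟩
    · obtain ⟨a', rfl⟩ := (rr k m).surjective a
      obtain ⟨b', rfl⟩ := (rr k m).surjective b
      refine ⟨fun i => a' (Sum.inl i), ?_, ?_⟩
      · simpa [rr_castAdd] using ha.1
      · funext i
        have := hb.1 i
        rw [rr_castAdd] at this
        simp [← map_smul, ← map_add, this]
    · obtain ⟨a', rfl⟩ := (rr k m).surjective a
      obtain ⟨b', rfl⟩ := (rr k m).surjective b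
      refine ⟨fun i => b' (Sum.inr i), ?_, ?_⟩
      · simpa [rr_natAdd] using hb.2
      · funext i
        have := ha.2 i
        rw [rr_natAdd] at this
        simp [← map_smul, ← map_add, this]
  · rintro ⟨x, ⟨s, t, hs, ht, hst, ⟨a, ha, hax⟩, ⟨b, hb, hbx⟩⟩, rfl⟩
    refine ⟨rr k m (Sum.elim a 0), ⟨?_, ?_⟩, rr k m (Sum.elim 0 b), ⟨?_, ?_⟩, s, t, hs, ht, hst, ?_⟩
    · simpa [rr_castAdd] using ha
    · intro j; simp [rr_natAdd]
    · intro j; simp [rr_castAdd]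
    · simpa [rr_natAdd] using hb
    · simp only [add_zero]
      rw [← map_smul, ← map_smul, ← map_add]
      congr 1
      funext i
      rcases i with i | i
      · have := congrFun hax i
        simpa using this
      · have := congrFun hbx i
        simpa using this

theorem isoConst_le_iff {n : ℕ} (hn : 1 ≤ n) {K : Set (Fin n → ℝ)} (hK : IsBody K) :
    SIC K ↔ D K ≤ fS n := by
  have hs : ∀ Δ : Set (Fin n → ℝ), IsSimplex Δ → D Δ = fS n := by
    rintro Δ ⟨p, hp, rfl⟩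
    exact D_simplex hn p hp
  have hex : ∃ Δ : Set (Fin n → ℝ), IsSimplex Δ := by
    obtain ⟨p, hp⟩ : ∃ p : Fin (n + 1) → (Fin n → ℝ), AffineIndependent ℝ p := by
      have h := (Pi.basisFun ℝ (Fin n)).linearIndependent
      let p : Fin (n + 1) → (Fin n → ℝ) := Fin.cons 0 (fun i => Pi.single i 1)
      refine ⟨p, ?_⟩
      rw [affineIndependent_iff_linearIndependent_vsub ℝ _ (0 : Fin (n + 1))]
      rw [← linearIndependent_equiv (finSuccAboveEquiv (0 : Fin (n + 1)))]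
      have e : ((fun i : {x // x ≠ (0 : Fin (n + 1))} => p i -ᵥ p 0) ∘
          (finSuccAboveEquiv (0 : Fin (n + 1)))) = ⇑(Pi.basisFun ℝ (Fin n)) := by
        funext i
        have h1 : ((finSuccAboveEquiv (0 : Fin (n + 1)) i : {x // x ≠ (0 : Fin (n + 1))}) :
            Fin (n + 1)) = i.succ := by
          simp [finSuccAboveEquiv_apply]
        simp only [Function.comp_apply, h1, Pi.basisFun_apply]
        simp [p]
      rw [e]
      exact h
    exact ⟨_, p, hp, rfl⟩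
  have hpos := D_pos hK
  have hf := fS_pos n
  have hexp : (0 : ℝ) < 1 / (2 * (Fintype.card (Fin n) : ℝ)) := by
    simp only [Fintype.card_fin]
    have : (0 : ℝ) < n := by exact_mod_cast hn
    positivity
  constructor
  · intro h
    obtain ⟨Δ, hΔ⟩ := hex
    have h1 := h Δ hΔ
    unfold isoConst at h1
    rw [hs Δ hΔ] at h1
    exact (Real.rpow_le_rpow_iff hpos.le hf.le hexp).1 h1
  · intro h Δ hΔ
    unfold isoConst
    rw [hs Δ hΔ]
    exact Real.rpow_le_rpow hpos.le h hexp.le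

/-- (A) polytopes with at most `n + 2` vertices, with the equality case -/
theorem points_sic {n : ℕ} (hn : 1 ≤ n) (V : Fin (n + 2) → (Fin n → ℝ))
    (hV : (interior (convexHull ℝ (range V))).Nonempty) :
    SIC (convexHull ℝ (range V)) ∧
      ∀ Δ : Set (Fin n → ℝ), IsSimplex Δ →
        isoConst (convexHull ℝ (range V)) = isoConst Δ → IsSimplex (convexHull ℝ (range V)) := by
  have hB : IsBody (convexHull ℝ (range V)) :=
    ⟨convex_convexHull ℝ _, (finite_range V).isCompact_convexHull ℝ, hV⟩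
  have hs : ∀ Δ : Set (Fin n → ℝ), IsSimplex Δ → D Δ = fS n := by
    rintro Δ ⟨p, hp, rfl⟩
    exact D_simplex hn p hp
  have hexp : (0 : ℝ) < 1 / (2 * (Fintype.card (Fin n) : ℝ)) := by
    simp only [Fintype.card_fin]
    have : (0 : ℝ) < n := by exact_mod_cast hn
    positivity
  rcases D_points hn V hV with ⟨p, hp, h⟩ | h
  · refine ⟨(isoConst_le_iff hn hB).2 ?_, fun _ _ _ => ⟨p, hp, h⟩⟩
    rw [h, D_simplex hn p hp]
  · refine ⟨(isoConst_le_iff hn hB).2 h.le, fun Δ hΔ he => ?_⟩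
    exfalso
    unfold isoConst at he
    rw [hs Δ hΔ] at he
    exact absurd he (Real.rpow_lt_rpow (D_pos hB).le h hexp).ne

theorem fsum_body {k m : ℕ} {K : Set (Fin k → ℝ)} {L : Set (Fin m → ℝ)} (hK : IsBody K)
    (hL : IsBody L) (h0 : (0 : Fin k → ℝ) ∈ K) (h0' : (0 : Fin m → ℝ) ∈ L) :
    IsBody (fsum K L) := by
  rw [fsum_eq hK.conv hL.conv h0 h0']
  exact (freeSum_body hK h0 hL h0').affine _ _

theorem cprod_body {k m : ℕ} {K : Set (Fin k → ℝ)} {L : Set (Fin m → ℝ)} (hK : IsBody K)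
    (hL : IsBody L) : IsBody (cprod K L) := by
  rw [cprod_eq]
  exact (prodBody_body hK hL).affine _ _

/-- (B) free sums -/
theorem fsum_sic {k m : ℕ} (hk : 1 ≤ k) (hm : 1 ≤ m) {K : Set (Fin k → ℝ)}
    {L : Set (Fin m → ℝ)} (hK : IsBody K) (hL : IsBody L) (h0 : (0 : Fin k → ℝ) ∈ K)
    (h0' : (0 : Fin m → ℝ) ∈ L) (h1 : SIC K) (h2 : SIC L) : SIC (fsum K L) := by
  have : Nonempty (Fin k) := ⟨⟨0, hk⟩⟩
  have : Nonempty (Fin m) := ⟨⟨0, hm⟩⟩
  rw [isoConst_le_iff (by omega) (fsum_body hK hL h0 h0'), fsum_eq hK.conv hL.conv h0 h0',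
    D_affine _ _ (freeSum_body hK h0 hL h0')]
  have h1' := (isoConst_le_iff hk hK).1 h1
  have h2' := (isoConst_le_iff hm hL).1 h2
  simpa using D_freeSum_le hK h0 hL h0' (by simpa using h1') (by simpa using h2')

/-- (C) Cartesian products -/
theorem cprod_sic {k m : ℕ} (hk : 1 ≤ k) (hm : 1 ≤ m) {K : Set (Fin k → ℝ)}
    {L : Set (Fin m → ℝ)} (hK : IsBody K) (hL : IsBody L) (h1 : SIC K) (h2 : SIC L) :
    SIC (cprod K L) := by
  rw [isoConst_le_iff (by omega) (cprod_body hK hL), cprod_eq,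
    D_affine _ _ (prodBody_body hK hL), D_prod hK hL]
  have h1' := (isoConst_le_iff hk hK).1 h1
  have h2' := (isoConst_le_iff hm hL).1 h2
  exact (mul_le_mul h1' h2' (D_pos hL).le (fS_pos k).le).trans (fS_mul_le k m)

theorem affine_sic {n : ℕ} (hn : 1 ≤ n) (e : (Fin n → ℝ) ≃ₗ[ℝ] (Fin n → ℝ)) (c : Fin n → ℝ)
    {K : Set (Fin n → ℝ)} (hK : IsBody K) (h : SIC K) : SIC ((fun x => e x + c) '' K) := by
  rw [isoConst_le_iff hn (hK.affine e c), D_affine e c hK]
  exact (isoConst_le_iff hn hK).1 h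

theorem segment_eq : {x : Fin 1 → ℝ | 0 ≤ x 0 ∧ x 0 ≤ 1} = T 1 := by
  ext x
  simp [T]

/-- (D) the generated class -/
theorem gen_sic {n : ℕ} {K : Set (Fin n → ℝ)} (h : Gen n K) : 1 ≤ n ∧ IsBody K ∧ SIC K := by
  induction h with
  | segment =>
    rw [segment_eq]
    exact ⟨le_rfl, T_body 1, (isoConst_le_iff le_rfl (T_body 1)).2 (D_T 1 le_rfl).le⟩
  | affine e c _ ih => exact ⟨ih.1, ih.2.1.affine e c, affine_sic ih.1 e c ih.2.1 ih.2.2⟩
  | prod _ _ ih1 ih2 =>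
    exact ⟨by have := ih1.1; omega, cprod_body ih1.2.1 ih2.2.1,
      cprod_sic ih1.1 ih2.1 ih1.2.1 ih2.2.1 ih1.2.2 ih2.2.2⟩
  | free _ _ h0 h0' ih1 ih2 =>
    exact ⟨by have := ih1.1; omega, fsum_body ih1.2.1 ih2.2.1 h0 h0',
      fsum_sic ih1.1 ih2.1 ih1.2.1 ih2.2.1 h0 h0' ih1.2.2 ih2.2.2⟩

end P254
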