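import Mathlib
import Vale.Agent.P254.Basic

namespace P254

/-- the strong isotropic constant conjecture for the body `K`: its isotropic constant is at most
that of every `n`-simplex, with equality only if `K` is an `n`-simplex -/
def SSIC {n : ℕ} (K : Set (Fin n → ℝ)) : Prop :=
  ∀ Δ : Set (Fin n → ℝ), IsSimplex Δ →
    isoConst K ≤ isoConst Δ ∧ (isoConst K = isoConst Δ → IsSimplex K)

end P254
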