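import Mathlib
import Vale.Agent.P254.Main
import Vale.Agent.P254.StrongDefs
import Vale.Agent.P254.FSb

/-! P254: closure with the equality case. -/

namespace P254

open MeasureTheory Set Matrix
open scoped Pointwise Nat

theorem exists_simplex (n : ℕ) : ∃ Δ : Set (Fin n → ℝ), IsSimplex Δ := by
  obtain ⟨p, hp⟩ : ∃ p : Fin (n + 1) → (Fin n → ℝ), AffineIndependent ℝ p := by
    have h := (Pi.basisFun ℝ (Fin n)).linearIndependent
    let p : Fin (n + 1) → (Fin n → ℝ) := Fin.cons 0 (fun i => Pi.single i 1)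
    refine ⟨p, ?_⟩
    rw [affineIndependent_iff_linearIndependent_vsub ℝ _ (0 : Fin (n + 1))]
    rw [← linearIndependent_equiv (finSuccAboveEquiv (0 : Fin (n + 1)))]
    have e : ((fun i : {x // x ≠ (0 : Fin (n + 1))} => p i -ᵥ p 0) ∘
        (finSuccAboveEquiv (0 : Fin (n + 1)))) = ⇑(Pi.basisFun ℝ (Fin n)) := by
      funext i
      have h1 : ((finSuccAboveEquiv (0 : Fin (n + 1)) i : {x // x ≠ (0 : Fin (n + 1))}) :
          Fin (n + 1)) = i.succ := by
        simp [finSuccAboveEquiv_apply]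
      simp only [Function.comp_apply, h1, Pi.basisFun_apply]
      simp [p]
    rw [e]
    exact h
  exact ⟨_, p, hp, rfl⟩

theorem D_isSimplex {n : ℕ} (hn : 1 ≤ n) {Δ : Set (Fin n → ℝ)} (h : IsSimplex Δ) : D Δ = fS n := by
  obtain ⟨p, hp, rfl⟩ := h
  exact D_simplex hn p hp

theorem ssic_iff {n : ℕ} (hn : 1 ≤ n) {K : Set (Fin n → ℝ)} (hK : IsBody K) :
    SSIC K ↔ (D K ≤ fS n ∧ (D K = fS n → IsSimplex K)) := by
  have hpos := D_pos hK
  have hf := fS_pos n
  have hexp : (0 : ℝ) < 1 / (2 * (Fintype.card (Fin n) : ℝ)) := by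
    simp only [Fintype.card_fin]
    have : (0 : ℝ) < n := by exact_mod_cast hn
    positivity
  have hiso : ∀ Δ : Set (Fin n → ℝ), IsSimplex Δ → (isoConst K = isoConst Δ ↔ D K = fS n) := by
    intro Δ hΔ
    unfold isoConst
    rw [D_isSimplex hn hΔ]
    exact ⟨fun h => (Real.rpow_left_inj hpos.le hf.le hexp.ne').1 h, fun h => by rw [h]⟩
  constructor
  · intro h
    refine ⟨(isoConst_le_iff hn hK).1 (fun Δ hΔ => (h Δ hΔ).1), fun he => ?_⟩
    obtain ⟨Δ, hΔ⟩ := exists_simplex n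
    exact (h Δ hΔ).2 ((hiso Δ hΔ).2 he)
  · intro h Δ hΔ
    exact ⟨(isoConst_le_iff hn hK).2 h.1 Δ hΔ, fun he => h.2 ((hiso Δ hΔ).1 he)⟩

theorem points_ssic {n : ℕ} (hn : 1 ≤ n) (V : Fin (n + 2) → (Fin n → ℝ))
    (hV : (interior (convexHull ℝ (range V))).Nonempty) : SSIC (convexHull ℝ (range V)) := by
  intro Δ hΔ
  have h := points_sic hn V hV
  exact ⟨h.1 Δ hΔ, h.2 Δ hΔ⟩

/-- the free sum of two simplices is the convex hull of `n + 2` points -/
theorem fsum_simplices {k m : ℕ} {K : Set (Fin k → ℝ)} {L : Set (Fin m → ℝ)}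
    (hK : IsSimplex K) (hL : IsSimplex L) :
    ∃ V : Fin (k + m + 2) → (Fin (k + m) → ℝ), fsum K L = convexHull ℝ (range V) := by
  obtain ⟨p, _, rfl⟩ := hK
  obtain ⟨p', _, rfl⟩ := hL
  let i1 : (Fin k → ℝ) →ₗ[ℝ] (Fin (k + m) → ℝ) :=
    (rr k m).toLinearMap ∘ₗ LinearMap.pi (fun s => Sum.elim (fun i => LinearMap.proj i) (fun _ => 0) s)
  let i2 : (Fin m → ℝ) →ₗ[ℝ] (Fin (k + m) → ℝ) :=
    (rr k m).toLinearMap ∘ₗ LinearMap.pi (fun s => Sum.elim (fun _ => 0) (fun i => LinearMap.proj i) s)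
  have hi1 : ∀ x, i1 x = rr k m (Sum.elim x 0) := by
    intro x
    simp only [i1, LinearMap.comp_apply, LinearEquiv.coe_coe]
    congr 1
    funext s
    rcases s with s | s <;> simp
  have hi2 : ∀ x, i2 x = rr k m (Sum.elim 0 x) := by
    intro x
    simp only [i2, LinearMap.comp_apply, LinearEquiv.coe_coe]
    congr 1
    funext s
    rcases s with s | s <;> simp
  have hA : {z : Fin (k + m) → ℝ | (fun i => z (Fin.castAdd m i)) ∈ convexHull ℝ (range p) ∧
      ∀ j, z (Fin.natAdd k j) = 0} = convexHull ℝ (range (i1 ∘ p)) := by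
    rw [range_comp, ← LinearMap.image_convexHull]
    ext z
    constructor
    · rintro ⟨h1, h2⟩
      refine ⟨_, h1, ?_⟩
      rw [hi1]
      obtain ⟨x, rfl⟩ := (rr k m).surjective z
      congr 1
      funext s
      rcases s with s | s
      · simp [rr_castAdd]
      · have := h2 s
        rw [rr_natAdd] at this
        simp [this]
    · rintro ⟨x, hx, rfl⟩
      rw [hi1]
      refine ⟨?_, fun j => ?_⟩
      · simpa [rr_castAdd] using hx
      · simp [rr_natAdd]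
  have hB : {z : Fin (k + m) → ℝ | (∀ i, z (Fin.castAdd m i) = 0) ∧
      (fun j => z (Fin.natAdd k j)) ∈ convexHull ℝ (range p')} = convexHull ℝ (range (i2 ∘ p')) := by
    rw [range_comp, ← LinearMap.image_convexHull]
    ext z
    constructor
    · rintro ⟨h1, h2⟩
      refine ⟨_, h2, ?_⟩
      rw [hi2]
      obtain ⟨x, rfl⟩ := (rr k m).surjective z
      congr 1
      funext s
      rcases s with s | s
      · have := h1 s
        rw [rr_castAdd] at this
        simp [this]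
      · simp [rr_natAdd]
    · rintro ⟨x, hx, rfl⟩
      rw [hi2]
      refine ⟨fun j => ?_, ?_⟩
      · simp [rr_castAdd]
      · simpa [rr_natAdd] using hx
  have e : Fin (k + m + 2) ≃ Fin (k + 1) ⊕ Fin (m + 1) :=
    (finCongr (by omega)).trans finSumFinEquiv.symm
  refine ⟨Sum.elim (i1 ∘ p) (i2 ∘ p') ∘ e, ?_⟩
  unfold fsum
  rw [hA, hB, convexHull_convexHull_union_left, convexHull_convexHull_union_right,
    e.surjective.range_comp, Set.Sum.elim_range]

theorem fsum_ssic {k m : ℕ} (hk : 1 ≤ k) (hm : 1 ≤ m) {K : Set (Fin k → ℝ)}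
    {L : Set (Fin m → ℝ)} (hK : IsBody K) (hL : IsBody L) (h0 : (0 : Fin k → ℝ) ∈ K)
    (h0' : (0 : Fin m → ℝ) ∈ L) (h1 : SSIC K) (h2 : SSIC L) : SSIC (fsum K L) := by
  have : Nonempty (Fin k) := ⟨⟨0, hk⟩⟩
  have : Nonempty (Fin m) := ⟨⟨0, hm⟩⟩
  have h1' := (ssic_iff hk hK).1 h1
  have h2' := (ssic_iff hm hL).1 h2
  have hB := fsum_body hK hL h0 h0'
  have hle := fsum_sic hk hm hK hL h0 h0' (fun Δ hΔ => (h1 Δ hΔ).1) (fun Δ hΔ => (h2 Δ hΔ).1)
  rw [ssic_iff (by omega) hB]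
  refine ⟨(isoConst_le_iff (by omega) hB).1 hle, fun he => ?_⟩
  -- both factors are extremal
  have hD : D (fsum K L) = D (freeSum K L) := by
    rw [fsum_eq hK.conv hL.conv h0 h0', D_affine _ _ (freeSum_body hK h0 hL h0')]
  have e := D_freeSum hK h0 hL h0'
  simp only [Fintype.card_fin] at e
  have hp := one_le_pp hK h0
  have hq := one_le_pp hL h0'
  have f1 := fS_pos k
  have f2 := fS_pos m
  have f3 := fS_pos (k + m)
  have a1 : D K / fS k ≤ 1 := (div_le_one f1).2 h1'.1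
  have a2 : D L / fS m ≤ 1 := (div_le_one f2).2 h2'.1
  have b1 : 0 < D K / fS k := div_pos (D_pos hK) f1
  have b2 : 0 < D L / fS m := div_pos (D_pos hL) f2
  have hr : (pp K + pp L - 1) / (pp K * pp L) ≤ 1 := by
    rw [div_le_one (by positivity)]
    nlinarith [mul_nonneg (sub_nonneg.2 hp) (sub_nonneg.2 hq)]
  have hr0 : 0 ≤ (pp K + pp L - 1) / (pp K * pp L) := by
    apply div_nonneg <;> [linarith; positivity]
  rw [← hD, he, div_self f3.ne'] at e
  have hprod : 1 ≤ (D K / fS k) * (D L / fS m) := by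
    calc (1 : ℝ) = (D K / fS k) * (D L / fS m) * ((pp K + pp L - 1) / (pp K * pp L)) := e
      _ ≤ (D K / fS k) * (D L / fS m) * 1 :=
        mul_le_mul_of_nonneg_left hr (by positivity)
      _ = _ := mul_one _
  have c1 : D K / fS k = 1 := by
    apply le_antisymm a1
    nlinarith
  have c2 : D L / fS m = 1 := by
    apply le_antisymm a2
    nlinarith
  have sK := h1'.2 ((div_eq_one_iff_eq f1.ne').1 c1)
  have sL := h2'.2 ((div_eq_one_iff_eq f2.ne').1 c2)
  obtain ⟨V, hV⟩ := fsum_simplices sK sL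
  have hint : (interior (convexHull ℝ (range V))).Nonempty := by
    rw [← hV]; exact hB.int
  rcases D_points (by omega) V hint with ⟨p, hp', hh⟩ | hlt
  · exact ⟨p, hp', by rw [hV, hh]⟩
  · rw [← hV, he] at hlt
    exact absurd hlt (lt_irrefl _)

theorem cprod_ssic {k m : ℕ} (hk : 1 ≤ k) (hm : 1 ≤ m) {K : Set (Fin k → ℝ)}
    {L : Set (Fin m → ℝ)} (hK : IsBody K) (hL : IsBody L) (h1 : SSIC K) (h2 : SSIC L) :
    SSIC (cprod K L) := by
  have h1' := (ssic_iff hk hK).1 h1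
  have h2' := (ssic_iff hm hL).1 h2
  have hlt : D (cprod K L) < fS (k + m) := by
    rw [cprod_eq, D_affine _ _ (prodBody_body hK hL), D_prod hK hL]
    exact (mul_le_mul h1'.1 h2'.1 (D_pos hL).le (fS_pos k).le).trans_lt (fS_mul_lt k m hk hm)
  rw [ssic_iff (by omega) (cprod_body hK hL)]
  exact ⟨hlt.le, fun he => absurd he hlt.ne⟩

theorem simplex_affine {n : ℕ} (e : (Fin n → ℝ) ≃ₗ[ℝ] (Fin n → ℝ)) (c : Fin n → ℝ)
    {K : Set (Fin n → ℝ)} (h : IsSimplex K) : IsSimplex ((fun x => e x + c) '' K) := by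
  obtain ⟨p, hp, rfl⟩ := h
  let f : (Fin n → ℝ) →ᵃ[ℝ] (Fin n → ℝ) := e.toLinearMap.toAffineMap + AffineMap.const ℝ _ c
  have hf : ⇑f = fun x => e x + c := by
    funext x; simp [f]
  refine ⟨f ∘ p, ?_, ?_⟩
  · apply hp.map'
    rw [hf]
    intro x y hxy
    exact e.injective (add_right_cancel hxy)
  · rw [range_comp, ← AffineMap.image_convexHull, hf]

theorem affine_ssic {n : ℕ} (hn : 1 ≤ n) (e : (Fin n → ℝ) ≃ₗ[ℝ] (Fin n → ℝ)) (c : Fin n → ℝ)
    {K : Set (Fin n → ℝ)} (hK : IsBody K) (h : SSIC K) : SSIC ((fun x => e x + c) '' K) := by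
  rw [ssic_iff hn (hK.affine e c), D_affine e c hK]
  have h' := (ssic_iff hn hK).1 h
  exact ⟨h'.1, fun he => simplex_affine e c (h'.2 he)⟩

theorem T_isSimplex (n : ℕ) : IsSimplex (T n) := by
  obtain ⟨Δ, p, hp, rfl⟩ := exists_simplex n
  obtain ⟨e, c, h⟩ := simplex_image p hp
  have h2 : IsSimplex ((fun x => e x + c) '' T n) := ⟨p, hp, h.symm⟩
  have h3 := simplex_affine e.symm (-(e.symm c)) h2
  convert h3
  rw [← image_comp]
  ext x
  simp [Function.comp_def]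

theorem gen_ssic {n : ℕ} {K : Set (Fin n → ℝ)} (h : Gen n K) : 1 ≤ n ∧ IsBody K ∧ SSIC K := by
  induction h with
  | segment =>
    rw [segment_eq]
    exact ⟨le_rfl, T_body 1, (ssic_iff le_rfl (T_body 1)).2 ⟨(D_T 1 le_rfl).le,
      fun _ => T_isSimplex 1⟩⟩
  | affine e c _ ih => exact ⟨ih.1, ih.2.1.affine e c, affine_ssic ih.1 e c ih.2.1 ih.2.2⟩
  | prod _ _ ih1 ih2 =>
    exact ⟨by have := ih1.1; omega, cprod_body ih1.2.1 ih2.2.1,
      cprod_ssic ih1.1 ih2.1 ih1.2.1 ih2.2.1 ih1.2.2 ih2.2.2⟩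
  | free _ _ h0 h0' ih1 ih2 =>
    exact ⟨by have := ih1.1; omega, fsum_body ih1.2.1 ih2.2.1 h0 h0',
      fsum_ssic ih1.1 ih2.1 ih1.2.1 ih2.2.1 h0 h0' ih1.2.2 ih2.2.2⟩

end P254
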