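import Mathlib
import Vale.Agent.P254.Strong
import Vale.Agent.P254.Pyr
import Vale.Agent.P254.Amp
import Vale.Agent.P254.Lower
import Vale.Agent.P254.Limit

/-! P254: dimension reduction and the asymptotic form of the conjecture. -/

namespace P254

open MeasureTheory Set Matrix
open scoped Pointwise Nat

theorem D_pyr {n : ℕ} (hn : 1 ≤ n) {K : Set (Fin n → ℝ)} (hK : IsBody K)
    (h0 : (0 : Fin n → ℝ) ∈ K) : D (freeSum K (T 1)) / fS (n + 1) = D K / fS n := by
  have : Nonempty (Fin n) := ⟨⟨0, hn⟩⟩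
  have hT0 : (0 : Fin 1 → ℝ) ∈ T 1 := ⟨fun i => le_rfl, by simp⟩
  have h := D_freeSum hK h0 (T_body 1) hT0
  have hp := one_le_pp hK h0
  have hT : D (T 1) = fS 1 := D_T 1 le_rfl
  have hf : fS 1 ≠ 0 := (fS_pos 1).ne'
  simp only [Fintype.card_fin] at h
  rw [h, pp_T1, hT, div_self hf]
  have : pp K ≠ 0 := by linarith
  field_simp
  ring

/-- the assertion of Q1 in dimension `n + 1` implies the one in dimension `n` -/
theorem step_down {n : ℕ} (hn : 1 ≤ n)
    (h : ∀ K : Set (Fin (n + 1) → ℝ), IsBody K → SSIC K) :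
    ∀ K : Set (Fin n → ℝ), IsBody K → SSIC K := by
  intro K hK
  obtain ⟨a, ha⟩ := hK.int
  have haK : a ∈ K := interior_subset ha
  obtain ⟨h1, h2⟩ := D_translate hK a
  set K0 : Set (Fin n → ℝ) := (fun x => x - a) '' K with hK0
  have h0 : (0 : Fin n → ℝ) ∈ K0 := ⟨a, haK, by simp⟩
  have hT0 : (0 : Fin 1 → ℝ) ∈ T 1 := ⟨fun i => le_rfl, by simp⟩
  have hFb : IsBody (freeSum K0 (T 1)) := freeSum_body h1 h0 (T_body 1) hT0
  have hPb : IsBody ((fun x => rr n 1 x + 0) '' freeSum K0 (T 1)) := hFb.affine _ _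
  have hPD : D ((fun x => rr n 1 x + 0) '' freeSum K0 (T 1)) = D (freeSum K0 (T 1)) :=
    D_affine _ _ hFb
  have hs := (ssic_iff (by omega) hPb).1 (h _ hPb)
  have hr := D_pyr hn h1 h0
  have hf := fS_pos n
  have hf1 := fS_pos (n + 1)
  rw [hPD] at hs
  rw [h2] at hr
  rw [ssic_iff hn hK]
  constructor
  · have h3 : D (freeSum K0 (T 1)) / fS (n + 1) ≤ 1 := (div_le_one hf1).2 hs.1
    rw [hr] at h3
    exact (div_le_one hf).1 h3
  · intro he
    have h3 : D (freeSum K0 (T 1)) = fS (n + 1) := by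
      rw [he, div_self hf.ne'] at hr
      exact (div_eq_one_iff_eq hf1.ne').1 hr
    obtain ⟨p, hp, hpe⟩ := hs.2 h3
    have h4 : freeSum K0 (T 1) = convexHull ℝ (range (fun i => (rr n 1).symm (p i))) := by
      have h5 : (rr n 1).symm.toLinearMap '' ((fun x => rr n 1 x + 0) '' freeSum K0 (T 1))
          = freeSum K0 (T 1) := by
        rw [image_image]
        simp
      rw [← h5, hpe, LinearMap.image_convexHull, ← range_comp]
      rfl
    obtain ⟨q, hq, hqe⟩ := base_simplex h1 h0 _ h4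
    have h6 : IsSimplex K0 := ⟨q, hq, hqe⟩
    have h7 := simplex_affine (LinearEquiv.refl ℝ (Fin n → ℝ)) a h6
    have h8 : (fun x => (LinearEquiv.refl ℝ (Fin n → ℝ)) x + a) '' K0 = K := by
      rw [hK0, image_image]
      simp
    rwa [h8] at h7

theorem isoConst_pow {N : ℕ} (hN : 1 ≤ N) {C : Set (Fin N → ℝ)} (hC : IsBody C) :
    isoConst C ^ (2 * N) = D C := by
  unfold isoConst
  have h0 := (D_pos hC).le
  rw [← Real.rpow_natCast, ← Real.rpow_mul h0]
  have : (1 : ℝ) / (2 * (Fintype.card (Fin N) : ℝ)) * ((2 * N : ℕ) : ℝ) = 1 := by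
    simp only [Fintype.card_fin]
    have : (N : ℝ) ≠ 0 := by positivity
    push_cast
    field_simp
  rw [this, Real.rpow_one]

theorem isoConst_nonneg {N : ℕ} {C : Set (Fin N → ℝ)} (hC : IsBody C) : 0 ≤ isoConst C :=
  Real.rpow_nonneg (D_pos hC).le _

/-- the asymptotic bound implies the sharp inequality in every dimension -/
theorem of_liminf (h : ∀ ε : ℝ, 0 < ε → ∀ N0 : ℕ, ∃ N ≥ N0, ∀ K : Set (Fin N → ℝ),
      IsBody K → isoConst K ≤ Real.exp (-1) + ε) :
    ∀ n : ℕ, 1 ≤ n → ∀ K : Set (Fin n → ℝ), IsBody K → SIC K := by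
  intro n hn K hK
  rw [isoConst_le_iff hn hK]
  have hf := fS_pos n
  have hρ : 0 < D K / fS n := div_pos (D_pos hK) hf
  have key := amp_limit (D K / fS n) hρ n (fun ε hε N0 => by
    obtain ⟨N, hN, hb⟩ := h ε hε (max N0 (n + 1))
    have hN1 : N0 ≤ N := le_trans (le_max_left _ _) hN
    have hN2 : n + 1 ≤ N := le_trans (le_max_right _ _) hN
    refine ⟨N, hN1, ?_⟩
    have hm : 1 ≤ N / (n + 1) := Nat.div_pos hN2 (by omega)
    obtain ⟨C, hC, hCD⟩ := amplify hn hK (N / (n + 1)) N hm (Nat.div_mul_le_self N (n + 1))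
    rw [← hCD, ← isoConst_pow (by omega) hC]
    exact pow_le_pow_left₀ (isoConst_nonneg hC) (hb C hC) _)
  exact (div_le_one hf).1 key

/-- the sharp inequality implies the dimension-free bound `1/e` -/
theorem to_univ {n : ℕ} (hn : 1 ≤ n) {K : Set (Fin n → ℝ)} (hK : IsBody K) (h : SIC K) :
    isoConst K ≤ Real.exp (-1) := by
  have h1 := (isoConst_le_iff hn hK).1 h
  have h2 := fS_upper n hn
  have h3 := isoConst_pow hn hK
  have h4 : isoConst K ^ (2 * n) ≤ Real.exp (-1) ^ (2 * n) := by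
    rw [h3, ← Real.exp_nat_mul]
    refine h1.trans (h2.trans (le_of_eq ?_))
    congr 1
    push_cast
    ring
  exact le_of_pow_le_pow_left₀ (by omega) (Real.exp_pos _).le h4

end P254
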