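import Mathlib
import Vale.Agent.P254.Limit

namespace P254

theorem fS_pos2 (n : ℕ) : 0 < fS n := by
  unfold fS; positivity

theorem amp_limit2 (ρ c : ℝ) (hρ : 0 < ρ) (hc : 0 < c) (n : ℕ)
    (h : ∀ ε : ℝ, 0 < ε → ∀ N0 : ℕ, ∃ N ≥ N0,
      ρ ^ (N / (n + 1)) * fS N ≤ (c + ε) ^ (2 * N)) :
    ρ ≤ (Real.exp 1 * c) ^ (2 * (n + 1)) := by
  set t : ℝ := Real.exp 1 * c with ht
  have ht0 : 0 < t := mul_pos (Real.exp_pos 1) hc
  have hee : Real.exp 1 * Real.exp (-1) = 1 := by rw [← Real.exp_add]; norm_num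
  have hT : 0 < t ^ (2 * (n + 1)) := pow_pos ht0 _
  have key := amp_limit (ρ / t ^ (2 * (n + 1))) (div_pos hρ hT) n (fun ε hε N0 => by
    set M : ℝ := max 1 t ^ (2 * n) with hM
    set q : ℝ := (Real.exp (-1) + ε) / (Real.exp (-1) + ε / 2) with hq
    have he := Real.exp_pos (-1 : ℝ)
    have hden : 0 < Real.exp (-1) + ε / 2 := by positivity
    have hq1 : 1 < q := by
      rw [hq, one_lt_div hden]; linarith
    obtain ⟨N1, hN1⟩ := pow_unbounded_of_one_lt M hq1
    obtain ⟨N, hN, hb⟩ := h (t * (ε / 2)) (by positivity) (max N0 N1)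
    have hN0 : N0 ≤ N := le_trans (le_max_left _ _) hN
    have hN1' : N1 ≤ N := le_trans (le_max_right _ _) hN
    refine ⟨N, hN0, ?_⟩
    set m : ℕ := N / (n + 1) with hm
    have hdiv : (n + 1) * m + N % (n + 1) = N := Nat.div_add_mod N (n + 1)
    have hr : N % (n + 1) ≤ n := Nat.lt_succ_iff.1 (Nat.mod_lt N (Nat.succ_pos n))
    have h1 : c + t * (ε / 2) = t * (Real.exp (-1) + ε / 2) := by
      rw [mul_add, ht]
      have : Real.exp 1 * c * Real.exp (-1) = (Real.exp 1 * Real.exp (-1)) * c := by ring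
      rw [this, hee, one_mul]
    rw [h1, mul_pow] at hb
    have h2 : t ^ (2 * N) = (t ^ (2 * (n + 1))) ^ m * t ^ (2 * (N % (n + 1))) := by
      rw [← pow_mul, ← pow_add]
      congr 1
      conv_lhs => rw [← hdiv]
      ring
    have h3 : t ^ (2 * (N % (n + 1))) ≤ M := by
      have h4 : t ^ (2 * (N % (n + 1))) ≤ max 1 t ^ (2 * (N % (n + 1))) :=
        pow_le_pow_left₀ ht0.le (le_max_right _ _) _
      have h5 : max 1 t ^ (2 * (N % (n + 1))) ≤ max 1 t ^ (2 * n) :=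
        pow_le_pow_right₀ (le_max_left _ _) (by omega)
      exact h4.trans h5
    have h6 : M * (Real.exp (-1) + ε / 2) ^ (2 * N) ≤ (Real.exp (-1) + ε) ^ (2 * N) := by
      have h7 : M ≤ q ^ (2 * N) := by
        refine hN1.le.trans (pow_le_pow_right₀ hq1.le (by omega))
      have h8 : q ^ (2 * N) * (Real.exp (-1) + ε / 2) ^ (2 * N)
          = (Real.exp (-1) + ε) ^ (2 * N) := by
        rw [← mul_pow, hq, div_mul_cancel₀ _ hden.ne']
      rw [← h8]
      exact mul_le_mul_of_nonneg_right h7 (by positivity)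
    rw [div_pow, div_mul_eq_mul_div, div_le_iff₀ (pow_pos hT m)]
    calc ρ ^ m * fS N ≤ t ^ (2 * N) * (Real.exp (-1) + ε / 2) ^ (2 * N) := hb
      _ = t ^ (2 * (N % (n + 1))) * (Real.exp (-1) + ε / 2) ^ (2 * N)
          * (t ^ (2 * (n + 1))) ^ m := by rw [h2]; ring
      _ ≤ M * (Real.exp (-1) + ε / 2) ^ (2 * N) * (t ^ (2 * (n + 1))) ^ m := by
          apply mul_le_mul_of_nonneg_right _ (by positivity)
          exact mul_le_mul_of_nonneg_right h3 (by positivity)
      _ ≤ (Real.exp (-1) + ε) ^ (2 * N) * (t ^ (2 * (n + 1))) ^ m :=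
          mul_le_mul_of_nonneg_right h6 (by positivity))
  exact (div_le_one hT).1 key

end P254
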