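import Mathlib
import Vale.Agent.P254.Asym
import Vale.Agent.P254.Limit2

/-! P254: quantitative form of the asymptotic reduction. -/

namespace P254

open MeasureTheory Set Matrix
open scoped Pointwise Nat

theorem of_liminf_c (c : ℝ) (hc : 0 < c)
    (h : ∀ ε : ℝ, 0 < ε → ∀ N0 : ℕ, ∃ N ≥ N0, ∀ K : Set (Fin N → ℝ),
      IsBody K → isoConst K ≤ c + ε) :
    ∀ n : ℕ, 1 ≤ n → ∀ K : Set (Fin n → ℝ), IsBody K → ∀ Δ : Set (Fin n → ℝ), IsSimplex Δ →
      isoConst K ≤ (Real.exp 1 * c) ^ (1 + 1 / (n : ℝ)) * isoConst Δ := by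
  intro n hn K hK Δ hΔ
  have hf := fS_pos n
  have hρ : 0 < D K / fS n := div_pos (D_pos hK) hf
  have key := amp_limit2 (D K / fS n) c hρ hc n (fun ε hε N0 => by
    obtain ⟨N, hN, hb⟩ := h ε hε (max N0 (n + 1))
    have hN1 : N0 ≤ N := le_trans (le_max_left _ _) hN
    have hN2 : n + 1 ≤ N := le_trans (le_max_right _ _) hN
    refine ⟨N, hN1, ?_⟩
    have hm : 1 ≤ N / (n + 1) := Nat.div_pos hN2 (by omega)
    obtain ⟨C, hC, hCD⟩ := amplify hn hK (N / (n + 1)) N hm (Nat.div_mul_le_self N (n + 1))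
    rw [← hCD, ← isoConst_pow (by omega) hC]
    exact pow_le_pow_left₀ (isoConst_nonneg hC) (hb C hC) _)
  have ht : 0 < Real.exp 1 * c := mul_pos (Real.exp_pos 1) hc
  have h1 : D K ≤ (Real.exp 1 * c) ^ (2 * (n + 1)) * D Δ := by
    rw [D_isSimplex hn hΔ]
    exact (div_le_iff₀ hf).1 key
  have hDΔ : 0 < D Δ := by rw [D_isSimplex hn hΔ]; exact hf
  have hn0 : (n : ℝ) ≠ 0 := by positivity
  unfold isoConst
  have h2 : (0 : ℝ) ≤ 1 / (2 * (Fintype.card (Fin n) : ℝ)) := by positivity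
  refine (Real.rpow_le_rpow (D_pos hK).le h1 h2).trans (le_of_eq ?_)
  rw [Real.mul_rpow (by positivity) hDΔ.le, ← Real.rpow_natCast (Real.exp 1 * c),
    ← Real.rpow_mul ht.le]
  congr 2
  simp only [Fintype.card_fin]
  push_cast
  field_simp

end P254
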